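import Mathlib

/-!
# P072: a bound of Birch type

`0 = (x - c) ⬝ᵥ s`, so `∑ (x i - c i) * log (x i) ≤ Λ * ∑ |x i - c i|`. For fixed `c i > 0` the function
`x ↦ (x - c i) * log x - Λ * |x - c i|` of `x > 0` is bounded below and tends to `+∞` as `x → 0`
and as `x → ∞`.
-/

namespace Vale.Agent.P072

open Matrix

/-- radius beyond which the one variable function is at least linear in `|log x|` -/
private noncomputable def birchR (c Λ : ℝ) : ℝ := |Λ| + |Real.log c| + 1

/-- the one variable function is large when `|log x|` is large -/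
private theorem birch_far {c Λ x : ℝ} (hc : 0 < c) (hx : 0 < x)
    (h : birchR c Λ ≤ |Real.log x|) :
    c / 2 * (|Real.log x| - |Λ|) ≤ (x - c) * Real.log x - Λ * |x - c| := by
  unfold birchR at h
  have hΛ := le_abs_self Λ
  have hΛ0 := abs_nonneg Λ
  have hl1 := le_abs_self (Real.log c)
  have hl2 := neg_abs_le (Real.log c)
  have hl3 := abs_nonneg (Real.log c)
  rcases le_total 0 (Real.log x) with h0 | h0
  · rw [abs_of_nonneg h0] at h ⊢
    have hx2 : 2 * c ≤ x := by
      have h1 : Real.log c + 1 ≤ Real.log x := by linarith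
      have h2 : Real.exp (Real.log c + 1) ≤ x := by
        rw [← Real.exp_log hx]
        exact Real.exp_le_exp.2 h1
      rw [Real.exp_add, Real.exp_log hc] at h2
      have h3 := Real.add_one_le_exp (1 : ℝ)
      have h4 := mul_le_mul_of_nonneg_left h3 hc.le
      linarith
    rw [abs_of_nonneg (by linarith : 0 ≤ x - c)]
    have h5 : (x - c) * Real.log x - Λ * (x - c) = (x - c) * (Real.log x - Λ) := by ring
    rw [h5]
    exact mul_le_mul (by linarith) (by linarith) (by linarith) (by linarith)
  · rw [abs_of_nonpos h0] at h ⊢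
    have hx2 : 2 * x ≤ c := by
      have h1 : Real.log x + 1 ≤ Real.log c := by linarith
      have h2 : Real.exp (Real.log x + 1) ≤ c := by
        rw [← Real.exp_log hc]
        exact Real.exp_le_exp.2 h1
      rw [Real.exp_add, Real.exp_log hx] at h2
      have h3 := Real.add_one_le_exp (1 : ℝ)
      have h4 := mul_le_mul_of_nonneg_left h3 hx.le
      linarith
    rw [abs_of_nonpos (by linarith : x - c ≤ 0)]
    have h5 : (x - c) * Real.log x - Λ * -(x - c) = (c - x) * (-Real.log x - Λ) := by ring
    rw [h5]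
    exact mul_le_mul (by linarith) (by linarith) (by linarith) (by linarith)

/-- lower bound of the one variable function -/
private noncomputable def birchM (c Λ : ℝ) : ℝ :=
  (Real.exp (birchR c Λ) + c) * (birchR c Λ + |Λ|)

private theorem birch_low {c Λ x : ℝ} (hc : 0 < c) (hx : 0 < x) :
    -birchM c Λ ≤ (x - c) * Real.log x - Λ * |x - c| := by
  have hR : 0 ≤ birchR c Λ := by
    unfold birchR
    positivity
  have hM : 0 ≤ birchM c Λ := by
    unfold birchM
    positivity
  rcases le_total (birchR c Λ) |Real.log x| with h | h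
  · have h1 := birch_far hc hx h
    have h2 : |Λ| ≤ |Real.log x| := by
      refine le_trans ?_ h
      unfold birchR
      have := abs_nonneg (Real.log c)
      linarith
    have h3 := mul_nonneg (by linarith : 0 ≤ c / 2) (sub_nonneg.2 h2)
    linarith
  · have hx1 : x ≤ Real.exp (birchR c Λ) := by
      rw [← Real.exp_log hx]
      exact Real.exp_le_exp.2 ((le_abs_self _).trans h)
    have hd : |x - c| ≤ Real.exp (birchR c Λ) + c := by
      rw [abs_le]
      constructor <;> linarith
    have h1 : |(x - c) * Real.log x - Λ * (|x - c|)| ≤ birchM c Λ := by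
      calc |(x - c) * Real.log x - Λ * (|x - c|)| ≤ |(x - c) * Real.log x| + |Λ * (|x - c|)| :=
            abs_sub _ _
        _ = |x - c| * (|Real.log x| + |Λ|) := by
            rw [abs_mul, abs_mul, abs_abs]
            ring
        _ ≤ (Real.exp (birchR c Λ) + c) * (birchR c Λ + |Λ|) :=
            mul_le_mul hd (by linarith) (by positivity) (by positivity)
    exact (abs_le.1 h1).1

theorem birch {d : ℕ} (c : Fin d → ℝ) (hc : ∀ i, 0 < c i) (Λ : ℝ) : ∃ U : ℝ,
    ∀ S : Submodule ℝ (Fin d → ℝ), ∀ x : Fin d → ℝ, (∀ i, 0 < x i) → x - c ∈ S →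
      ∀ s : Fin d → ℝ, (∀ v ∈ S, v ⬝ᵥ s = 0) → (∀ i, |Real.log (x i) - s i| ≤ Λ) →
        ∀ i, |Real.log (x i)| ≤ U := by
  have hR : ∀ i, 0 ≤ birchR (c i) Λ := by
    intro i
    unfold birchR
    positivity
  have hM : ∀ i, 0 ≤ birchM (c i) Λ := by
    intro i
    have := hR i
    have := hc i
    unfold birchM
    positivity
  have hMs : 0 ≤ ∑ i, birchM (c i) Λ := Finset.sum_nonneg fun i _ => hM i
  refine ⟨∑ i, (birchR (c i) Λ + |Λ| + 2 * (∑ j, birchM (c j) Λ) / c i), ?_⟩
  intro S x hx hxS s hs hlog i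
  have hterm : ∀ i, 0 ≤ birchR (c i) Λ + |Λ| + 2 * (∑ j, birchM (c j) Λ) / c i := by
    intro i
    have := hR i
    have := hc i
    positivity
  refine le_trans ?_ (Finset.single_le_sum (f := fun i =>
    birchR (c i) Λ + |Λ| + 2 * (∑ j, birchM (c j) Λ) / c i) (fun i _ => hterm i)
    (Finset.mem_univ i))
  have hdot : ∑ i, (x i - c i) * s i = 0 := hs _ hxS
  have hsum : ∑ i, ((x i - c i) * Real.log (x i) - Λ * |x i - c i|) ≤ 0 := by
    have h1 : ∑ i, ((x i - c i) * Real.log (x i) - Λ * |x i - c i|) =
        ∑ i, ((x i - c i) * (Real.log (x i) - s i) - Λ * |x i - c i|) + ∑ i, (x i - c i) * s i := by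
      rw [← Finset.sum_add_distrib]
      exact Finset.sum_congr rfl fun i _ => by ring
    rw [h1, hdot, add_zero]
    refine Finset.sum_nonpos fun i _ => ?_
    have h2 : (x i - c i) * (Real.log (x i) - s i) ≤ |x i - c i| * Λ := by
      refine (le_abs_self _).trans ?_
      rw [abs_mul]
      exact mul_le_mul_of_nonneg_left (hlog i) (abs_nonneg _)
    linarith
  have hci := hc i
  rcases le_total (birchR (c i) Λ) |Real.log (x i)| with h | h
  · have hfar := birch_far hci (hx i) h
    have hle : (x i - c i) * Real.log (x i) - Λ * |x i - c i| ≤ ∑ j, birchM (c j) Λ := by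
      have h3 : ∑ j ∈ Finset.univ.erase i, ((x j - c j) * Real.log (x j) - Λ * |x j - c j|) +
          ((x i - c i) * Real.log (x i) - Λ * |x i - c i|) ≤ 0 := by
        rw [Finset.sum_erase_add _ _ (Finset.mem_univ i)]
        exact hsum
      have h4 : ∑ j ∈ Finset.univ.erase i, -birchM (c j) Λ ≤
          ∑ j ∈ Finset.univ.erase i, ((x j - c j) * Real.log (x j) - Λ * |x j - c j|) :=
        Finset.sum_le_sum fun j _ => birch_low (hc j) (hx j)
      rw [Finset.sum_neg_distrib] at h4
      have h5 : ∑ j ∈ Finset.univ.erase i, birchM (c j) Λ ≤ ∑ j, birchM (c j) Λ :=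
        Finset.sum_le_sum_of_subset_of_nonneg (Finset.erase_subset _ _) fun j _ _ => hM j
      linarith
    have h6 : c i / 2 * (|Real.log (x i)| - |Λ|) ≤ ∑ j, birchM (c j) Λ := hfar.trans hle
    have h7 : |Real.log (x i)| - |Λ| ≤ 2 * (∑ j, birchM (c j) Λ) / c i := by
      rw [le_div_iff₀ hci]
      linarith
    have := hR i
    linarith
  · have h8 : 0 ≤ 2 * (∑ j, birchM (c j) Λ) / c i := by positivity
    have h9 := abs_nonneg Λ
    linarith

end Vale.Agent.P072
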