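import Vale.Agent.Lib.P072.Sys

/-!
# P072: existence of threshold systems (Gaussian elimination closure)

`last a` = last index with `a i ≠ 0`; `norm a = a / a (last a)`. Start with the normalised
nonzero vectors of `S` and the tie vectors; add the normalised differences `norm (v - v')` of
distinct vectors with the same last index, `d` times. (The last index of the difference is
smaller; the vectors with last index `≥ d - n` do not change any more after the `n`-th step.)
Alternatively define the finite sets `V k` by downward recursion on `k`. Finally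
`g` = minimum of `1`, of the `|γ|` and of the `|α|` (finitely many positive numbers), `C` = maximum
of `1` and of the `∑ i, |v i|`.
-/

namespace Vale.Agent.P072

/-- `v` is monic with last index `k`. -/
def Mon {d : ℕ} (k : Fin d) (v : Fin d → ℝ) : Prop := v k = 1 ∧ ∀ i, k < i → v i = 0

theorem Mon.unique {d : ℕ} {k j : Fin d} {v : Fin d → ℝ} (h : Mon k v) (h' : Mon j v) : k = j := by
  rcases lt_trichotomy k j with h1 | h1 | h1
  · have h2 := h.2 j h1
    rw [h'.1] at h2
    exact absurd h2 one_ne_zero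
  · exact h1
  · have h2 := h'.2 k h1
    rw [h.1] at h2
    exact absurd h2 one_ne_zero

theorem exists_mon {d : ℕ} {a : Fin d → ℝ} (ha : a ≠ 0) :
    ∃ v : Fin d → ℝ, ∃ k, ∃ α : ℝ, Mon k v ∧ α ≠ 0 ∧ a = α • v := by
  classical
  have hne : (Finset.univ.filter fun i => a i ≠ 0).Nonempty := by
    by_contra h
    rw [Finset.not_nonempty_iff_eq_empty] at h
    refine ha (funext fun i => ?_)
    by_contra hi
    have : i ∈ Finset.univ.filter fun i => a i ≠ 0 := by simpa using hi
    rw [h] at this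
    simp at this
  set k := (Finset.univ.filter fun i => a i ≠ 0).max' hne with hk
  have hak : a k ≠ 0 := by
    have := Finset.max'_mem _ hne
    rw [← hk] at this
    simpa using this
  refine ⟨(a k)⁻¹ • a, k, a k, ⟨?_, ?_⟩, hak, ?_⟩
  · simp [hak]
  · intro i hi
    have : a i = 0 := by
      by_contra h
      have h1 : i ∈ Finset.univ.filter fun i => a i ≠ 0 := by simpa using h
      have h2 := Finset.le_max' _ i h1
      exact absurd hi (not_lt.2 h2)
    simp [this]
  · rw [smul_smul, mul_inv_cancel₀ hak, one_smul]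

open Classical in
/-- Normalisation. -/
noncomputable def nrm {d : ℕ} (a : Fin d → ℝ) : Fin d → ℝ :=
  if h : a ≠ 0 then (exists_mon h).choose else 0

open Classical in
/-- The coefficient of the normalisation. -/
noncomputable def cof {d : ℕ} (a : Fin d → ℝ) : ℝ :=
  if h : a ≠ 0 then (exists_mon h).choose_spec.choose_spec.choose else 1

theorem nrm_spec {d : ℕ} {a : Fin d → ℝ} (h : a ≠ 0) :
    ∃ k, Mon k (nrm a) ∧ cof a ≠ 0 ∧ a = cof a • nrm a := by
  have h1 := (exists_mon h).choose_spec.choose_spec.choose_spec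
  refine ⟨(exists_mon h).choose_spec.choose, ?_⟩
  simp only [nrm, cof, dif_pos h]
  exact h1

theorem cof_ne {d : ℕ} (a : Fin d → ℝ) : cof a ≠ 0 := by
  by_cases h : a ≠ 0
  · obtain ⟨k, _, h1, _⟩ := nrm_spec h
    exact h1
  · simp [cof, h]

/-- The level of a normalised difference is smaller. -/
theorem level_lt {d : ℕ} {k : Fin d} {v v' : Fin d → ℝ} (h : Mon k v) (h' : Mon k v')
    (hne : v ≠ v') : ∃ j, j < k ∧ Mon j (nrm (v - v')) := by
  obtain ⟨j, h1, h2, h3⟩ := nrm_spec (sub_ne_zero.2 hne)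
  refine ⟨j, ?_, h1⟩
  by_contra hcon
  have h4 : (v - v') j = 0 := by
    rcases (not_lt.1 hcon).eq_or_lt with h5 | h5
    · rw [← h5, Pi.sub_apply, h.1, h'.1, sub_self]
    · rw [Pi.sub_apply, h.2 j h5, h'.2 j h5, sub_self]
  rw [h3, Pi.smul_apply, h1.1, smul_eq_mul, mul_one] at h4
  exact h2 h4

open Classical in
/-- The iterated closure. -/
noncomputable def clo {d : ℕ} (T : Finset (Fin d → ℝ)) : ℕ → Finset (Fin d → ℝ)
  | 0 => T
  | n + 1 => clo T n ∪ (((clo T n) ×ˢ (clo T n)).filter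
      fun p => p.1 ≠ p.2 ∧ ∃ k, Mon k p.1 ∧ Mon k p.2).image fun p => nrm (p.1 - p.2)

theorem clo_mon {d : ℕ} {T : Finset (Fin d → ℝ)} (hT : ∀ v ∈ T, ∃ k, Mon k v) (n : ℕ) :
    ∀ v ∈ clo T n, ∃ k, Mon k v := by
  classical
  induction n with
  | zero => exact hT
  | succ n ih =>
    intro v hv
    rw [clo, Finset.mem_union] at hv
    rcases hv with hv | hv
    · exact ih v hv
    · rw [Finset.mem_image] at hv
      obtain ⟨p, hp, rfl⟩ := hv
      rw [Finset.mem_filter] at hp
      obtain ⟨_, hne, k, h1, h2⟩ := hp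
      obtain ⟨j, _, h3⟩ := level_lt h1 h2 hne
      exact ⟨j, h3⟩

theorem clo_subset {d : ℕ} (T : Finset (Fin d → ℝ)) (n : ℕ) : T ⊆ clo T n := by
  induction n with
  | zero => exact Finset.Subset.refl _
  | succ n ih =>
    rw [clo]
    exact ih.trans Finset.subset_union_left

theorem clo_diff {d : ℕ} {T : Finset (Fin d → ℝ)} {n : ℕ} {k : Fin d} {v v' : Fin d → ℝ}
    (hv : v ∈ clo T n) (hv' : v' ∈ clo T n) (h : Mon k v) (h' : Mon k v') (hne : v ≠ v') :
    nrm (v - v') ∈ clo T (n + 1) := by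
  classical
  rw [clo, Finset.mem_union]
  refine Or.inr (Finset.mem_image.2 ⟨(v, v'), ?_, rfl⟩)
  rw [Finset.mem_filter, Finset.mem_product]
  exact ⟨⟨hv, hv'⟩, hne, k, h, h'⟩

/-- The high levels are stable. -/
theorem clo_stable {d : ℕ} {T : Finset (Fin d → ℝ)} (n : ℕ) :
    ∀ v ∈ clo T (n + 1), ∀ k : Fin d, Mon k v → d ≤ k + 1 + n → v ∈ clo T n := by
  classical
  induction n with
  | zero =>
    intro v hv k hk hd
    rw [clo, Finset.mem_union] at hv
    rcases hv with hv | hv
    · exact hv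
    · rw [Finset.mem_image] at hv
      obtain ⟨p, hp, rfl⟩ := hv
      rw [Finset.mem_filter] at hp
      obtain ⟨_, hne, k', h1, h2⟩ := hp
      obtain ⟨j, hj, h3⟩ := level_lt h1 h2 hne
      rw [hk.unique h3] at hd
      have := k'.isLt
      have hj' : (j : ℕ) < k' := hj
      omega
  | succ n ih =>
    intro v hv k hk hd
    rw [clo, Finset.mem_union] at hv
    rcases hv with hv | hv
    · exact hv
    · rw [Finset.mem_image] at hv
      obtain ⟨p, hp, rfl⟩ := hv
      rw [Finset.mem_filter, Finset.mem_product] at hp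
      obtain ⟨⟨hp1, hp2⟩, hne, k', h1, h2⟩ := hp
      obtain ⟨j, hj, h3⟩ := level_lt h1 h2 hne
      rw [hk.unique h3] at hd
      have hj' : (j : ℕ) < k' := hj
      exact clo_diff (ih _ hp1 k' h1 (by omega)) (ih _ hp2 k' h2 (by omega)) h1 h2 hne

theorem exists_low {ι : Type*} (F : Finset ι) (f : ι → ℝ) (hf : ∀ x ∈ F, 0 < f x) :
    ∃ g : ℝ, 0 < g ∧ g ≤ 1 ∧ ∀ x ∈ F, g ≤ f x := by
  classical
  induction F using Finset.induction_on with
  | empty => exact ⟨1, one_pos, le_rfl, fun x hx => by simp at hx⟩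
  | insert a F ha ih =>
    obtain ⟨g, h1, h2, h3⟩ := ih fun x hx => hf x (Finset.mem_insert_of_mem hx)
    refine ⟨min g (f a), lt_min h1 (hf a (Finset.mem_insert_self _ _)),
      (min_le_left _ _).trans h2, fun x hx => ?_⟩
    rw [Finset.mem_insert] at hx
    rcases hx with rfl | hx
    · exact min_le_right _ _
    · exact (min_le_left _ _).trans (h3 x hx)

theorem exists_sys (d : ℕ) (S : Finset (Fin d → ℝ)) : ∃ s : Sys d, ∀ a ∈ S, a ≠ 0 →
    ∃ k, ∃ v ∈ s.V k, ∃ α : ℝ, s.g ≤ |α| ∧ a = α • v := by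
  classical
  -- the initial set
  let ties : Finset (Fin d → ℝ) := ((Finset.univ : Finset (Fin d × Fin d)).filter
    fun p => (p.2 : ℕ) = p.1 + 1).image fun p => Pi.single p.2 1 - Pi.single p.1 1
  let T : Finset (Fin d → ℝ) := (S.filter fun a => a ≠ 0).image nrm ∪ ties
  have hties : ∀ j k : Fin d, (k : ℕ) = j + 1 →
      Mon k (Pi.single k 1 - Pi.single j 1 : Fin d → ℝ) := by
    intro j k hjk
    have hjk' : j ≠ k := by
      intro h
      rw [h] at hjk
      omega
    refine ⟨?_, fun i hi => ?_⟩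
    · simp [hjk'.symm]
    · have h1 : i ≠ k := hi.ne'
      have h2 : i ≠ j := by
        intro h
        have : (k : ℕ) < i := hi
        rw [h] at this
        omega
      simp [h1, h2]
  have hT : ∀ v ∈ T, ∃ k, Mon k v := by
    intro v hv
    rw [Finset.mem_union] at hv
    rcases hv with hv | hv
    · rw [Finset.mem_image] at hv
      obtain ⟨a, ha, rfl⟩ := hv
      obtain ⟨k, h1, _⟩ := nrm_spec (Finset.mem_filter.1 ha).2
      exact ⟨k, h1⟩
    · rw [Finset.mem_image] at hv
      obtain ⟨p, hp, rfl⟩ := hv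
      exact ⟨p.2, hties p.1 p.2 (Finset.mem_filter.1 hp).2⟩
  let W : Finset (Fin d → ℝ) := clo T d
  obtain ⟨g1, hg1, hg1', hg1''⟩ := exists_low (W ×ˢ W) (fun p => |cof (p.1 - p.2)|)
    fun p _ => abs_pos.2 (cof_ne _)
  obtain ⟨g2, hg2, hg2', hg2''⟩ := exists_low S (fun a => |cof a|) fun p _ => abs_pos.2 (cof_ne _)
  have hWtie : ∀ j k : Fin d, (k : ℕ) = j + 1 →
      (Pi.single k 1 - Pi.single j 1 : Fin d → ℝ) ∈ W := by
    intro j k hjk
    refine clo_subset T d (Finset.mem_union_right _ (Finset.mem_image.2 ⟨(j, k), ?_, rfl⟩))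
    rw [Finset.mem_filter]
    exact ⟨Finset.mem_univ _, hjk⟩
  have hWdiff : ∀ (k : Fin d) (v v' : Fin d → ℝ), v ∈ W → v' ∈ W → Mon k v → Mon k v' → v ≠ v' →
      ∃ j, j < k ∧ Mon j (nrm (v - v')) ∧ nrm (v - v') ∈ W := by
    intro k v v' hv hv' h h' hne
    obtain ⟨j, hj, h1⟩ := level_lt h h' hne
    exact ⟨j, hj, h1, clo_stable d _ (clo_diff hv hv' h h' hne) j h1 (by omega)⟩
  let s : Sys d :=
    { V := fun k => W.filter fun v => Mon k v
      g := min g1 g2
      C := 1 + ∑ v ∈ W, ∑ i, |v i|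
      g_pos := lt_min hg1 hg2
      g_le := (min_le_left _ _).trans hg1'
      one_le_C := by
        have : 0 ≤ ∑ v ∈ W, ∑ i, |v i| :=
          Finset.sum_nonneg fun v _ => Finset.sum_nonneg fun i _ => abs_nonneg _
        linarith
      monic := fun k v hv => (Finset.mem_filter.1 hv).2.1
      supp := fun k v hv i hi => (Finset.mem_filter.1 hv).2.2 i hi
      sum_le := fun k v hv => by
        have h1 : ∑ i, |v i| ≤ ∑ v ∈ W, ∑ i, |v i| :=
          Finset.single_le_sum (f := fun v : Fin d → ℝ => ∑ i, |v i|)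
            (fun v _ => Finset.sum_nonneg fun i _ => abs_nonneg _) (Finset.mem_filter.1 hv).1
        linarith
      tie := fun j k hjk => Finset.mem_filter.2 ⟨hWtie j k hjk, hties j k hjk⟩
      elim := fun k v hv v' hv' hne => by
        rw [Finset.mem_filter] at hv hv'
        obtain ⟨j, hj, h1, h2⟩ := hWdiff k v v' hv.1 hv'.1 hv.2 hv'.2 hne
        obtain ⟨_, _, _, h3⟩ := nrm_spec (sub_ne_zero.2 hne)
        exact ⟨j, hj, _, Finset.mem_filter.2 ⟨h2, h1⟩, cof (v - v'),
          (min_le_left _ _).trans (hg1'' (v, v') (Finset.mem_product.2 ⟨hv.1, hv'.1⟩)), h3⟩ }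
  refine ⟨s, fun a ha ha0 => ?_⟩
  obtain ⟨k, h1, _, h2⟩ := nrm_spec ha0
  refine ⟨k, nrm a, Finset.mem_filter.2 ⟨clo_subset T d (Finset.mem_union_left _
    (Finset.mem_image.2 ⟨a, Finset.mem_filter.2 ⟨ha, ha0⟩, rfl⟩)), h1⟩, cof a,
    (min_le_right _ _).trans (hg2'' a ha), h2⟩

end Vale.Agent.P072
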