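import Vale.Agent.Lib.P072.Ext

/-!
# P072: competitors

`comp`: apply `ext` with `m = p` to `plat w k z`. Below `k`: `mem_congr`; at `k`: `hz`; for `k < j < p`
the coordinate `j` is active by the tie vector (`act_of_tie`). Finally `act w' j` from
`act_congr`.

`val_diff`: split the sum `val w' u - val w u`. Terms `j < k` vanish (`cst_congr`); `j = k` gives
`(z - w k) * exp (u k) - cst w' k + cst w k`; `k < j < p` gives `≥ (z - w k) * exp (u j) - γ`; `j ≥ p`
gives `≥ - 3 * Lc * exp (u j) ≥ - 3 * Lc * β` by `ht` and `up`.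
-/

namespace Vale.Agent.P072

open Matrix

namespace Sys

variable {d : ℕ} {s : Sys d} {K M : ℝ}

theorem comp_plat_lt {w : Fin d → ℝ} {k j : Fin d} {z : ℝ} (h : j < k) : plat w k z j = w j := by
  simp [plat, h]

theorem comp_plat_ge {w : Fin d → ℝ} {k j : Fin d} {z : ℝ} (h : k ≤ j) : plat w k z j = z := by
  simp [plat, not_lt.2 h]

/-- competitor: `w` below `k`, `z` on `[k, p)`, rounding of `u` from `p` on -/
theorem comp (hP : Par s K M) (w u : Fin d → ℝ) (hu : Antitone u)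
    (hw : ∀ j, s.Mem K M w j) (hwa : Antitone w) (k : Fin d) (z : ℝ) (p : ℕ)
    (hkp : (k : ℕ) < p) (hpd : p ≤ d) (hz : s.Mem K M (plat w k z) k)
    (hz1 : ∀ j : Fin d, (k : ℕ) = j + 1 → z ≤ w j)
    (hup : ∀ j : Fin d, (j : ℕ) = p → u j ≤ z + s.ell K M (plat w k z) j) :
    ∃ w' : Fin d → ℝ, (∀ j, s.Mem K M w' j) ∧ Antitone w' ∧ (∀ j, j < k → w' j = w j) ∧
      (∀ j : Fin d, k ≤ j → (j : ℕ) < p → w' j = z) ∧
      (∀ j : Fin d, k < j → (j : ℕ) < p → s.act w' j) ∧
      (∀ j : Fin d, p ≤ (j : ℕ) → Real.exp (u j) * (u j - 2 * Lc d K M) ≤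
        w' j * Real.exp (u j) - s.cst K M w' j) ∧
      (∀ j : Fin d, p ≤ (j : ℕ) → |w' j - u j| ≤ Lc d K M + 1) := by
  have hpred : ∀ j : Fin d, k < j → ∃ i : Fin d, (j : ℕ) = i + 1 ∧ k ≤ i := by
    intro j hj
    have hj' : (k : ℕ) < j := hj
    refine ⟨⟨(j : ℕ) - 1, by omega⟩, ?_, ?_⟩
    · show (j : ℕ) = (j : ℕ) - 1 + 1
      omega
    · show (k : ℕ) ≤ (j : ℕ) - 1
      omega
  have hA : ∀ j : Fin d, (j : ℕ) < p → s.Mem K M (plat w k z) j := by
    intro j hj
    rcases lt_trichotomy j k with h | h | h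
    · refine (s.mem_congr (w := w) (w' := plat w k z) ?_).1 (hw j)
      intro i hi
      rw [comp_plat_lt (lt_of_le_of_lt hi h)]
    · rw [h]; exact hz
    · obtain ⟨i, hi, hki⟩ := hpred j h
      refine Or.inl (s.act_of_tie hi ?_)
      rw [comp_plat_ge h.le, comp_plat_ge hki]
  have hB : ∀ i j : Fin d, i ≤ j → (j : ℕ) < p → plat w k z j ≤ plat w k z i := by
    intro i j hij hj
    rcases lt_or_ge j k with h | h
    · rw [comp_plat_lt h, comp_plat_lt (lt_of_le_of_lt hij h)]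
      exact hwa hij
    · rw [comp_plat_ge h]
      rcases lt_or_ge i k with h' | h'
      · rw [comp_plat_lt h']
        have hi' : (i : ℕ) < k := h'
        have h2 := hz1 ⟨(k : ℕ) - 1, by omega⟩ (by show (k : ℕ) = (k : ℕ) - 1 + 1; omega)
        refine h2.trans (hwa ?_)
        show (i : ℕ) ≤ (k : ℕ) - 1
        omega
      · rw [comp_plat_ge h']
  have hC : ∀ i j : Fin d, (j : ℕ) = p → (j : ℕ) = i + 1 →
      u j ≤ plat w k z i + s.ell K M (plat w k z) j := by
    intro i j hj hji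
    rw [comp_plat_ge (show k ≤ i by show (k : ℕ) ≤ i; omega)]
    exact hup j hj
  obtain ⟨w', hm, ha, hlt, hval, herr⟩ := ext hP (plat w k z) u hu p hpd hA hB hC
  · have hplat : ∀ j : Fin d, k ≤ j → (j : ℕ) < p → w' j = z := by
      intro j hkj hj
      rw [hlt j hj, comp_plat_ge hkj]
    refine ⟨w', hm, ha, ?_, hplat, ?_, hval, herr⟩
    · intro j hj
      have hj' : (j : ℕ) < k := hj
      rw [hlt j (by omega), comp_plat_lt hj]
    · intro j hkj hj
      obtain ⟨i, hi, hki⟩ := hpred j hkj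
      refine s.act_of_tie hi ?_
      rw [hplat j hkj.le hj, hplat i hki (by omega)]

/-- the first coordinate where `w` drops below `w k` -/
theorem first_drop (w : Fin d → ℝ) (hwa : Antitone w) (k : Fin d) : ∃ p : ℕ, (k : ℕ) < p ∧ p ≤ d ∧
    (∀ j : Fin d, k ≤ j → (j : ℕ) < p → w j = w k) ∧ (∀ j : Fin d, (j : ℕ) = p → w j < w k) := by
  classical
  have hex : ∃ p : ℕ, (k : ℕ) < p ∧ ∀ h : p < d, w ⟨p, h⟩ < w k :=
    ⟨d, k.2, fun h => absurd h (lt_irrefl _)⟩
  have hspec := Nat.find_spec hex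
  have hle : Nat.find hex ≤ d := Nat.find_min' hex ⟨k.2, fun h => absurd h (lt_irrefl _)⟩
  refine ⟨Nat.find hex, hspec.1, hle, ?_, ?_⟩
  · intro j hkj hj
    refine le_antisymm (hwa hkj) ?_
    rcases hkj.eq_or_lt with h | h
    · rw [h]
    · have h3 := Nat.find_min hex hj
      by_contra hcon
      push Not at hcon
      exact h3 ⟨h, fun _ => hcon⟩
  · intro j hj
    have h4 := hspec.2 (by rw [← hj]; exact j.2)
    have h5 : (⟨Nat.find hex, by rw [← hj]; exact j.2⟩ : Fin d) = j := Fin.ext hj.symm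
    rw [h5] at h4
    exact h4

/-- after a drop, `u` is far below (`Mem` if `p` is free, `gap` if `p` is active, for the tie
vector) -/
theorem drop_le (hP : Par s K M) {w u : Fin d → ℝ} (hw : ∀ j, s.Mem K M w j) {q p : Fin d}
    (h : (p : ℕ) = q + 1) (hlt : w p < w q) (hU : u p ≤ w p + s.rad K M w p + 2) :
    u p ≤ w q - s.ell K M w p + 2 := by
  have htie := s.tie q p h
  have hdot : (Pi.single p 1 - Pi.single q 1 : Fin d → ℝ) ⬝ᵥ w = w p - w q := tie_dot h
  have hell : 8 ≤ s.ell K M w p := eight_le_ell hP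
  by_cases hact : s.act w p
  · rw [s.rad_act hact] at hU
    obtain ⟨v, hv, hv0⟩ := hact
    have hne : v ⬝ᵥ w ≠ (Pi.single p 1 - Pi.single q 1 : Fin d → ℝ) ⬝ᵥ w := by
      rw [hv0, hdot]
      intro h0
      linarith
    have hg := gap hP (fun j _ => hw j) hv htie hne
    rw [hv0, hdot, zero_sub, neg_sub, abs_of_pos (by linarith)] at hg
    linarith
  · rw [s.rad_free hact] at hU
    rcases hw p with h1 | ⟨_, h2⟩
    · exact absurd h1 hact
    · have h3 := h2 _ htie
      rw [hdot, abs_sub_comm, abs_of_pos (by linarith)] at h3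
      linarith

theorem val_diff (hP : Par s K M) {w w' u : Fin d → ℝ} (k : Fin d) (p : ℕ) (hkp : (k : ℕ) < p)
    {z γ β : ℝ} (hγ : 0 ≤ γ) (hβ : 0 ≤ β)
    (h1 : ∀ j, j < k → w' j = w j)
    (h2 : ∀ j : Fin d, k ≤ j → (j : ℕ) < p → w j = w k)
    (h3 : ∀ j : Fin d, k ≤ j → (j : ℕ) < p → w' j = z)
    (hc : ∀ j : Fin d, k < j → (j : ℕ) < p → s.cst K M w' j ≤ γ)
    (ht : ∀ j : Fin d, p ≤ (j : ℕ) → Real.exp (u j) * (u j - 2 * Lc d K M) ≤
      w' j * Real.exp (u j) - s.cst K M w' j)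
    (hb : ∀ j : Fin d, p ≤ (j : ℕ) → Real.exp (u j) ≤ β) :
    s.val K M w u + (z - w k) * (∑ j : Fin d, if k ≤ j ∧ (j : ℕ) < p then Real.exp (u j) else 0) +
      s.cst K M w k - s.cst K M w' k - d * γ - d * (3 * Lc d K M * β) ≤ s.val K M w' u := by
  have hL : 0 ≤ Lc d K M := by
    have hM : 0 ≤ M := by linarith [hP.M1]
    have hK : 0 ≤ K := by linarith [hP.K8]
    unfold Lc
    positivity
  have hLβ : 0 ≤ 3 * Lc d K M * β := by positivity
  have hterm : ∀ j : Fin d, (w j * Real.exp (u j) - s.cst K M w j) +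
      (z - w k) * (if k ≤ j ∧ (j : ℕ) < p then Real.exp (u j) else 0) +
      (if j = k then s.cst K M w k - s.cst K M w' k else 0) - γ - 3 * Lc d K M * β ≤
      w' j * Real.exp (u j) - s.cst K M w' j := by
    intro j
    rcases lt_trichotomy j k with h | h | h
    · have hc1 : s.cst K M w' j = s.cst K M w j :=
        s.cst_congr (fun i hi => h1 i (lt_of_le_of_lt hi h))
      rw [h1 j h, hc1, if_neg (fun hh => absurd hh.1 (not_le.2 h)), if_neg h.ne]
      linarith
    · subst h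
      rw [if_pos ⟨le_rfl, hkp⟩, if_pos rfl, h3 j le_rfl hkp]
      nlinarith
    · rw [if_neg h.ne']
      rcases lt_or_ge (j : ℕ) p with hj | hj
      · rw [if_pos ⟨h.le, hj⟩, h3 j h.le hj, h2 j h.le hj]
        have h4 := hc j h hj
        have h5 : 0 ≤ s.cst K M w j := (Real.exp_pos _).le
        nlinarith
      · rw [if_neg (fun hh => absurd hh.2 (not_lt.2 hj))]
        have h6 := ht j hj
        have h7 := up hP w u j
        have h8 := hb j hj
        have h9 : 3 * Lc d K M * Real.exp (u j) ≤ 3 * Lc d K M * β :=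
          mul_le_mul_of_nonneg_left h8 (by positivity)
        nlinarith
  have hsum := Finset.sum_le_sum (fun j (_ : j ∈ Finset.univ) => hterm j)
  simp only [Finset.sum_sub_distrib, Finset.sum_add_distrib, Finset.sum_ite_eq', Finset.mem_univ,
    if_true, Finset.sum_const, Finset.card_univ, Fintype.card_fin, nsmul_eq_mul,
    ← Finset.mul_sum] at hsum
  unfold val
  simp only [Finset.sum_sub_distrib]
  linarith

end Sys

end Vale.Agent.P072
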