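import Vale.Agent.Lib.P072.Gap

/-!
# P072: compatibility for sorted coordinates

`near`: the lower bound is `hD`. Upper bound: let `q ≤ k` be the first index with `w q = w k`. By
`hU` at `q`: `u k ≤ u q ≤ w q + rad q + 2 = w k + rad q + 2`. If `q = k` we are done
(`2 ≤ kap`). If `q < k` then `k` is active by the tie vector and `rad q ≤ ell q` and
if `q` is active `ell q ≤ ell k / K`; if `q` is free `rad q = 0`.

`compat`: let `T = w k - v ⬝ᵥ w`. Then `v ⬝ᵥ u - v ⬝ᵥ w = (u k - w k) + ∑_{i<k} v i (u i - w i)`,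
and `|∑_{i<k} v i (u i - w i)| ≤ C * max_{i<k} (rad i + kap) ≤ ell k / 8` by `ell_of_act`
(`rad i ≤ ell k / K`), `16 C ≤ K`, `8 C (kap + 4) ≤ M ≤ ell k / K`. If `v ⬝ᵥ w ≠ 0` then
`|v ⬝ᵥ w| ≥ ell k` (free `k`, and `|u k - w k| ≤ kap`) or `|v ⬝ᵥ w| ≥ 8 ell k` (active `k`: `gap`
with the vector `v'` which has `v' ⬝ᵥ w = 0`, and `|u k - w k| ≤ ell k + kap`). Hence `v ⬝ᵥ u` has
the same sign as `v ⬝ᵥ w` and `|v ⬝ᵥ u| > ell k / 4`.
-/

namespace Vale.Agent.P072

open Matrix

namespace Sys

variable {d : ℕ} {s : Sys d} {K M : ℝ}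

theorem near (hP : Par s K M) {w u : Fin d → ℝ} (hw : ∀ k, s.Mem K M w k) (hwa : Antitone w)
    (hu : Antitone u)
    (hU : ∀ k : Fin d, (∀ j : Fin d, (k : ℕ) = j + 1 → w k < w j) →
      u k ≤ w k + s.rad K M w k + 2)
    (hD : ∀ k : Fin d, w k - s.rad K M w k - kap d K M ≤ u k) :
    ∀ k, |w k - u k| ≤ s.rad K M w k + kap d K M := by
  intro k
  have hkap := kap_pos hP (s := s)
  rw [abs_le]
  constructor
  · -- the first index with the same value
    have hex : ∃ q : ℕ, ∃ h : q < d, w ⟨q, h⟩ = w k := ⟨k, k.2, rfl⟩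
    classical
    obtain ⟨hq1, hq2⟩ := Nat.find_spec hex
    have hqk : Nat.find hex ≤ (k : ℕ) := Nat.find_min' hex ⟨k.2, rfl⟩
    obtain ⟨q, hq⟩ : ∃ q : Fin d, q = ⟨Nat.find hex, hq1⟩ := ⟨_, rfl⟩
    rw [← hq] at hq2
    have hqv : (q : ℕ) = Nat.find hex := by rw [hq]
    have hqk' : q ≤ k := by
      rw [Fin.le_def, hqv]
      exact hqk
    have hfirst : ∀ j : Fin d, (q : ℕ) = j + 1 → w q < w j := by
      intro j hj
      have h1 : j ≤ q := by
        rw [Fin.le_def]
        omega
      refine lt_of_le_of_ne (hwa h1) ?_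
      intro h2
      have h3 : (j : ℕ) < Nat.find hex := by omega
      exact Nat.find_min hex h3 ⟨j.2, h2.symm.trans hq2⟩
    have h1 := hU q hfirst
    have h2 := hu hqk'
    have h3 : s.rad K M w q + 2 ≤ s.rad K M w k + kap d K M := by
      rcases eq_or_lt_of_le hqk' with h4 | h4
      · rw [h4]
        linarith
      · have hk0 : 0 < (k : ℕ) := by
          have h5 := Fin.lt_def.1 h4
          omega
        obtain ⟨j, hj⟩ : ∃ j : Fin d, (k : ℕ) = j + 1 :=
          ⟨⟨k - 1, by omega⟩, by simp only; omega⟩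
        have hqj : q ≤ j := by
          rw [Fin.le_def]
          have h5 := Fin.lt_def.1 h4
          omega
        have hjk : j ≤ k := by
          rw [Fin.le_def]
          omega
        have hwj : w k = w j := by
          refine le_antisymm (hwa hjk) ?_
          rw [← hq2]
          exact hwa hqj
        have hact : s.act w k := s.act_of_tie hj hwj
        rw [s.rad_act hact]
        by_cases hqa : s.act w q
        · rw [s.rad_act hqa]
          have h5 := ell_of_act hP h4 hqa
          have h6 : s.ell K M w q ≤ K * s.ell K M w q := by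
            have h7 := eight_le_ell hP (w := w) (k := q)
            have h8 := hP.K8
            nlinarith
          linarith
        · rw [s.rad_free hqa]
          have h5 := eight_le_ell hP (w := w) (k := k)
          linarith
    rw [hq2] at h1
    linarith
  · have h1 := hD k
    linarith

theorem near' (hP : Par s K M) {w u : Fin d → ℝ}
    (h : ∀ k, |w k - u k| ≤ s.rad K M w k + kap d K M) (k : Fin d) : |w k - u k| ≤ Lc d K M := by
  have h1 := ell_le hP (w := w) (k := k)
  have h2 := rad_le hP (w := w) (k := k)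
  have h3 := M_le_ell hP (w := w) (k := k)
  have h4 := hP.Mk
  have h5 := s.one_le_C
  have h6 := kap_pos hP (s := s)
  have h7 := hP.K8
  have h8 := h k
  have h9 := eight_le_ell hP (w := w) (k := k)
  have h10 : kap d K M ≤ s.C * (kap d K M + 4) := by nlinarith
  have h11 : 2 * s.ell K M w k ≤ K * s.ell K M w k := by nlinarith
  linarith

theorem compat (hP : Par s K M) {w u : Fin d → ℝ} (hw : ∀ k, s.Mem K M w k)
    (h : ∀ k, |w k - u k| ≤ s.rad K M w k + kap d K M) (k : Fin d) (v : Fin d → ℝ)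
    (hv : v ∈ s.V k) :
    (|v ⬝ᵥ u| ≤ s.ell K M w k / 4 → v ⬝ᵥ w = 0) ∧ (0 ≤ v ⬝ᵥ u → 0 ≤ v ⬝ᵥ w) ∧
      (v ⬝ᵥ u ≤ 0 → v ⬝ᵥ w ≤ 0) := by
  have e1 := ell_ge hP (w := w) (k := k)
  have e2 := eight_le_ell hP (w := w) (k := k)
  have e3 := hP.Mk
  have e4 := s.one_le_C
  have e5 := kap_pos hP (s := s)
  have e6 := hP.K8
  have e7 := hP.KC
  have e8 := hP.M1
  have hCkap : 64 * (s.C * kap d K M) ≤ s.ell K M w k := by nlinarith
  have hkap : kap d K M ≤ s.C * kap d K M := by nlinarith
  -- the contribution of the lower coordinates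
  have hB : ∀ i ∈ Finset.univ.erase k,
      |v i * (u i - w i)| ≤ |v i| * (s.ell K M w k / K + kap d K M) := by
    intro i hi
    rw [abs_mul]
    rcases lt_trichotomy i k with hik | hik | hik
    · refine mul_le_mul_of_nonneg_left ?_ (abs_nonneg _)
      rw [abs_sub_comm]
      refine (h i).trans ?_
      have h1 : s.rad K M w i ≤ s.ell K M w k / K := by
        rw [le_div_iff₀ (by linarith)]
        by_cases ha : s.act w i
        · rw [s.rad_act ha, mul_comm]
          exact ell_of_act hP hik ha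
        · rw [s.rad_free ha, zero_mul]
          linarith
      linarith
    · exact absurd hik (Finset.ne_of_mem_erase hi)
    · rw [s.supp k v hv i hik]
      simp
  have hsplit : v ⬝ᵥ u - v ⬝ᵥ w =
      (u k - w k) + ∑ i ∈ Finset.univ.erase k, v i * (u i - w i) := by
    rw [← dotProduct_sub]
    unfold dotProduct
    rw [← Finset.add_sum_erase Finset.univ _ (Finset.mem_univ k)]
    simp only [Pi.sub_apply]
    rw [s.monic k v hv, one_mul]
  have hsum : |∑ i ∈ Finset.univ.erase k, v i * (u i - w i)| ≤ s.ell K M w k / 8 := by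
    refine (Finset.abs_sum_le_sum_abs _ _).trans ((Finset.sum_le_sum hB).trans ?_)
    rw [← Finset.sum_mul]
    have h1 : ∑ i ∈ Finset.univ.erase k, |v i| ≤ s.C := by
      refine le_trans ?_ (s.sum_le k v hv)
      exact Finset.sum_le_sum_of_subset_of_nonneg (Finset.subset_univ _)
        (fun i _ _ => abs_nonneg (v i))
    have h2 : 0 ≤ s.ell K M w k / K + kap d K M := by
      have h3 : 0 ≤ s.ell K M w k / K := div_nonneg (by linarith) (by linarith)
      linarith
    refine (mul_le_mul_of_nonneg_right h1 h2).trans ?_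
    have h3 : s.C * (s.ell K M w k / K) ≤ s.ell K M w k / 16 := by
      rw [mul_div_assoc', div_le_div_iff₀ (by linarith) (by norm_num)]
      nlinarith
    have h4 : s.C * (s.ell K M w k / K + kap d K M) =
      s.C * (s.ell K M w k / K) + s.C * kap d K M := by ring
    rw [h4]
    linarith
  have habs : |v ⬝ᵥ u - v ⬝ᵥ w| ≤ s.rad K M w k + kap d K M + s.ell K M w k / 8 := by
    rw [hsplit]
    refine (abs_add_le _ _).trans ?_
    have h1 := h k
    rw [abs_sub_comm] at h1
    linarith
  have key : v ⬝ᵥ w ≠ 0 → |v ⬝ᵥ u - v ⬝ᵥ w| + s.ell K M w k / 4 < |v ⬝ᵥ w| := by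
    intro hne
    by_cases ha : s.act w k
    · obtain ⟨v', hv', hv'0⟩ := ha
      have h1 := Sys.gap hP (w := w) (k := k) (fun j _ => hw j) hv hv' (by
        rw [hv'0]
        exact hne)
      rw [hv'0, sub_zero] at h1
      have h2 := rad_le hP (w := w) (k := k)
      linarith
    · have h1 : s.ell K M w k ≤ |v ⬝ᵥ w| := by
        rcases hw k with h2 | h2
        · exact absurd h2 ha
        · exact h2.2 v hv
      rw [s.rad_free ha] at habs
      linarith
  refine ⟨?_, ?_, ?_⟩
  · intro h1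
    by_contra hne
    have h2 := key hne
    have h3 : |v ⬝ᵥ w| ≤ |v ⬝ᵥ u| + |v ⬝ᵥ u - v ⬝ᵥ w| := by
      have h4 := abs_sub_abs_le_abs_sub (v ⬝ᵥ w) (v ⬝ᵥ u)
      rw [abs_sub_comm] at h4
      linarith
    linarith
  · intro h1
    by_contra hneg
    push Not at hneg
    have h2 := key hneg.ne
    rw [abs_of_neg hneg] at h2
    have h3 := le_abs_self (v ⬝ᵥ u - v ⬝ᵥ w)
    linarith
  · intro h1
    by_contra hpos
    push Not at hpos
    have h2 := key hpos.ne'
    rw [abs_of_pos hpos] at h2
    have h3 := neg_abs_le (v ⬝ᵥ u - v ⬝ᵥ w)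
    linarith

end Sys

end Vale.Agent.P072
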