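import Mathlib

/-!
# P072: reaction networks and mass-action systems
-/

namespace Vale.Agent.P072

/-- A complex: a vector of nonnegative integers. -/
abbrev Cx (d : ℕ) : Type := Fin d → ℕ

/-- A finite reaction network on `d` species: a finite set of complexes and a finite set of
reactions `y → y'`, which are pairs of distinct complexes. -/
structure Network (d : ℕ) where
  /-- the complexes -/
  complexes : Finset (Cx d)
  /-- the reactions; `(y, y')` stands for `y → y'` -/
  reactions : Finset (Cx d × Cx d)
  source_mem : ∀ r ∈ reactions, r.1 ∈ complexes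
  target_mem : ∀ r ∈ reactions, r.2 ∈ complexes
  source_ne_target : ∀ r ∈ reactions, r.1 ≠ r.2

/-- The monomial `x ^ y`. -/
def monom {d : ℕ} (x : Fin d → ℝ) (y : Cx d) : ℝ := ∏ i, x i ^ y i

/-- The reaction vector `y' - y` of the reaction `y → y'`. -/
def rvec {d : ℕ} (r : Cx d × Cx d) : Fin d → ℝ := fun i => (r.2 i : ℝ) - (r.1 i : ℝ)

namespace Network

variable {d : ℕ} (N : Network d)

/-- Weak reversibility: for every reaction `y → y'` there is a directed path from `y'` to `y`. -/
def WeaklyReversible : Prop :=
  ∀ r ∈ N.reactions, Relation.ReflTransGen (fun y z => (y, z) ∈ N.reactions) r.2 r.1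

/-- The mass-action vector field with rate constants `k`. -/
def field (k : Cx d × Cx d → ℝ) (x : Fin d → ℝ) : Fin d → ℝ :=
  ∑ r ∈ N.reactions, (k r * monom x r.1) • rvec r

/-- The stoichiometric subspace. -/
def stoich : Submodule ℝ (Fin d → ℝ) := Submodule.span ℝ (rvec '' (N.reactions : Set (Cx d × Cx d)))

/-- The positive stoichiometric class of `c`. -/
def posClass (c : Fin d → ℝ) : Set (Fin d → ℝ) := {x | (∀ i, 0 < x i) ∧ x - c ∈ N.stoich}

/-- `x` solves the mass-action system `x' = f(x)` on the time interval `I`. -/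
def IsSolution (k : Cx d × Cx d → ℝ) (I : Set ℝ) (x : ℝ → Fin d → ℝ) : Prop :=
  ∀ t ∈ I, HasDerivWithinAt x (N.field k (x t)) I t

/-- Permanence on the positive stoichiometric class of `c`. -/
structure Permanent (k : Cx d × Cx d → ℝ) (c : Fin d → ℝ) : Prop where
  /-- every point of the class is the starting point of a solution on `[0, ∞)` -/
  exists_solution : ∀ x₀ ∈ N.posClass c,
    ∃ x : ℝ → Fin d → ℝ, x 0 = x₀ ∧ N.IsSolution k (Set.Ici 0) x
  /-- every solution on `[0, T)` which starts in the class is a restriction of the solution on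
  `[0, ∞)` with the same starting point; so all solutions exist for all times -/
  unique : ∀ x : ℝ → Fin d → ℝ, N.IsSolution k (Set.Ici 0) x → x 0 ∈ N.posClass c →
    ∀ (T : ℝ) (y : ℝ → Fin d → ℝ), N.IsSolution k (Set.Ico 0 T) y → y 0 = x 0 →
      ∀ t ∈ Set.Ico 0 T, y t = x t
  /-- solutions starting in the class are positive and stay in the class -/
  mem_class : ∀ x : ℝ → Fin d → ℝ, N.IsSolution k (Set.Ici 0) x → x 0 ∈ N.posClass c →
    ∀ t, 0 ≤ t → x t ∈ N.posClass c
  /-- one compact subset of the class contains `x t` for all large `t`, for every solution `x`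
  which starts in the class -/
  exists_compact : ∃ K : Set (Fin d → ℝ), IsCompact K ∧ K ⊆ N.posClass c ∧
    ∀ x : ℝ → Fin d → ℝ, N.IsSolution k (Set.Ici 0) x → x 0 ∈ N.posClass c →
      ∃ T : ℝ, ∀ t, T ≤ t → x t ∈ K

end Network

end Vale.Agent.P072
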