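import Vale.Agent.Lib.P072.RE

/-!
# P072: descent of the maximum of finitely many functions

`max_mono`: let `F t` be the common value of the `f j t`, `t ∈ E j`; it is the maximum of the
`f j`, hence continuous. For `t < z` close to `t` choose `j` with `z ∈ E j`; as `κ` is finite and the `E j` are
closed, `t ∈ E j` for `z` close to `t`. So the slope of `F` is at most the slope of
`f j`, which tends to `f' j t ≤ -c`. Use `image_le_of_liminf_slope_right_lt_deriv_boundary`.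
-/

namespace Vale.Agent.P072

open Matrix Set Filter Topology

theorem max_mono {κ : Type} [Finite κ] (f f' : κ → ℝ → ℝ) (E : κ → Set ℝ) {t₀ t₁ c : ℝ}
    (h01 : t₀ ≤ t₁) (hE : ∀ j, IsClosed (E j)) (hcov : ∀ t ∈ Icc t₀ t₁, ∃ j, t ∈ E j)
    (hmax : ∀ t ∈ Icc t₀ t₁, ∀ j, t ∈ E j → ∀ j', f j' t ≤ f j t)
    (hcont : ∀ j, ContinuousOn (f j) (Icc t₀ t₁))
    (hder : ∀ j, ∀ t ∈ Ico t₀ t₁, HasDerivWithinAt (f j) (f' j t) (Ici t) t)
    (hdec : ∀ t ∈ Ico t₀ t₁, ∀ j, t ∈ E j → f' j t ≤ -c)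
    {j₀ j₁ : κ} (h0 : t₀ ∈ E j₀) (h1 : t₁ ∈ E j₁) : f j₁ t₁ ≤ f j₀ t₀ - c * (t₁ - t₀) := by
  classical
  have : Fintype κ := Fintype.ofFinite κ
  have hne : (Finset.univ : Finset κ).Nonempty := ⟨j₀, Finset.mem_univ _⟩
  set F : ℝ → ℝ := fun t => Finset.univ.sup' hne (fun j => f j t) with hF
  have hFeq : ∀ t ∈ Icc t₀ t₁, ∀ j, t ∈ E j → F t = f j t := by
    intro t ht j hj
    apply le_antisymm
    · apply Finset.sup'_le
      intro j' _
      exact hmax t ht j hj j'
    · exact Finset.le_sup' (fun j => f j t) (Finset.mem_univ j)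
  have hFc : ContinuousOn F (Icc t₀ t₁) := by
    apply ContinuousOn.finset_sup'_apply
    intro j _
    exact hcont j
  have key := image_le_of_liminf_slope_right_le_deriv_boundary (f := F) (a := t₀) (b := t₁)
    hFc (B := fun t => F t₀ - c * (t - t₀)) (B' := fun _ => -c) (by simp)
    (by fun_prop)
    (by
      intro t _
      have h := ((hasDerivAt_id t).sub_const t₀).const_mul c
      have h2 := h.const_sub (F t₀)
      simpa using h2.hasDerivWithinAt)
    (by
      intro t ht r hr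
      apply Filter.Eventually.frequently
      have h1 : ∀ᶠ z in 𝓝[>] t, ∀ j, (t ∈ E j → slope (f j) t z < r) ∧ (t ∉ E j → z ∉ E j) := by
        rw [Filter.eventually_all]
        intro j
        by_cases hj : t ∈ E j
        · have hd := (hasDerivWithinAt_iff_tendsto_slope' (s := Ioi t) (by simp)).1
            ((hder j t ht).mono Ioi_subset_Ici_self)
          have hlt : f' j t < r := lt_of_le_of_lt (hdec t ht j hj) hr
          filter_upwards [hd.eventually (gt_mem_nhds hlt)] with z hz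
          exact ⟨fun _ => hz, fun h => absurd hj h⟩
        · have : ∀ᶠ z in 𝓝 t, z ∉ E j := (hE j).isOpen_compl.mem_nhds hj
          filter_upwards [this.filter_mono nhdsWithin_le_nhds] with z hz
          exact ⟨fun h => absurd h hj, fun _ => hz⟩
      have h2 : ∀ᶠ z in 𝓝[>] t, z ∈ Ioc t t₁ := Ioc_mem_nhdsGT ht.2
      filter_upwards [h1, h2] with z hz hz2
      have hzI : z ∈ Icc t₀ t₁ := ⟨le_trans ht.1 hz2.1.le, hz2.2⟩
      obtain ⟨j, hj⟩ := hcov z hzI
      have htj : t ∈ E j := by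
        by_contra h
        exact (hz j).2 h hj
      have hs := (hz j).1 htj
      have e1 := hFeq z hzI j hj
      have e2 := hFeq t ⟨ht.1, ht.2.le⟩ j htj
      simpa [slope, e1, e2] using hs)
  have h := key (right_mem_Icc.2 h01)
  rw [hFeq t₁ (right_mem_Icc.2 h01) j₁ h1] at h
  simp only [hFeq t₀ (left_mem_Icc.2 h01) j₀ h0] at h
  exact h

theorem RE.descent {ι : Type} [Fintype ι] {A : Finset (ι → ℝ)} {Λ M N₀ : ℝ}
    (E : RE ι A Λ M N₀) (x x' : ℝ → ι → ℝ) {t₀ t₁ c : ℝ} (h01 : t₀ ≤ t₁)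
    (hpos : ∀ t ∈ Icc t₀ t₁, ∀ i, 0 < x t i)
    (hbox : ∀ t ∈ Icc t₀ t₁, ∀ i, |Real.log (x t i)| ≤ N₀)
    (hder : ∀ t ∈ Icc t₀ t₁, HasDerivWithinAt x (x' t) (Icc t₀ t₁) t)
    (hdec : ∀ t ∈ Icc t₀ t₁, ∀ j, (fun i => Real.log (x t i)) ∈ E.D j →
      E.W j ⬝ᵥ x' t ≤ -c) :
    E.Φ (fun i => Real.log (x t₁ i)) ≤ E.Φ (fun i => Real.log (x t₀ i)) - c * (t₁ - t₀) := by
  classical
  have hexp : ∀ t ∈ Icc t₀ t₁, (fun i => Real.exp (Real.log (x t i))) = x t := by
    intro t ht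
    funext i
    exact Real.exp_log (hpos t ht i)
  have hxc : ContinuousOn x (Icc t₀ t₁) := fun t ht => (hder t ht).continuousWithinAt
  have hlc : ContinuousOn (fun t => (fun i => Real.log (x t i))) (Icc t₀ t₁) := by
    apply continuousOn_pi.2
    intro i
    apply ContinuousOn.log
    · exact (continuousOn_pi.1 hxc) i
    · intro t ht
      exact (hpos t ht i).ne'
  set f : Fin E.n → ℝ → ℝ := fun j t => (E.W j ⬝ᵥ x t) - E.b j with hf
  set f' : Fin E.n → ℝ → ℝ := fun j t => E.W j ⬝ᵥ x' t with hf'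
  set S : Fin E.n → Set ℝ :=
    fun j => Icc t₀ t₁ ∩ (fun t => (fun i => Real.log (x t i))) ⁻¹' (E.D j) with hS
  have hcov : ∀ t ∈ Icc t₀ t₁, ∃ j, t ∈ S j := by
    intro t ht
    obtain ⟨j, hj⟩ := E.cover _ (hbox t ht)
    exact ⟨j, ht, hj⟩
  have hval : ∀ t ∈ Icc t₀ t₁, ∀ j, t ∈ S j → E.Φ (fun i => Real.log (x t i)) = f j t := by
    intro t ht j hj
    have h := E.eq j _ hj.2 (hbox t ht)
    rw [h]
    simp only [hf]
    rw [hexp t ht]
  have hclosed : ∀ j, IsClosed (S j) := by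
    intro j
    exact hlc.preimage_isClosed_of_isClosed isClosed_Icc (E.closed j)
  have hmax : ∀ t ∈ Icc t₀ t₁, ∀ j, t ∈ S j → ∀ j', f j' t ≤ f j t := by
    intro t ht j hj j'
    rw [← hval t ht j hj]
    have h := E.le j' (fun i => Real.log (x t i))
    rw [hexp t ht] at h
    exact h
  have hdf : ∀ j, ∀ t ∈ Icc t₀ t₁, HasDerivWithinAt (f j) (f' j t) (Icc t₀ t₁) t := by
    intro j t ht
    have h1 : ∀ i, HasDerivWithinAt (fun s => x s i) (x' t i) (Icc t₀ t₁) t :=
      hasDerivWithinAt_pi.1 (hder t ht)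
    have h2 : HasDerivWithinAt (fun s => ∑ i, E.W j i * x s i) (∑ i, E.W j i * x' t i)
        (Icc t₀ t₁) t := by
      apply HasDerivWithinAt.fun_sum
      intro i _
      exact (h1 i).const_mul _
    exact h2.sub_const _
  have hcont : ∀ j, ContinuousOn (f j) (Icc t₀ t₁) :=
    fun j t ht => (hdf j t ht).continuousWithinAt
  obtain ⟨j₀, h0⟩ := hcov t₀ (left_mem_Icc.2 h01)
  obtain ⟨j₁, h1⟩ := hcov t₁ (right_mem_Icc.2 h01)
  have key := max_mono f f' S (c := c) h01 hclosed hcov hmax hcont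
    (by
      intro j t ht
      have h := hdf j t ⟨ht.1, ht.2.le⟩
      exact h.mono_of_mem_nhdsWithin (mem_of_superset (Icc_mem_nhdsGE ht.2)
        (Icc_subset_Icc_left ht.1)))
    (by
      intro t ht j hj
      exact hdec t ⟨ht.1, ht.2.le⟩ j hj.2)
    h0 h1
  rw [hval t₁ (right_mem_Icc.2 h01) j₁ h1, hval t₀ (left_mem_Icc.2 h01) j₀ h0]
  exact key

end Vale.Agent.P072
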