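import Vale.Agent.Lib.P072.Gap

/-!
# P072: extension by rounding

`up`: `cst w k ≥ exp (w k - L)` and `exp s ≥ exp u * (1 + s - u)` with `s = w k - L`.

`ext` (induction on `d - m`): the vector `w` is good below `m`, and `u m ≤ w (m-1) + ell m` if
`m > 0`. Choose the new coordinate `m`: if some threshold `T = w m - v ⬝ᵥ w` (`v ∈ V m`) has
`|u m - T| < ell m + 1` choose `T` (active; all such `T` are equal by `gap`, but this is not needed here), otherwise `⌊u m⌋`
(an integer with distance `≥ ell m` from all thresholds). Antitone: `w (m-1)` is the threshold of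
the tie vector. If `|u m - w (m-1)| < ell m + 1` the choice must be `w (m-1)` (`gap`: the other thresholds are
at distance `≥ 8 * ell m ≥ 2 * (ell m + 1)` from `w (m-1)`); otherwise
`u m ≤ w (m-1) - ell m - 1` and the choice is `≤ w (m-1)` (a threshold bigger than `w (m-1)` is `≥ w (m-1) + 8 * ell m`
and so too far from `u m`). Requirement at `m + 1`:
`u (m+1) ≤ u m ≤ new + ell m + 1 ≤ new + ell (m+1)` if active (`ell_of_act`), and
`≤ new + 1` if free. Value: active: `T * x - exp (T - ell) ≥ T x - e x`, `T ≥ u - ell - 1`; free: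
`z x - exp z ≥ (u - 1) x - x`; and `ell + 5 ≤ 2 L`.
-/

namespace Vale.Agent.P072

open Matrix

namespace Sys

variable {d : ℕ} {s : Sys d} {K M : ℝ}

theorem ext_rad_le_Lc (hP : Par s K M) (w : Fin d → ℝ) (k : Fin d) :
    s.rad K M w k ≤ Lc d K M := by
  have h1 := rad_le (s := s) (w := w) (k := k) hP
  have h2 := ell_le (s := s) (w := w) (k := k) hP
  have h3 := eight_le_ell (s := s) (w := w) (k := k) hP
  have h4 := hP.K8
  nlinarith

theorem up (hP : Par s K M) (w u : Fin d → ℝ) (k : Fin d) :
    w k * Real.exp (u k) - s.cst K M w k ≤ Real.exp (u k) * (u k + Lc d K M) := by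
  have h1 := ext_rad_le_Lc hP w k
  have hx : 0 < Real.exp (u k) := Real.exp_pos _
  have h2 : Real.exp (w k - Lc d K M) ≤ s.cst K M w k := by
    unfold cst
    exact Real.exp_le_exp.2 (by linarith)
  have h3 : Real.exp (u k) * (1 + (w k - Lc d K M - u k)) ≤ Real.exp (w k - Lc d K M) := by
    have h4 := Real.add_one_le_exp (w k - Lc d K M - u k)
    have h5 : Real.exp (w k - Lc d K M) =
        Real.exp (u k) * Real.exp (w k - Lc d K M - u k) := by
      rw [← Real.exp_add]
      congr 1
      ring
    rw [h5]
    exact mul_le_mul_of_nonneg_left (by linarith) hx.le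
  nlinarith

theorem ext_aux (hP : Par s K M) (u : Fin d → ℝ) (hu : Antitone u) (n : ℕ) :
    ∀ (m : ℕ) (w : Fin d → ℝ), m + n = d →
    (∀ j : Fin d, (j : ℕ) < m → s.Mem K M w j) →
    (∀ i j : Fin d, i ≤ j → (j : ℕ) < m → w j ≤ w i) →
    (∀ i j : Fin d, (j : ℕ) = m → (j : ℕ) = i + 1 → u j ≤ w i + s.ell K M w j) →
    ∃ w' : Fin d → ℝ, (∀ j, s.Mem K M w' j) ∧ Antitone w' ∧
      (∀ j : Fin d, (j : ℕ) < m → w' j = w j) ∧
      (∀ j : Fin d, m ≤ (j : ℕ) → Real.exp (u j) * (u j - 2 * Lc d K M) ≤
        w' j * Real.exp (u j) - s.cst K M w' j) ∧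
      (∀ j : Fin d, m ≤ (j : ℕ) → |w' j - u j| ≤ Lc d K M + 1) := by
  induction n with
  | zero =>
    intro m w hmd hw hwa _
    have hlt : ∀ j : Fin d, (j : ℕ) < m := fun j => by have := j.isLt; omega
    refine ⟨w, fun j => hw j (hlt j), fun i j hij => hwa i j hij (hlt j), fun j _ => rfl,
      fun j hj => ?_, fun j hj => ?_⟩
    · exact absurd (hlt j) (by omega)
    · exact absurd (hlt j) (by omega)
  | succ n ih =>
    intro m w hmd hw hwa hum
    have hm : m < d := by omega
    set k : Fin d := ⟨m, hm⟩ with hk
    have hkm : (k : ℕ) = m := rfl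
    set l : ℝ := s.ell K M w k with hl
    have hl8 : 8 ≤ l := eight_le_ell hP
    have hlL : K * l ≤ Lc d K M := ell_le hP
    have hK8 := hP.K8
    have hlL8 : 8 * l ≤ Lc d K M := by nlinarith
    have hwk : ∀ j, j < k → s.Mem K M w j := fun j hj => hw j hj
    -- the vector with the new coordinate
    have hupd_lt : ∀ (c : ℝ) (j : Fin d), j < k → Function.update w k c j = w j :=
      fun c j hj => Function.update_of_ne hj.ne _ _
    have hupd : ∀ c : ℝ, Function.update w k c k = c := fun c => Function.update_self _ _ _
    have hell : ∀ c : ℝ, s.ell K M (Function.update w k c) k = l := fun c =>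
      ell_congr s fun i hi => hupd_lt c i hi
    have hdot : ∀ (c : ℝ), ∀ v ∈ s.V k, v ⬝ᵥ Function.update w k c = c - (w k - v ⬝ᵥ w) := by
      intro c v hv
      have h1 := thr_congr s (w := Function.update w k c) (w' := w) (k := k)
        (fun i hi => hupd_lt c i hi) hv
      rw [hupd] at h1
      linarith
    -- the choice of the new coordinate
    obtain ⟨c, hcMem, hcu, hcuL, hcnext, hcprev, hccst⟩ : ∃ c : ℝ,
        s.Mem K M (Function.update w k c) k ∧ |c - u k| ≤ l + 1 ∧ |c - u k| ≤ Lc d K M + 1 ∧
        (∀ j : Fin d, k < j → u k ≤ c + s.ell K M (Function.update w k c) j) ∧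
        (∀ i : Fin d, (k : ℕ) = i + 1 → c ≤ w i) ∧
        Real.exp (u k) * (u k - 2 * Lc d K M) ≤
          c * Real.exp (u k) - s.cst K M (Function.update w k c) k := by
      have hx : 0 < Real.exp (u k) := Real.exp_pos _
      by_cases hA : ∃ v ∈ s.V k, |u k - (w k - v ⬝ᵥ w)| < l + 1
      · obtain ⟨v, hv, hvu⟩ := hA
        set c : ℝ := w k - v ⬝ᵥ w with hc
        have hact : s.act (Function.update w k c) k := ⟨v, hv, by rw [hdot c v hv, hc]; ring⟩
        have habs : |c - u k| < l + 1 := by rw [abs_sub_comm]; exact hvu
        obtain ⟨h1, h2⟩ := abs_lt.1 habs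
        refine ⟨c, Or.inl hact, habs.le, by linarith, fun j hj => ?_, fun i hi => ?_, ?_⟩
        · have h3 := ell_of_act (s := s) hP hj hact
          rw [hell] at h3
          nlinarith
        · by_contra hlt
          rw [not_le] at hlt
          have htie := s.tie i k hi
          have htd : (Pi.single k 1 - Pi.single i 1 : Fin d → ℝ) ⬝ᵥ w = w k - w i :=
            tie_dot hi
          have hne : v ⬝ᵥ w ≠ (Pi.single k 1 - Pi.single i 1 : Fin d → ℝ) ⬝ᵥ w := by
            rw [htd]
            intro h
            rw [hc, h] at hlt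
            linarith
          have hgap := gap hP hwk hv htie hne
          rw [htd, ← hl] at hgap
          have h3 : v ⬝ᵥ w - (w k - w i) = -(c - w i) := by rw [hc]; ring
          rw [h3, abs_neg, abs_of_pos (by linarith)] at hgap
          have h4 := hum i k hkm hi
          rw [← hl] at h4
          linarith
        · have hrad : s.rad K M (Function.update w k c) k = l := by
            rw [rad_act s hact, hell]
          unfold cst
          rw [hupd, hrad]
          have h3 : Real.exp (c - l) ≤ Real.exp (u k) * 3 := by
            calc Real.exp (c - l) ≤ Real.exp (u k + 1) := Real.exp_le_exp.2 (by linarith)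
              _ = Real.exp (u k) * Real.exp 1 := Real.exp_add _ _
              _ ≤ Real.exp (u k) * 3 := by
                refine mul_le_mul_of_nonneg_left ?_ hx.le
                have := Real.exp_one_lt_d9
                linarith
          have h4 : (u k - (l + 1)) * Real.exp (u k) ≤ c * Real.exp (u k) :=
            mul_le_mul_of_nonneg_right (by linarith) hx.le
          have h5 : 0 ≤ Real.exp (u k) * (2 * Lc d K M - l - 4) :=
            mul_nonneg hx.le (by linarith)
          nlinarith
      · push Not at hA
        have hf1 : ((⌊u k⌋ : ℤ) : ℝ) ≤ u k := Int.floor_le _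
        have hf2 : u k < ((⌊u k⌋ : ℤ) : ℝ) + 1 := Int.lt_floor_add_one _
        set c : ℝ := ((⌊u k⌋ : ℤ) : ℝ) with hc
        have habs : |c - u k| ≤ 1 := abs_le.2 ⟨by linarith, by linarith⟩
        refine ⟨c, Or.inr ⟨⟨⌊u k⌋, by rw [hupd]⟩, fun v hv => ?_⟩, by linarith, by linarith,
          fun j hj => ?_, fun i hi => ?_, ?_⟩
        · rw [hell, hdot c v hv]
          have h1 := hA v hv
          have h2 : |u k - (w k - v ⬝ᵥ w)| ≤ |c - (w k - v ⬝ᵥ w)| + |u k - c| := by
            have h3 : u k - (w k - v ⬝ᵥ w) = (c - (w k - v ⬝ᵥ w)) + (u k - c) := by ring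
            rw [h3]
            exact abs_add_le _ _
          rw [abs_sub_comm (u k) c] at h2
          linarith
        · have h3 := eight_le_ell (s := s) (w := Function.update w k c) (k := j) hP
          linarith
        · have htie := s.tie i k hi
          have htd : (Pi.single k 1 - Pi.single i 1 : Fin d → ℝ) ⬝ᵥ w = w k - w i :=
            tie_dot hi
          have h1 := hA _ htie
          rw [htd, sub_sub_cancel] at h1
          have h4 := hum i k hkm hi
          rw [← hl] at h4
          rcases le_abs.1 h1 with h5 | h5 <;> linarith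
        · have hrad := rad_nonneg (s := s) (w := Function.update w k c) (k := k) hP
          unfold cst
          rw [hupd]
          have h3 : Real.exp (c - s.rad K M (Function.update w k c) k) ≤ Real.exp (u k) :=
            Real.exp_le_exp.2 (by linarith)
          have h4 : (u k - 1) * Real.exp (u k) ≤ c * Real.exp (u k) :=
            mul_le_mul_of_nonneg_right (by linarith) hx.le
          have h5 : 0 ≤ Real.exp (u k) * (2 * Lc d K M - 2) :=
            mul_nonneg hx.le (by linarith)
          nlinarith
    -- the induction hypothesis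
    have hlt_k : ∀ j : Fin d, (j : ℕ) < m → j < k := fun j hj => hj
    have hcase : ∀ j : Fin d, (j : ℕ) < m + 1 → j < k ∨ j = k := by
      intro j hj
      rcases Nat.lt_succ_iff_lt_or_eq.1 hj with h | h
      · exact Or.inl h
      · exact Or.inr (Fin.ext h)
    obtain ⟨w', h1, h2, h3, h4, h5⟩ := ih (m + 1) (Function.update w k c) (by omega)
      (by
        intro j hj
        rcases hcase j hj with h | h
        · rw [mem_congr s (w := Function.update w k c) (w' := w) (k := j)
            fun i hi => hupd_lt c i (lt_of_le_of_lt hi h)]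
          exact hwk j h
        · rw [h]
          exact hcMem)
      (by
        intro i j hij hj
        rcases hcase j hj with h | h
        · rw [hupd_lt c j h, hupd_lt c i (lt_of_le_of_lt hij h)]
          exact hwa i j hij h
        · subst h
          rw [hupd]
          rcases hij.eq_or_lt with h' | h'
          · rw [h', hupd]
          · rw [hupd_lt c i h']
            have hi' : (i : ℕ) < m := h'
            have hmpos : 0 < m := by omega
            have hprev := hcprev ⟨m - 1, by omega⟩ (by simp only [hkm]; omega)
            refine hprev.trans (hwa i ⟨m - 1, by omega⟩ ?_ (by simp only; omega))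
            rw [Fin.le_def]
            simp only
            omega)
      (by
        intro i j hj hji
        have hik : i = k := Fin.ext (by rw [hkm]; omega)
        rw [hik, hupd]
        have hkj : k < j := by
          rw [Fin.lt_def]
          omega
        exact (hu hkj.le).trans (hcnext j hkj))
    have hw'k : w' k = c := by rw [h3 k (by omega), hupd]
    have hw'lt : ∀ j : Fin d, (j : ℕ) < m → w' j = w j := fun j hj => by
      rw [h3 j (by omega), hupd_lt c j hj]
    refine ⟨w', h1, h2, hw'lt, fun j hj => ?_, fun j hj => ?_⟩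
    · rcases hj.eq_or_lt with h | h
      · have hjk : j = k := Fin.ext h.symm
        rw [hjk, hw'k]
        have hcst : s.cst K M w' k = s.cst K M (Function.update w k c) k :=
          cst_congr s fun i hi => h3 i (by
            have : (i : ℕ) ≤ m := hi
            omega)
        rw [hcst]
        exact hccst
      · exact h4 j h
    · rcases hj.eq_or_lt with h | h
      · have hjk : j = k := Fin.ext h.symm
        rw [hjk, hw'k]
        exact hcuL
      · exact h5 j h

/-- extension of a vector that is good below `m` -/
theorem ext (hP : Par s K M) (w u : Fin d → ℝ) (hu : Antitone u) (m : ℕ) (hm : m ≤ d)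
    (hw : ∀ j : Fin d, (j : ℕ) < m → s.Mem K M w j)
    (hwa : ∀ i j : Fin d, i ≤ j → (j : ℕ) < m → w j ≤ w i)
    (hum : ∀ i j : Fin d, (j : ℕ) = m → (j : ℕ) = i + 1 → u j ≤ w i + s.ell K M w j) :
    ∃ w' : Fin d → ℝ, (∀ j, s.Mem K M w' j) ∧ Antitone w' ∧
      (∀ j : Fin d, (j : ℕ) < m → w' j = w j) ∧
      (∀ j : Fin d, m ≤ (j : ℕ) → Real.exp (u j) * (u j - 2 * Lc d K M) ≤
        w' j * Real.exp (u j) - s.cst K M w' j) ∧
      (∀ j : Fin d, m ≤ (j : ℕ) → |w' j - u j| ≤ Lc d K M + 1) :=
  ext_aux hP u hu (d - m) m w (by omega) hw hwa hum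

end Sys

end Vale.Agent.P072
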