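import Vale.Agent.Lib.P072.RegB
import Vale.Agent.Lib.P072.Descent
import Vale.Agent.Lib.P072.Birch

/-!
# P072: every bounded solution visits a fixed compact set

Let `M = max M₀ M₁` with `M₀`, `Λ` from `hasRE` for the vectors `N.diffs (Function.Embedding.refl _)` and
`M₁` from `flux`, `U₁` from `birch` with `Λ * M`. Given a solution with `|log x| ≤ B` take
`E : RE (Fin d) _ Λ M B`. Suppose that it never satisfies `∀ i, |log (x t i)| ≤ U₁`. If `log (x t) ∈ E.D j` then
`W j` is not orthogonal to the stoichiometric subspace (otherwise `birch` with `s = W j` and `RE.near`), so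
`FluxIneq.re` (with `b = 0`) gives `W j ⬝ᵥ field (x t) < 0`. On the compact set
`E.D j ∩ box` the continuous function `u ↦ W j ⬝ᵥ field (exp u)` is
negative for each fixed `j` with `W j` not orthogonal to the stoichiometric subspace, so it is `≤ -c j`; let `c > 0` be the minimum.
`RE.descent` on `[0, t]` contradicts the boundedness of `Φ` on the box for large `t`.
-/

namespace Vale.Agent.P072

open Matrix Set

theorem hit {d : ℕ} (N : Network d) (hN : N.WeaklyReversible) (k : Cx d × Cx d → ℝ)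
    (hk : ∀ r ∈ N.reactions, 0 < k r) (c : Fin d → ℝ) (hc : ∀ i, 0 < c i) : ∃ U₁ : ℝ,
      ∀ x : ℝ → Fin d → ℝ, N.IsSolution k (Ici 0) x → (∀ t, 0 ≤ t → ∀ i, 0 < x t i) →
        (∀ t, 0 ≤ t → x t - c ∈ N.stoich) →
        (∃ B : ℝ, ∀ t, 0 ≤ t → ∀ i, |Real.log (x t i)| ≤ B) →
        ∃ t, 0 ≤ t ∧ ∀ i, |Real.log (x t i)| ≤ U₁ := by
  classical
  obtain ⟨Λ, M₀, hΛ, hM₀, hRE⟩ := hasRE (Fin d) (N.diffs (Function.Embedding.refl _))
  obtain ⟨M₁, hM₁, hF⟩ := flux N hN k hk
  obtain ⟨CA, hCA0, hCA⟩ := N.exists_CA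
  set M : ℝ := max M₀ M₁ with hMdef
  obtain ⟨U₁, hU⟩ := birch c hc (Λ * M)
  refine ⟨U₁, ?_⟩
  intro x hx hpos hclass hBex
  obtain ⟨B, hB⟩ := hBex
  by_contra hcon
  push Not at hcon
  obtain ⟨E⟩ := hRE M (le_max_left _ _) B
  have hM1 : 1 ≤ M := hM₀.trans (le_max_left _ _)
  -- the strict decrease at one point
  have hneg : ∀ (j : Fin E.n), (∃ r ∈ N.reactions, (E.W j ⬝ᵥ rvec r) ≠ 0) →
      ∀ u : Fin d → ℝ, (∀ i, |u i| ≤ B) → u ∈ E.D j →
        (E.W j ⬝ᵥ N.field k (fun i => Real.exp (u i))) < 0 := by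
    intro j hj u hu huD
    have h := (hF.re (Function.Embedding.refl (Fin d)) E hCA (b := 0) le_rfl
      (by rw [mul_zero, zero_add]; exact le_max_right _ _)
      (fun i => Real.exp (u i)) (fun i => Real.exp_pos _)
      (by intro i; simpa [Real.log_exp] using hu i)
      (by intro i hi; exact absurd ⟨i, rfl⟩ hi) j
      (by
        have : (fun i => Real.log (Real.exp (u ((Function.Embedding.refl (Fin d)) i)))) = u := by
          funext i
          simp [Real.log_exp]
        rw [this]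
        exact huD)).2
    have h2 := h (by
      obtain ⟨r, hr, hr2⟩ := hj
      exact ⟨r, hr, hr2⟩)
    exact h2
  -- the uniform decrease
  have hunif : ∀ j : Fin E.n, ∃ cj : ℝ, 0 < cj ∧ ((∃ r ∈ N.reactions, (E.W j ⬝ᵥ rvec r) ≠ 0) →
      ∀ u : Fin d → ℝ, (∀ i, |u i| ≤ B) → u ∈ E.D j →
        (E.W j ⬝ᵥ N.field k (fun i => Real.exp (u i))) ≤ -cj) := by
    intro j
    by_cases hj : ∃ r ∈ N.reactions, (E.W j ⬝ᵥ rvec r) ≠ 0
    · have hcompact : IsCompact (E.D j ∩ {u : Fin d → ℝ | ∀ i, |u i| ≤ B}) := by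
        have h1 : {u : Fin d → ℝ | ∀ i, |u i| ≤ B} = Set.pi univ (fun _ => Icc (-B) B) := by
          ext u
          simp only [Set.mem_ofPred_eq, mem_pi, mem_univ, forall_const, mem_Icc, abs_le]
        rw [h1]
        exact (isCompact_univ_pi (fun _ => isCompact_Icc)).inter_left (E.closed j)
      have hcont : Continuous (fun u : Fin d → ℝ =>
          (E.W j ⬝ᵥ N.field k (fun i => Real.exp (u i)))) := by
        unfold Network.field monom dotProduct
        simp only [Finset.sum_apply, Pi.smul_apply, smul_eq_mul]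
        fun_prop
      by_cases hne : (E.D j ∩ {u : Fin d → ℝ | ∀ i, |u i| ≤ B}).Nonempty
      · obtain ⟨u₀, hu₀, hmax⟩ := hcompact.exists_isMaxOn hne hcont.continuousOn
        have h0 := hneg j hj u₀ hu₀.2 hu₀.1
        refine ⟨-(E.W j ⬝ᵥ N.field k (fun i => Real.exp (u₀ i))), by linarith, ?_⟩
        intro _ u hu huD
        have h3 : (E.W j ⬝ᵥ N.field k (fun i => Real.exp (u i))) ≤
            (E.W j ⬝ᵥ N.field k (fun i => Real.exp (u₀ i))) := hmax ⟨huD, hu⟩
        linarith
      · refine ⟨1, one_pos, ?_⟩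
        intro _ u hu huD
        exact absurd ⟨u, huD, hu⟩ hne
    · exact ⟨1, one_pos, fun h => absurd h hj⟩
  choose cf hcf0 hcf using hunif
  have hlogbox : ∀ t, 0 ≤ t → ∀ i, |(fun i => Real.log (x t i)) i| ≤ B := fun t ht i => hB t ht i
  obtain ⟨j₀, hj₀⟩ := E.cover (fun i => Real.log (x 0 i)) (hlogbox 0 le_rfl)
  obtain ⟨jm, -, hjm⟩ := Finset.exists_min_image (Finset.univ : Finset (Fin E.n)) cf
    ⟨j₀, Finset.mem_univ _⟩
  set c₀ : ℝ := cf jm with hc₀
  have hc₀pos : 0 < c₀ := hcf0 jm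
  -- orthogonality to the stoichiometric subspace never happens
  have hnot : ∀ t, 0 ≤ t → ∀ j, (fun i => Real.log (x t i)) ∈ E.D j →
      ∃ r ∈ N.reactions, (E.W j ⬝ᵥ rvec r) ≠ 0 := by
    intro t ht j hj
    by_contra hno
    push Not at hno
    have horth : ∀ v ∈ N.stoich, v ⬝ᵥ E.W j = 0 := by
      intro v hv
      unfold Network.stoich at hv
      induction hv using Submodule.span_induction with
      | mem v hv =>
        obtain ⟨r, hr, rfl⟩ := hv
        rw [dotProduct_comm]
        exact hno r hr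
      | zero => simp
      | add v w _ _ h1 h2 => rw [add_dotProduct, h1, h2, add_zero]
      | smul a v _ h1 => rw [smul_dotProduct, h1, smul_zero]
    have h4 := hU N.stoich (x t) (hpos t ht) (hclass t ht) (E.W j) horth (by
      intro i
      have h5 := E.near j _ hj (hlogbox t ht) i
      rw [abs_sub_comm]
      exact h5)
    obtain ⟨i, hi⟩ := hcon t ht
    exact absurd (h4 i) (not_le.mpr hi)
  -- bound from below
  set L : ℝ := ∑ _i : Fin d, Real.exp B * (|B| + Λ * M) with hL
  have hΛM : 0 ≤ Λ * M := mul_nonneg (by linarith) (by linarith)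
  have hL0 : 0 ≤ L := Finset.sum_nonneg (fun i _ => mul_nonneg (Real.exp_pos _).le (by positivity))
  have hlower : ∀ t, 0 ≤ t → -L ≤ E.Φ (fun i => Real.log (x t i)) := by
    intro t ht
    refine le_trans ?_ (E.lower _ (hlogbox t ht))
    rw [hL, ← Finset.sum_neg_distrib]
    refine Finset.sum_le_sum (fun i _ => ?_)
    have hu := abs_le.mp (hB t ht i)
    set u := Real.log (x t i)
    have he : Real.exp u ≤ Real.exp B := Real.exp_le_exp.mpr hu.2
    have hep := Real.exp_pos u
    have h6 : -(|B| + Λ * M) ≤ u - Λ * M := by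
      have := le_abs_self B
      linarith
    have h7 : Real.exp u * (-(|B| + Λ * M)) ≤ Real.exp u * (u - Λ * M) :=
      mul_le_mul_of_nonneg_left h6 hep.le
    have h8 : Real.exp u * (|B| + Λ * M) ≤ Real.exp B * (|B| + Λ * M) :=
      mul_le_mul_of_nonneg_right he (by positivity)
    linarith
  -- the descent
  set Φ₀ := E.Φ (fun i => Real.log (x 0 i)) with hΦ₀
  have hdesc : ∀ t₁, 0 ≤ t₁ → E.Φ (fun i => Real.log (x t₁ i)) ≤ Φ₀ - c₀ * (t₁ - 0) := by
    intro t₁ ht₁
    refine E.descent x (fun t => N.field k (x t)) ht₁ (fun t ht => hpos t ht.1)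
      (fun t ht => hB t ht.1) (fun t ht => (hx t ht.1).mono Icc_subset_Ici_self) ?_
    intro t ht j hj
    have h9 := hcf j (hnot t ht.1 j hj) (fun i => Real.log (x t i)) (hlogbox t ht.1) hj
    have hexp : (fun i => Real.exp ((fun i => Real.log (x t i)) i)) = x t := by
      funext i
      exact Real.exp_log (hpos t ht.1 i)
    rw [hexp] at h9
    have h10 := hjm j (Finset.mem_univ _)
    linarith
  have hfin := hdesc ((|Φ₀| + L) / c₀ + 1) (by positivity)
  have hlow := hlower ((|Φ₀| + L) / c₀ + 1) (by positivity)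
  have h11 : c₀ * ((|Φ₀| + L) / c₀ + 1 - 0) = |Φ₀| + L + c₀ := by
    field_simp
    ring
  rw [h11] at hfin
  have := le_abs_self Φ₀
  linarith

end Vale.Agent.P072
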