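import Vale.Agent.Lib.P072.Ode

/-!
# P072: existence of global solutions

Let `|log x₀ i| ≤ U`, `B` from `hB`, and let `F x = field (clip x)` where `clip` truncates
all coordinates to `[exp (-B-1), exp (B+1)]`; `F` is bounded and Lipschitz, so `z' = F z` has a
solution on every `[0, n]` (Picard-Lindelof with a large ball), unique, hence on `[0, ∞)`. As long as `z` is in the open box it is a positive solution,
so `|log z i| ≤ B` and it never leaves.
-/

namespace Vale.Agent.P072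

open Set

/-- a bounded Lipschitz field has a solution on the half line -/
theorem OdeEx_global {E : Type*} [NormedAddCommGroup E] [NormedSpace ℝ E] [CompleteSpace E]
    (F : E → E) (K M : NNReal) (hK : LipschitzWith K F) (hM : ∀ x, ‖F x‖ ≤ M) (x₀ : E) :
    ∃ x : ℝ → E, x 0 = x₀ ∧ ∀ t ∈ Ici (0 : ℝ), HasDerivWithinAt x (F (x t)) (Ici 0) t := by
  have hex : ∀ n : ℕ, ∃ α : ℝ → E, α 0 = x₀ ∧
      ∀ t ∈ Icc (0 : ℝ) (n + 1), HasDerivWithinAt α (F (α t)) (Icc (0 : ℝ) (n + 1)) t := by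
    intro n
    have hn : (0 : ℝ) ≤ (n : ℝ) + 1 := by positivity
    have hpl : IsPicardLindelof (fun _ => F) (tmin := 0) (tmax := (n : ℝ) + 1)
        ⟨0, le_refl 0, hn⟩ x₀ (M * (n + 1)) 0 M K :=
      { lipschitzOnWith := fun t _ => hK.lipschitzOnWith
        continuousOn := fun x _ => continuousOn_const
        norm_le := fun t _ x _ => hM x
        mul_max_le := by
          simp only [sub_zero, NNReal.coe_mul, NNReal.coe_add, NNReal.coe_natCast, NNReal.coe_one,
            NNReal.coe_zero]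
          rw [max_eq_left hn] }
    exact hpl.exists_eq_forall_mem_Icc_hasDerivWithinAt₀
  choose α hα0 hα using hex
  have hcont : ∀ n : ℕ, ContinuousOn (α n) (Icc (0 : ℝ) (n + 1)) := fun n t ht =>
    (hα n t ht).continuousWithinAt
  -- uniqueness
  have huniq : ∀ m n : ℕ, m ≤ n → EqOn (α m) (α n) (Icc (0 : ℝ) (m + 1)) := by
    intro m n hmn
    have hmn' : (m : ℝ) ≤ n := by exact_mod_cast hmn
    refine ODE_solution_unique (v := fun _ => F) (K := K) (fun _ => hK) (hcont m) ?_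
      ((hcont n).mono (Icc_subset_Icc_right (by linarith))) ?_ ((hα0 m).trans (hα0 n).symm)
    · intro t ht
      have h1 := hα m t ⟨ht.1, ht.2.le⟩
      exact h1.mono_of_mem_nhdsWithin (Icc_mem_nhdsGE_of_mem ht)
    · intro t ht
      have h1 := hα n t ⟨ht.1, by linarith [ht.2]⟩
      exact h1.mono_of_mem_nhdsWithin (Icc_mem_nhdsGE_of_mem ⟨ht.1, by linarith [ht.2]⟩)
  have hagree : ∀ m n : ℕ, ∀ t : ℝ, 0 ≤ t → t ≤ m + 1 → t ≤ n + 1 → α m t = α n t := by
    intro m n t h0 hm hn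
    rcases le_total m n with h | h
    · exact huniq m n h ⟨h0, hm⟩
    · exact (huniq n m h ⟨h0, hn⟩).symm
  refine ⟨fun t => α ⌈t⌉₊ t, by simp [hα0], ?_⟩
  intro t ht
  have ht0 : (0 : ℝ) ≤ t := ht
  set n := ⌈t⌉₊ with hn
  have htn : t ≤ n := Nat.le_ceil t
  have h1 : HasDerivWithinAt (α n) (F (α n t)) (Ici 0) t := by
    have h2 := hα n t ⟨ht0, by linarith⟩
    refine h2.mono_of_mem_nhdsWithin ?_
    have h3 : Iio ((n : ℝ) + 1) ∈ nhds t := Iio_mem_nhds (by linarith)
    rw [mem_nhdsWithin_iff_exists_mem_nhds_inter]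
    exact ⟨_, h3, fun s hs => ⟨hs.2, le_of_lt hs.1⟩⟩
  refine h1.congr_of_eventuallyEq ?_ rfl
  have h3 : Iio ((n : ℝ) + 1) ∩ Ici 0 ∈ nhdsWithin t (Ici 0) :=
    Filter.inter_mem (mem_nhdsWithin_of_mem_nhds (Iio_mem_nhds (by linarith))) self_mem_nhdsWithin
  filter_upwards [h3] with s hs
  exact hagree _ _ s hs.2 (by linarith [Nat.le_ceil s]) (le_of_lt hs.1)

variable {d : ℕ}

/-- truncation of all the coordinates -/
noncomputable def OdeEx_clip (lo hi : ℝ) (x : Fin d → ℝ) : Fin d → ℝ :=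
  fun i => max lo (min (x i) hi)

theorem OdeEx_clip_lipschitz (lo hi : ℝ) : LipschitzWith 1 (OdeEx_clip (d := d) lo hi) := by
  refine LipschitzWith.of_dist_le_mul fun x y => ?_
  rw [NNReal.coe_one, one_mul, dist_pi_le_iff dist_nonneg]
  intro i
  have h1 : dist (OdeEx_clip lo hi x i) (OdeEx_clip lo hi y i) ≤ dist (x i) (y i) := by
    rw [Real.dist_eq, Real.dist_eq]
    unfold OdeEx_clip
    refine (abs_max_sub_max_le_max _ _ _ _).trans ?_
    rw [sub_self, abs_zero]
    refine max_le (abs_nonneg _) ((abs_min_sub_min_le_max _ _ _ _).trans ?_)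
    rw [sub_self, abs_zero]
    exact max_le le_rfl (abs_nonneg _)
  exact h1.trans (dist_le_pi_dist x y i)

theorem OdeEx_clip_mem {lo hi : ℝ} (h : lo ≤ hi) (x : Fin d → ℝ) :
    OdeEx_clip lo hi x ∈ Icc (fun _ : Fin d => lo) (fun _ => hi) :=
  ⟨fun _ => le_max_left _ _, fun _ => max_le h (min_le_right _ _)⟩

theorem OdeEx_clip_eq {lo hi : ℝ} {x : Fin d → ℝ} (h : ∀ i, lo ≤ x i ∧ x i ≤ hi) :
    OdeEx_clip lo hi x = x := by
  funext i
  unfold OdeEx_clip
  rw [min_eq_left (h i).2, max_eq_right (h i).1]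

theorem OdeEx_contDiff (N : Network d) (k : Cx d × Cx d → ℝ) : ContDiff ℝ 1 (N.field k) := by
  unfold Network.field monom
  refine ContDiff.sum fun r _ => ?_
  have h1 : ∀ i : Fin d, ContDiff ℝ 1 (fun x : Fin d → ℝ => x i ^ r.1 i) := fun i => by
    have h2 : ContDiff ℝ 1 (fun x : Fin d → ℝ => x i) := contDiff_apply ℝ ℝ i
    exact h2.pow _
  have h3 : ContDiff ℝ 1 (fun x : Fin d → ℝ => ∏ i, x i ^ r.1 i) :=
    contDiff_prod fun i _ => h1 i
  have h4 : ContDiff ℝ 1 (fun x : Fin d → ℝ => k r * ∏ i, x i ^ r.1 i) := contDiff_const.mul h3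
  exact h4.smul contDiff_const

theorem OdeEx_field_lip (N : Network d) (k : Cx d × Cx d → ℝ) (lo hi : ℝ) (h : lo ≤ hi) :
    ∃ K M : NNReal, LipschitzWith K (fun x => N.field k (OdeEx_clip lo hi x)) ∧
      ∀ x, ‖N.field k (OdeEx_clip lo hi x)‖ ≤ M := by
  have hc : IsCompact (Icc (fun _ : Fin d => lo) (fun _ => hi)) := isCompact_Icc
  have hcd := OdeEx_contDiff N k
  have hll : LocallyLipschitz (N.field k) := ContDiff.locallyLipschitz (𝕂 := ℝ) hcd
  have hll2 : LocallyLipschitzOn (Icc (fun _ : Fin d => lo) (fun _ => hi)) (N.field k) :=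
    hll.locallyLipschitzOn
  obtain ⟨K, hK⟩ := hll2.exists_lipschitzOnWith_of_compact hc
  obtain ⟨M, hM⟩ := hc.exists_bound_of_continuousOn hcd.continuous.continuousOn
  have hM0 : 0 ≤ M := (norm_nonneg _).trans (hM (fun _ => lo) ⟨le_rfl, fun _ => h⟩)
  refine ⟨K, ⟨M, hM0⟩, ?_, fun x => hM _ (OdeEx_clip_mem h x)⟩
  refine LipschitzWith.of_dist_le_mul fun x y => ?_
  refine (hK.dist_le_mul _ (OdeEx_clip_mem h x) _ (OdeEx_clip_mem h y)).trans ?_
  have h1 := (OdeEx_clip_lipschitz (d := d) lo hi).dist_le_mul x y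
  rw [NNReal.coe_one, one_mul] at h1
  gcongr

theorem ode_exists (N : Network d) (k : Cx d × Cx d → ℝ) (hB : N.Bounded k) (x₀ : Fin d → ℝ)
    (hx₀ : ∀ i, 0 < x₀ i) : ∃ x : ℝ → Fin d → ℝ, x 0 = x₀ ∧ N.IsSolution k (Ici 0) x := by
  obtain ⟨U, hU⟩ : ∃ U : ℝ, ∀ i, |Real.log (x₀ i)| ≤ U := by
    obtain ⟨U, hU⟩ := (Set.finite_range fun i => |Real.log (x₀ i)|).bddAbove
    exact ⟨U, fun i => hU ⟨i, rfl⟩⟩
  obtain ⟨B, hBB⟩ := hB U
  set B2 := max (max B U) 0 with hB2
  have hB2B : B ≤ B2 := (le_max_left _ _).trans (le_max_left _ _)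
  have hB2U : U ≤ B2 := (le_max_right _ _).trans (le_max_left _ _)
  have hB20 : 0 ≤ B2 := le_max_right _ _
  set lo := Real.exp (-(B2 + 1)) with hlo
  set hi := Real.exp (B2 + 1) with hhi
  have hlopos : 0 < lo := Real.exp_pos _
  have hlohi : lo ≤ hi := Real.exp_le_exp.mpr (by linarith)
  obtain ⟨K, M, hK, hM⟩ := OdeEx_field_lip N k lo hi hlohi
  obtain ⟨z, hz0, hz⟩ := OdeEx_global _ K M hK hM x₀
  have hzc : ContinuousOn z (Ici 0) := fun t ht => (hz t ht).continuousWithinAt
  -- the box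
  have hbox : ∀ a : ℝ, 0 < a → |Real.log a| ≤ B2 → lo < a ∧ a < hi := by
    intro a ha h
    have h1 := abs_le.mp h
    constructor
    · rw [← Real.exp_log ha, hlo]
      exact Real.exp_lt_exp.mpr (by linarith [h1.1])
    · rw [← Real.exp_log ha, hhi]
      exact Real.exp_lt_exp.mpr (by linarith [h1.2])
  have hin : ∀ t, 0 ≤ t → ∀ i, lo < z t i ∧ z t i < hi := by
    by_contra hcon
    push Not at hcon
    obtain ⟨t₁, ht₁, i₁, hi₁⟩ := hcon
    -- the bad set is closed
    let bad : Set ℝ := {t | 0 ≤ t ∧ ∃ i, ¬ (lo < z t i ∧ z t i < hi)}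
    have hbad_ne : bad.Nonempty := ⟨t₁, ht₁, i₁, fun h => absurd (hi₁ h.1) (not_le.mpr h.2)⟩
    have hbad_closed : IsClosed bad := by
      have h1 : bad = ⋃ i : Fin d, {t | 0 ≤ t ∧ ¬ (lo < z t i ∧ z t i < hi)} := by
        ext t
        simp only [bad, mem_ofPred_eq, mem_iUnion]
        constructor
        · rintro ⟨h1, i, h2⟩
          exact ⟨i, h1, h2⟩
        · rintro ⟨i, h1, h2⟩
          exact ⟨h1, i, h2⟩
      rw [h1]
      refine isClosed_iUnion_of_finite fun i => ?_
      have h2 : {t : ℝ | 0 ≤ t ∧ ¬ (lo < z t i ∧ z t i < hi)} =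
          Ici 0 ∩ (fun t => z t i) ⁻¹' (Ioo lo hi)ᶜ := by
        ext t
        simp [mem_Ioo]
      rw [h2]
      have h3 : ContinuousOn (fun t => z t i) (Ici 0) := fun t ht =>
        (continuous_apply i).continuousAt.comp_continuousWithinAt (hzc t ht)
      exact h3.preimage_isClosed_of_isClosed isClosed_Ici isOpen_Ioo.isClosed_compl
    have hbad_bdd : BddBelow bad := ⟨0, fun t ht => ht.1⟩
    set T := sInf bad with hT
    have hTbad : T ∈ bad := hbad_closed.csInf_mem hbad_ne hbad_bdd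
    have hT0 : 0 ≤ T := hTbad.1
    have hgood : ∀ t ∈ Ico 0 T, ∀ i, lo < z t i ∧ z t i < hi := by
      intro t ht i
      by_contra h
      have : t ∈ bad := ⟨ht.1, i, h⟩
      exact absurd (csInf_le hbad_bdd this) (not_le.mpr ht.2)
    have hgood0 : ∀ i, lo < z 0 i ∧ z 0 i < hi := fun i => by
      rw [hz0]
      exact hbox _ (hx₀ i) ((hU i).trans hB2U)
    have hTpos : 0 < T := by
      rcases hT0.lt_or_eq with h | h
      · exact h
      · obtain ⟨_, i, hi'⟩ := hTbad
        rw [← h] at hi'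
        exact absurd (hgood0 i) hi'
    have hsol : N.IsSolution k (Ico 0 T) z := by
      intro t ht
      have h1 := hz t ht.1
      rw [OdeEx_clip_eq fun i => ⟨(hgood t ht i).1.le, (hgood t ht i).2.le⟩] at h1
      exact h1.mono Ico_subset_Ici_self
    have hbd := hBB T z hsol (fun t ht i => hlopos.trans (hgood t ht i).1)
      (fun i => by rw [hz0]; exact hU i)
    have hTgood : ∀ i, lo < z T i ∧ z T i < hi := by
      intro i
      have h3 : ContinuousWithinAt (fun t => z t i) (Ico 0 T) T :=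
        (continuous_apply i).continuousAt.comp_continuousWithinAt
          ((hzc T hT0).mono Ico_subset_Ici_self)
      have hcl : T ∈ closure (Ico 0 T) := by
        rw [closure_Ico hTpos.ne]
        exact ⟨hT0, le_rfl⟩
      have hmem : z T i ∈ Icc (Real.exp (-B2)) (Real.exp B2) := by
        have h4 := h3.mem_closure hcl (t := Icc (Real.exp (-B2)) (Real.exp B2)) ?_
        · rwa [isClosed_Icc.closure_eq] at h4
        · intro t ht
          have h5 := abs_le.mp ((hbd t ht i).trans hB2B)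
          have hpos : 0 < z t i := hlopos.trans (hgood t ht i).1
          have h6 : Real.exp (-B2) ≤ z t i := by
            rw [← Real.exp_log hpos]
            exact Real.exp_le_exp.mpr h5.1
          have h7 : z t i ≤ Real.exp B2 := by
            rw [← Real.exp_log hpos]
            exact Real.exp_le_exp.mpr h5.2
          exact ⟨h6, h7⟩
      constructor
      · refine lt_of_lt_of_le ?_ hmem.1
        exact Real.exp_lt_exp.mpr (by linarith)
      · refine lt_of_le_of_lt hmem.2 ?_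
        exact Real.exp_lt_exp.mpr (by linarith)
    obtain ⟨_, i, hi'⟩ := hTbad
    exact hi' (hTgood i)
  refine ⟨z, hz0, fun t ht => ?_⟩
  have h1 := hz t ht
  rwa [OdeEx_clip_eq fun i => ⟨(hin t ht i).1.le, (hin t ht i).2.le⟩] at h1

end Vale.Agent.P072
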