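import Vale.Agent.Lib.P072.Region
import Vale.Agent.Lib.P072.OdeEx
import Vale.Agent.Lib.P072.Hit

/-!
# P072: the permanence theorem
-/

namespace Vale.Agent.P072

open Matrix Set

/-- The part of a positive class where all `|log x i|` are at most `B` is compact. -/
theorem isCompact_class {d : ℕ} (N : Network d) (c : Fin d → ℝ) (B : ℝ) :
    IsCompact {x | x ∈ N.posClass c ∧ ∀ i, |Real.log (x i)| ≤ B} := by
  have h1 : {x | x ∈ N.posClass c ∧ ∀ i, |Real.log (x i)| ≤ B} =
      (Icc (fun _ : Fin d => Real.exp (-B)) (fun _ => Real.exp B)) ∩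
        {x | x - c ∈ (N.stoich : Set (Fin d → ℝ))} := by
    ext x
    constructor
    · rintro ⟨⟨hx, hs⟩, hB⟩
      refine ⟨⟨fun i => ?_, fun i => ?_⟩, hs⟩
      · rw [← Real.le_log_iff_exp_le (hx i)]
        exact (abs_le.1 (hB i)).1
      · rw [← Real.log_le_iff_le_exp (hx i)]
        exact (abs_le.1 (hB i)).2
    · rintro ⟨⟨h1, h2⟩, hs⟩
      have hx : ∀ i, 0 < x i := fun i => lt_of_lt_of_le (Real.exp_pos _) (h1 i)
      refine ⟨⟨hx, hs⟩, fun i => abs_le.2 ⟨?_, ?_⟩⟩
      · rw [Real.le_log_iff_exp_le (hx i)]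
        exact h1 i
      · rw [Real.log_le_iff_le_exp (hx i)]
        exact h2 i
  rw [h1]
  refine isCompact_Icc.inter_right ?_
  have h2 : IsClosed (N.stoich : Set (Fin d → ℝ)) := N.stoich.closed_of_finiteDimensional
  exact h2.preimage (continuous_id.sub continuous_const)

theorem permanent {d : ℕ} (N : Network d) (hN : N.WeaklyReversible) (k : Cx d × Cx d → ℝ)
    (hk : ∀ r ∈ N.reactions, 0 < k r) (c : Fin d → ℝ) (hc : ∀ i, 0 < c i) :
    N.Permanent k c := by
  have hB : N.Bounded k := fun U => region N hN k hk U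
  -- solutions on `[0, ∞)` starting in the class stay in the class
  have hstay : ∀ x : ℝ → Fin d → ℝ, N.IsSolution k (Ici 0) x → x 0 ∈ N.posClass c →
      ∀ t, 0 ≤ t → x t ∈ N.posClass c := by
    intro x hx h0 t ht
    have hx' : N.IsSolution k (Ico 0 (t + 1)) x := fun s hs =>
      (hx s hs.1).mono fun r hr => hr.1
    have ht' : t ∈ Ico 0 (t + 1) := ⟨ht, by linarith⟩
    refine ⟨ode_pos N k hB (t + 1) x hx' h0.1 t ht', ?_⟩
    have h1 := ode_stoich N k (t + 1) x hx' t ht'
    have h2 : x t - c = (x t - x 0) + (x 0 - c) := by abel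
    rw [h2]
    exact N.stoich.add_mem h1 h0.2
  refine ⟨fun x₀ hx₀ => ode_exists N k hB x₀ hx₀.1, ?_, hstay, ?_⟩
  · intro x hx _ T y hy hy0
    exact ode_unique N k T y x hy (fun s hs => (hx s hs.1).mono fun r hr => hr.1) hy0
  · obtain ⟨U₁, hU₁⟩ := hit N hN k hk c hc
    obtain ⟨B, hB₁⟩ := hB U₁
    refine ⟨_, isCompact_class N c B, fun x hx => hx.1, fun x hx hx0 => ?_⟩
    have hst := hstay x hx hx0
    -- a bound for the whole solution
    obtain ⟨B', hB'⟩ := hB (∑ i, |Real.log (x 0 i)|)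
    have hbd : ∀ t, 0 ≤ t → ∀ i, |Real.log (x t i)| ≤ B' := by
      intro t ht
      refine hB' (t + 1) x (fun s hs => (hx s hs.1).mono fun r hr => hr.1)
        (fun s hs => (hst s hs.1).1) (fun i => ?_) t ⟨ht, by linarith⟩
      exact Finset.single_le_sum (f := fun i => |Real.log (x 0 i)|) (fun i _ => abs_nonneg _)
        (Finset.mem_univ i)
    obtain ⟨t₁, ht₁, h1⟩ := hU₁ x hx (fun t ht => (hst t ht).1) (fun t ht => (hst t ht).2) ⟨B', hbd⟩
    refine ⟨t₁, fun t ht => ⟨hst t (ht₁.trans ht), ?_⟩⟩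
    -- shift the time
    have hy : N.IsSolution k (Ico 0 (t - t₁ + 1)) (fun s => x (s + t₁)) := by
      intro s hs
      have h2 := hx (s + t₁) (add_nonneg hs.1 ht₁)
      have h3 : HasDerivWithinAt (fun s : ℝ => s + t₁) 1 (Ico 0 (t - t₁ + 1)) s :=
        (hasDerivWithinAt_id s _).add_const t₁
      have h4 := h2.scomp s h3 (fun r hr => add_nonneg hr.1 ht₁)
      rw [one_smul] at h4
      exact h4
    have h5 := hB₁ (t - t₁ + 1) (fun s => x (s + t₁)) hy
      (fun s hs => (hst (s + t₁) (add_nonneg hs.1 ht₁)).1) (by simpa using h1) (t - t₁)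
      ⟨sub_nonneg.2 ht, by linarith⟩
    simpa using h5

end Vale.Agent.P072
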