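import Vale.Agent.Lib.P072.SysBasic

/-!
# P072: finiteness of the set of admissible vectors

By induction on `m ≤ d` the set of vectors `w` with `Mem` and `|w k| ≤ N` for `k < m` and `w k = 0`
for `k ≥ m` is finite: coordinate `m` is one of finitely many thresholds or an integer in
`[-N, N]`.
-/

namespace Vale.Agent.P072

open Matrix

theorem Sys.finite_Wset {d : ℕ} (s : Sys d) (K M N : ℝ) : (s.Wset K M N).Finite := by
  classical
  -- truncations of admissible vectors
  have key : ∀ m : ℕ, m ≤ d →
      ((fun w : Fin d → ℝ => fun i : Fin d => if (i : ℕ) < m then w i else 0) ''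
        s.Wset K M N).Finite := by
    intro m
    induction m with
    | zero =>
      intro _
      refine (Set.finite_singleton (0 : Fin d → ℝ)).subset ?_
      rintro _ ⟨w, _, rfl⟩
      simp only [Nat.not_lt_zero, if_false]
      rfl
    | succ m ih =>
      intro hm
      have hfin := ih (by omega)
      set k : Fin d := ⟨m, by omega⟩ with hk
      -- candidate values of coordinate m
      let F : (Fin d → ℝ) → Set ℝ := fun t =>
        ((fun v : Fin d → ℝ => -(v ⬝ᵥ t)) '' (s.V k : Set (Fin d → ℝ))) ∪
          ((fun z : ℤ => (z : ℝ)) '' Set.Icc (-⌈N⌉) ⌈N⌉)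
      have hF : ∀ t, (F t).Finite := fun t =>
        ((Finset.finite_toSet _).image _).union ((Set.finite_Icc _ _).image _)
      refine (Set.Finite.biUnion hfin (fun t _ => (hF t).image
        (fun c : ℝ => Function.update t k c))).subset ?_
      rintro _ ⟨w, hw, rfl⟩
      rw [Set.mem_iUnion₂]
      refine ⟨fun i : Fin d => if (i : ℕ) < m then w i else 0, ⟨w, hw, rfl⟩, w k, ?_, ?_⟩
      · rcases hw.1 k with h | h
        · left
          obtain ⟨v, hv, hv0⟩ := h
          refine ⟨v, hv, ?_⟩
          have h1 : v ⬝ᵥ w = v ⬝ᵥ (fun i : Fin d => if (i : ℕ) < m then w i else 0) + w k := by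
            unfold dotProduct
            rw [← Finset.add_sum_erase _ _ (Finset.mem_univ k),
              ← Finset.add_sum_erase Finset.univ (fun i : Fin d => v i *
                (if (i : ℕ) < m then w i else 0)) (Finset.mem_univ k), s.monic k v hv]
            have h2 : ∑ i ∈ Finset.univ.erase k, v i * w i =
                ∑ i ∈ Finset.univ.erase k, v i * (if (i : ℕ) < m then w i else 0) := by
              refine Finset.sum_congr rfl fun i hi => ?_
              by_cases him : (i : ℕ) < m
              · rw [if_pos him]
              · have hne : i ≠ k := (Finset.mem_erase.1 hi).1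
                have hlt : k < i := by
                  rw [Fin.lt_def]
                  have h3 : (i : ℕ) ≠ m := fun h => hne (Fin.ext h)
                  have h4 : (k : ℕ) = m := rfl
                  omega
                rw [s.supp k v hv i hlt, zero_mul, zero_mul]
            rw [h2]
            have h5 : ¬ ((k : ℕ) < m) := by
              have h4 : (k : ℕ) = m := rfl
              omega
            rw [if_neg h5]
            ring
          show -(v ⬝ᵥ _) = w k
          linarith
        · right
          obtain ⟨⟨z, hz⟩, _⟩ := h
          refine ⟨z, ?_, hz.symm⟩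
          have h1 := hw.2.2 k
          rw [hz, abs_le] at h1
          rw [Set.mem_Icc]
          have h2 : (N : ℝ) ≤ (⌈N⌉ : ℤ) := Int.le_ceil N
          constructor
          · have : ((-⌈N⌉ : ℤ) : ℝ) ≤ (z : ℝ) := by push_cast; linarith [h1.1]
            exact_mod_cast this
          · have : (z : ℝ) ≤ ((⌈N⌉ : ℤ) : ℝ) := by linarith [h1.2]
            exact_mod_cast this
      · funext i
        have h4 : (k : ℕ) = m := rfl
        change Function.update (fun i : Fin d => if (i : ℕ) < m then w i else 0) k (w k) i =
          if (i : ℕ) < m + 1 then w i else 0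
        by_cases hik : i = k
        · rw [hik]
          rw [Function.update_self, if_pos (by omega)]
        · rw [Function.update_of_ne hik]
          have h3 : (i : ℕ) ≠ m := fun h => hik (Fin.ext h)
          by_cases him : (i : ℕ) < m
          · rw [if_pos him, if_pos (by omega)]
          · rw [if_neg him, if_neg (by omega)]
  have h := key d le_rfl
  have heq : (fun w : Fin d → ℝ => fun i : Fin d => if (i : ℕ) < d then w i else 0) = id := by
    funext w i
    simp only [Fin.is_lt, if_true, id]
  rwa [heq, Set.image_id] at h

end Vale.Agent.P072
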