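import Vale.Agent.Lib.P072.Defs

/-!
# P072: the flux inequality

`M₁ = log (2 * card R * card C * kmax / kmin)` (or larger). For an up-edge `y → y'`
(`c = g y < g y'`) there is a path from `y'` to `y`. Claim: some reaction `z → z'` has
`c < g z`, `g z' < g z` and `g y' - c ≤ card C * (g z - g z')`: one of the `card C` open
subintervals of `(c, g y')` of equal length contains no value of `g` on the complexes, and the
path has to cross it. Then `k x^z (g z - g z') ≥ kmin exp M₁ x^y (g y' - c) / card C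
≥ 2 card R * (term of y → y')`. So the sum of the positive terms is at most half of the absolute value of the
sum of the negative terms, and if there is a positive term there is a negative term.
-/

namespace Vale.Agent.P072

/-- the flux inequality with the constant `M₁` -/
def Network.FluxIneq {d : ℕ} (N : Network d) (k : Cx d × Cx d → ℝ) (M₁ : ℝ) : Prop :=
  ∀ x : Fin d → ℝ, (∀ i, 0 < x i) → ∀ g : Cx d → ℝ,
    (∀ y ∈ N.complexes, ∀ y' ∈ N.complexes, g y' < g y →
      Real.exp M₁ * monom x y' ≤ monom x y) →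
    (∑ r ∈ N.reactions, k r * monom x r.1 * (g r.2 - g r.1) ≤ 0) ∧
    ((∃ r ∈ N.reactions, g r.1 ≠ g r.2) →
      ∑ r ∈ N.reactions, k r * monom x r.1 * (g r.2 - g r.1) < 0)

/-- a path from inside `P` to outside `P` leaves `P` through an edge -/
theorem flux_cross {α : Type*} {r : α → α → Prop} {P : α → Prop} {a b : α}
    (h : Relation.ReflTransGen r a b) (ha : P a) (hb : ¬ P b) :
    ∃ x y, r x y ∧ P x ∧ ¬ P y := by
  induction h with
  | refl => exact absurd ha hb
  | @tail b c _ hbc ih =>
    by_cases hP : P b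
    · exact ⟨b, c, hbc, hP, hb⟩
    · exact ih hP

/-- one of the `card C` equal open subintervals contains no value -/
theorem flux_gap {α : Type*} [DecidableEq α] (C : Finset α) (g : α → ℝ) (a : α) (ha : a ∈ C)
    (δ : ℝ) (hδ : 0 < δ) :
    ∃ j : ℕ, j < C.card ∧ ∀ z ∈ C, ¬ (g a + j * δ < g z ∧ g z < g a + (j + 1) * δ) := by
  classical
  by_contra hcon
  push Not at hcon
  have hcon' : ∀ j : ℕ, ∃ z, j < C.card →
      (z ∈ C ∧ g a + j * δ < g z ∧ g z < g a + (j + 1) * δ) := by
    intro j
    by_cases hj : j < C.card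
    · obtain ⟨z, hz, h1, h2⟩ := hcon j hj
      exact ⟨z, fun _ => ⟨hz, h1, h2⟩⟩
    · exact ⟨a, fun h => absurd h hj⟩
  choose f hf using hcon'
  have hmaps : ∀ j ∈ Finset.range C.card, f j ∈ C.erase a := by
    intro j hj
    have hj' := Finset.mem_range.1 hj
    obtain ⟨h1, h2, _⟩ := hf j hj'
    refine Finset.mem_erase.2 ⟨?_, h1⟩
    intro h
    rw [h] at h2
    have : (0 : ℝ) ≤ j * δ := by positivity
    linarith
  have hcard : (C.erase a).card < (Finset.range C.card).card := by
    rw [Finset.card_range]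
    exact Finset.card_erase_lt_of_mem ha
  obtain ⟨i, hi, j, hj, hij, hfij⟩ :=
    Finset.exists_ne_map_eq_of_card_lt_of_maps_to hcard hmaps
  have key : ∀ i j : ℕ, i < C.card → j < C.card → f i = f j → i < j → False := by
    intro i j hi hj hfe hlt
    obtain ⟨_, _, h3⟩ := hf i hi
    obtain ⟨_, h5, _⟩ := hf j hj
    rw [hfe] at h3
    have h6 : ((i : ℝ) + 1) ≤ j := by exact_mod_cast hlt
    have h7 : ((i : ℝ) + 1) * δ ≤ j * δ := mul_le_mul_of_nonneg_right h6 hδ.le
    linarith
  rcases lt_or_gt_of_ne hij with h | h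
  · exact key i j (Finset.mem_range.1 hi) (Finset.mem_range.1 hj) hfij h
  · exact key j i (Finset.mem_range.1 hj) (Finset.mem_range.1 hi) hfij.symm h

/-- the steep down-edge -/
theorem flux_down {d : ℕ} (N : Network d) (hN : N.WeaklyReversible) (g : Cx d → ℝ)
    (r : Cx d × Cx d) (hr : r ∈ N.reactions) (hup : g r.1 < g r.2) :
    ∃ q ∈ N.reactions, g r.1 < g q.1 ∧
      g r.2 - g r.1 ≤ (N.complexes.card : ℝ) * (g q.1 - g q.2) := by
  classical
  have hmem := N.source_mem r hr
  have hpos : 0 < N.complexes.card := Finset.card_pos.2 ⟨r.1, hmem⟩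
  have hposR : (0 : ℝ) < N.complexes.card := by exact_mod_cast hpos
  set n : ℝ := (N.complexes.card : ℝ) with hn
  set δ : ℝ := (g r.2 - g r.1) / n with hδdef
  have hδ : 0 < δ := div_pos (by linarith) hposR
  have hnδ : n * δ = g r.2 - g r.1 := by
    rw [hδdef]; field_simp
  obtain ⟨j, hj, hgap⟩ := flux_gap N.complexes g r.1 hmem δ hδ
  have hjn : ((j : ℝ) + 1) ≤ n := by
    rw [hn]; exact_mod_cast hj
  have hPa : g r.1 + ((j : ℝ) + 1) * δ ≤ g r.2 := by
    have := mul_le_mul_of_nonneg_right hjn hδ.le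
    linarith
  have hj0 : (0 : ℝ) ≤ j * δ := by positivity
  have hPb : ¬ (g r.1 + ((j : ℝ) + 1) * δ ≤ g r.1) := by
    have : ((j : ℝ) + 1) * δ = j * δ + δ := by ring
    intro h
    linarith
  obtain ⟨z, z', hzz, hz, hz'⟩ := flux_cross (P := fun y => g r.1 + ((j : ℝ) + 1) * δ ≤ g y)
    (hN r hr) hPa hPb
  have hz'C : z' ∈ N.complexes := N.target_mem (z, z') hzz
  have h1 : g z' ≤ g r.1 + j * δ := by
    by_contra hlt
    exact hgap z' hz'C ⟨not_le.1 hlt, not_le.1 hz'⟩
  have h2 : ((j : ℝ) + 1) * δ = j * δ + δ := by ring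
  refine ⟨(z, z'), hzz, ?_, ?_⟩
  · show g r.1 < g z
    linarith
  · show g r.2 - g r.1 ≤ n * (g z - g z')
    have h3 : δ ≤ g z - g z' := by linarith
    have := mul_le_mul_of_nonneg_left h3 hposR.le
    linarith

theorem monom_pos_flux {d : ℕ} (x : Fin d → ℝ) (hx : ∀ i, 0 < x i) (y : Cx d) :
    0 < monom x y := Finset.prod_pos fun i _ => pow_pos (hx i) _

theorem flux {d : ℕ} (N : Network d) (hN : N.WeaklyReversible) (k : Cx d × Cx d → ℝ)
    (hk : ∀ r ∈ N.reactions, 0 < k r) : ∃ M₁ : ℝ, 0 ≤ M₁ ∧ N.FluxIneq k M₁ := by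
  classical
  rcases N.reactions.eq_empty_or_nonempty with hR | hR
  · refine ⟨0, le_rfl, ?_⟩
    intro x _ g _
    rw [hR]
    simp
  obtain ⟨ra, hra, hmin⟩ := N.reactions.exists_min_image k hR
  obtain ⟨rb, hrb, hmax⟩ := N.reactions.exists_max_image k hR
  set a := k ra with ha
  set B := k rb with hB
  have ha0 : 0 < a := hk ra hra
  have haB : a ≤ B := hmin rb hrb
  have hB0 : 0 < B := lt_of_lt_of_le ha0 haB
  set m : ℝ := (N.reactions.card : ℝ) with hm
  set n : ℝ := (N.complexes.card : ℝ) with hn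
  have hm1 : 1 ≤ m := by
    rw [hm]; exact_mod_cast Finset.card_pos.2 hR
  have hn1 : 1 ≤ n := by
    rw [hn]; exact_mod_cast Finset.card_pos.2 ⟨ra.1, N.source_mem ra hra⟩
  set L : ℝ := 2 * m * n * (B / a) with hL
  have hBa : 1 ≤ B / a := by rw [le_div_iff₀ ha0]; linarith
  have hmn : 1 ≤ m * n := by nlinarith
  have hL1 : 1 ≤ L := by
    rw [hL]
    nlinarith [mul_le_mul hmn hBa zero_le_one (by linarith)]
  have hL0 : 0 < L := by linarith
  refine ⟨Real.log L, Real.log_nonneg hL1, ?_⟩
  intro x hx g hdom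
  rw [Real.exp_log hL0] at hdom
  set t : Cx d × Cx d → ℝ := fun r => k r * monom x r.1 * (g r.2 - g r.1) with ht
  set S : ℝ := ∑ r ∈ N.reactions, max (-(t r)) 0 with hS
  have hS0 : 0 ≤ S := Finset.sum_nonneg fun r _ => le_max_right _ _
  have hle : ∀ r ∈ N.reactions, max (-(t r)) 0 ≤ S := fun r hr =>
    Finset.single_le_sum (f := fun r => max (-(t r)) 0) (fun r _ => le_max_right _ _) hr
  have hcoef : ∀ r ∈ N.reactions, 0 < k r * monom x r.1 := fun r hr =>
    mul_pos (hk r hr) (monom_pos_flux x hx _)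
  -- an up-edge
  have hup : ∀ r ∈ N.reactions, 0 < t r → t r ≤ S / (2 * m) ∧ 0 < S := by
    intro r hr htr
    have hg : g r.1 < g r.2 := by
      have h1 := hcoef r hr
      have h2 : 0 < g r.2 - g r.1 := by
        by_contra h3
        have h4 : k r * monom x r.1 * (g r.2 - g r.1) ≤ 0 :=
          mul_nonpos_of_nonneg_of_nonpos h1.le (not_lt.1 h3)
        exact absurd htr (not_lt.2 h4)
      linarith
    obtain ⟨q, hq, hgq, hsteep⟩ := flux_down N hN g r hr hg
    rw [← hn] at hsteep
    have hD0 : 0 < g q.1 - g q.2 := by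
      by_contra h3
      have : n * (g q.1 - g q.2) ≤ 0 :=
        mul_nonpos_of_nonneg_of_nonpos (by linarith) (not_lt.1 h3)
      linarith
    have hdomq : L * monom x r.1 ≤ monom x q.1 :=
      hdom q.1 (N.source_mem q hq) r.1 (N.source_mem r hr) hgq
    have hmr := monom_pos_flux x hx r.1
    have hmq := monom_pos_flux x hx q.1
    have htq : -(t q) = k q * monom x q.1 * (g q.1 - g q.2) := by
      rw [ht]; ring
    have htq0 : 0 < -(t q) := by
      rw [htq]; exact mul_pos (hcoef q hq) hD0
    have htqS : -(t q) ≤ S := le_trans (le_max_left _ _) (hle q hq)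
    refine ⟨?_, lt_of_lt_of_le htq0 htqS⟩
    have e1 : t r ≤ B * monom x r.1 * (n * (g q.1 - g q.2)) := by
      rw [ht]
      have h1 : k r * monom x r.1 ≤ B * monom x r.1 :=
        mul_le_mul_of_nonneg_right (hmax r hr) hmr.le
      exact mul_le_mul h1 hsteep (by linarith) (by positivity)
    have e2 : a * (L * monom x r.1) * (g q.1 - g q.2) ≤ -(t q) := by
      rw [htq]
      refine mul_le_mul_of_nonneg_right ?_ hD0.le
      exact mul_le_mul (hmin q hq) hdomq (by positivity) (hk q hq).le
    have e3 : a * (L * monom x r.1) * (g q.1 - g q.2)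
        = 2 * m * (B * monom x r.1 * (n * (g q.1 - g q.2))) := by
      rw [hL]; field_simp
    rw [le_div_iff₀ (by linarith)]
    have e4 : t r * (2 * m) ≤ B * monom x r.1 * (n * (g q.1 - g q.2)) * (2 * m) :=
      mul_le_mul_of_nonneg_right e1 (by linarith)
    linarith
  have hpos : ∑ r ∈ N.reactions, max (t r) 0 ≤ S / 2 := by
    have h1 : ∀ r ∈ N.reactions, max (t r) 0 ≤ S / (2 * m) := by
      intro r hr
      rcases lt_or_ge 0 (t r) with h | h
      · rw [max_eq_left h.le]; exact (hup r hr h).1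
      · rw [max_eq_right h]; exact div_nonneg hS0 (by linarith)
    have h2 := Finset.sum_le_card_nsmul N.reactions _ _ h1
    rw [nsmul_eq_mul, ← hm] at h2
    have h3 : m * (S / (2 * m)) = S / 2 := by field_simp
    linarith
  have hsplit : ∑ r ∈ N.reactions, t r = ∑ r ∈ N.reactions, max (t r) 0 - S := by
    rw [hS, ← Finset.sum_sub_distrib]
    refine Finset.sum_congr rfl fun r _ => ?_
    rcases le_total 0 (t r) with h | h
    · rw [max_eq_left h, max_eq_right (by linarith)]; ring
    · rw [max_eq_right h, max_eq_left (by linarith)]; ring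
  constructor
  · show ∑ r ∈ N.reactions, t r ≤ 0
    rw [hsplit]; linarith
  · rintro ⟨r, hr, hne⟩
    show ∑ r ∈ N.reactions, t r < 0
    have hSpos : 0 < S := by
      rcases lt_or_gt_of_ne hne with h | h
      · have : 0 < t r := mul_pos (hcoef r hr) (by linarith)
        exact (hup r hr this).2
      · have h1 : 0 < -(t r) := by
          have h2 : -(t r) = k r * monom x r.1 * (g r.1 - g r.2) := by rw [ht]; ring
          rw [h2]; exact mul_pos (hcoef r hr) (by linarith)
        exact lt_of_lt_of_le (lt_of_lt_of_le h1 (le_max_left _ _)) (hle r hr)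
    rw [hsplit]; linarith

end Vale.Agent.P072
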