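import Vale.Agent.Lib.P072.SysBasic

/-!
# P072: distinct thresholds are far apart

Claim `P j` (strong induction on `j < k`): for `r ∈ V j` with `r ⬝ᵥ w ≠ 0` there is `i ≤ j` which
is not active with `g ^ j * ell i ≤ |r ⬝ᵥ w|`. If `j` is not active take `i = j` (second
alternative of `Mem`). If `j` is active, there is `r' ∈ V j` with `r' ⬝ᵥ w = 0`, so `r ≠ r'` and
`elim` gives `r - r' = γ • r''` with `r'' ∈ V j'`, `j' < j`, `r'' ⬝ᵥ w ≠ 0`. Apply the claim to it.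
For `v, v'` use `elim` once more: `v - v' = γ • r`, `|γ| ≥ g`, `r ∈ V j`, `j < k`, and
`K * ell k ≤ ell i` by `ell_of_not_act`, and `8 ≤ g ^ (d + 1) * K`.
-/

namespace Vale.Agent.P072

open Matrix

/-- the difference of two vectors of `V k`, evaluated at `w` -/
theorem Sys.gap_elim {d : ℕ} (s : Sys d) {w : Fin d → ℝ} {k : Fin d} {v v' : Fin d → ℝ}
    (hv : v ∈ s.V k) (hv' : v' ∈ s.V k) (h : v ⬝ᵥ w ≠ v' ⬝ᵥ w) :
    ∃ j, j < k ∧ ∃ r ∈ s.V j, r ⬝ᵥ w ≠ 0 ∧ s.g * |r ⬝ᵥ w| ≤ |v ⬝ᵥ w - v' ⬝ᵥ w| := by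
  have hne : v ≠ v' := by
    rintro rfl
    exact h rfl
  obtain ⟨j, hj, r, hr, γ, hγ, e⟩ := s.elim k v hv v' hv' hne
  have e2 : v ⬝ᵥ w - v' ⬝ᵥ w = γ * (r ⬝ᵥ w) := by
    rw [← sub_dotProduct, e, smul_dotProduct, smul_eq_mul]
  refine ⟨j, hj, r, hr, ?_, ?_⟩
  · intro h0
    rw [h0, mul_zero] at e2
    exact h (sub_eq_zero.1 e2)
  · rw [e2, abs_mul]
    exact mul_le_mul_of_nonneg_right hγ (abs_nonneg _)

theorem Sys.gap_claim {d : ℕ} {s : Sys d} {K M : ℝ} (hP : Par s K M) {w : Fin d → ℝ} {k : Fin d}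
    (hw : ∀ j, j < k → s.Mem K M w j) (n : ℕ) :
    ∀ j : Fin d, (j : ℕ) = n → j < k → ∀ r ∈ s.V j, r ⬝ᵥ w ≠ 0 →
      ∃ i, i ≤ j ∧ ¬ s.act w i ∧ s.g ^ n * s.ell K M w i ≤ |r ⬝ᵥ w| := by
  induction n using Nat.strong_induction_on with
  | _ n ih =>
    intro j hjn hjk r hr hr0
    by_cases hact : s.act w j
    · obtain ⟨r', hr', h0⟩ := hact
      have hne : r ⬝ᵥ w ≠ r' ⬝ᵥ w := by
        rw [h0]
        exact hr0
      obtain ⟨j', hj', r'', hr'', hn0, hle⟩ := s.gap_elim hr hr' hne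
      rw [h0, sub_zero] at hle
      have hlt : (j' : ℕ) < n := by
        rw [← hjn]
        exact hj'
      obtain ⟨i, hi, hna, hi2⟩ := ih j' hlt j' rfl (lt_trans hj' hjk) r'' hr'' hn0
      refine ⟨i, le_trans hi hj'.le, hna, ?_⟩
      have hell : 0 ≤ s.ell K M w i := le_trans (by norm_num) (Sys.eight_le_ell hP)
      calc s.g ^ n * s.ell K M w i ≤ s.g ^ ((j' : ℕ) + 1) * s.ell K M w i :=
            mul_le_mul_of_nonneg_right
              (pow_le_pow_of_le_one s.g_pos.le s.g_le (by omega)) hell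
        _ = s.g * (s.g ^ (j' : ℕ) * s.ell K M w i) := by ring
        _ ≤ s.g * |r'' ⬝ᵥ w| := mul_le_mul_of_nonneg_left hi2 s.g_pos.le
        _ ≤ |r ⬝ᵥ w| := hle
    · refine ⟨j, le_refl _, hact, ?_⟩
      have hell : 0 ≤ s.ell K M w j := le_trans (by norm_num) (Sys.eight_le_ell hP)
      rcases hw j hjk with h1 | ⟨_, h2⟩
      · exact absurd h1 hact
      · calc s.g ^ n * s.ell K M w j ≤ 1 * s.ell K M w j :=
              mul_le_mul_of_nonneg_right (pow_le_one₀ s.g_pos.le s.g_le) hell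
          _ = s.ell K M w j := one_mul _
          _ ≤ |r ⬝ᵥ w| := h2 r hr

theorem Sys.gap {d : ℕ} {s : Sys d} {K M : ℝ} (hP : Par s K M) {w : Fin d → ℝ} {k : Fin d}
    (hw : ∀ j, j < k → s.Mem K M w j) {v v' : Fin d → ℝ} (hv : v ∈ s.V k) (hv' : v' ∈ s.V k)
    (h : v ⬝ᵥ w ≠ v' ⬝ᵥ w) : 8 * s.ell K M w k ≤ |v ⬝ᵥ w - v' ⬝ᵥ w| := by
  obtain ⟨j, hj, r, hr, hr0, hle⟩ := s.gap_elim hv hv' h
  obtain ⟨i, hi, hna, hi2⟩ := Sys.gap_claim hP hw (j : ℕ) j rfl hj r hr hr0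
  have hik : i < k := lt_of_le_of_lt hi hj
  have hK := Sys.ell_of_not_act hP hik hna
  have hell : 0 ≤ s.ell K M w k := le_trans (by norm_num) (Sys.eight_le_ell hP)
  have hK0 : 0 ≤ K := le_trans (by norm_num) hP.K8
  have hjd : (j : ℕ) + 1 ≤ d + 1 := by
    have := j.isLt
    omega
  calc 8 * s.ell K M w k ≤ (s.g ^ (d + 1) * K) * s.ell K M w k :=
        mul_le_mul_of_nonneg_right hP.Kg hell
    _ = s.g ^ (d + 1) * (K * s.ell K M w k) := by ring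
    _ ≤ s.g ^ ((j : ℕ) + 1) * (K * s.ell K M w k) :=
        mul_le_mul_of_nonneg_right (pow_le_pow_of_le_one s.g_pos.le s.g_le hjd)
          (mul_nonneg hK0 hell)
    _ ≤ s.g ^ ((j : ℕ) + 1) * s.ell K M w i :=
        mul_le_mul_of_nonneg_left hK (pow_nonneg s.g_pos.le _)
    _ = s.g * (s.g ^ (j : ℕ) * s.ell K M w i) := by ring
    _ ≤ s.g * |r ⬝ᵥ w| := mul_le_mul_of_nonneg_left hi2 s.g_pos.le
    _ ≤ |v ⬝ᵥ w - v' ⬝ᵥ w| := hle

end Vale.Agent.P072
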