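import Vale.Agent.Lib.P072.LFfin

/-!
# P072: the rounded entropy on a finite index type

Transport `hasRE_fin` along an equivalence `ι ≃ Fin d`.
-/

namespace Vale.Agent.P072

open Matrix

/-- monotonicity in the constant -/
theorem HasRE.mono {ι : Type} [Fintype ι] {A : Finset (ι → ℝ)} {Λ M₀ Λ' M₀' : ℝ}
    (h : HasRE ι A Λ M₀) (hΛ : Λ ≤ Λ') (hM : M₀ ≤ M₀') (h0 : 0 ≤ M₀') : HasRE ι A Λ' M₀' := by
  intro M hM' N₀
  obtain ⟨R⟩ := h M (hM.trans hM') N₀
  have hM0 : 0 ≤ M := h0.trans hM'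
  have hle : Λ * M ≤ Λ' * M := mul_le_mul_of_nonneg_right hΛ hM0
  exact ⟨{
    n := R.n
    W := R.W
    b := R.b
    D := R.D
    Φ := R.Φ
    cont := R.cont
    closed := R.closed
    cover := R.cover
    le := R.le
    eq := R.eq
    near := fun j u hu hb i => (R.near j u hu hb i).trans hle
    zero := R.zero
    nonneg := R.nonneg
    nonpos := R.nonpos
    lower := fun u hu => by
      refine le_trans (Finset.sum_le_sum fun i _ => ?_) (R.lower u hu)
      exact mul_le_mul_of_nonneg_left (by linarith) (Real.exp_pos _).le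
    upper := fun u hu => by
      refine (R.upper u hu).trans (Finset.sum_le_sum fun i _ => ?_)
      exact mul_le_mul_of_nonneg_left (by linarith) (Real.exp_pos _).le }⟩

theorem LF_dot {ι κ : Type} [Fintype ι] [Fintype κ] (e : ι ≃ κ) (w : κ → ℝ) (x : ι → ℝ) :
    (w ∘ e) ⬝ᵥ x = w ⬝ᵥ (x ∘ e.symm) := by
  unfold dotProduct
  rw [← Equiv.sum_comp e]
  exact Finset.sum_congr rfl fun i _ => by simp

theorem hasRE (ι : Type) [Fintype ι] (A : Finset (ι → ℝ)) :
    ∃ Λ M₀ : ℝ, 1 ≤ Λ ∧ 1 ≤ M₀ ∧ HasRE ι A Λ M₀ := by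
  classical
  set e := Fintype.equivFin ι
  obtain ⟨Λ, M₀, hΛ, hM₀, h⟩ := hasRE_fin (Fintype.card ι) (A.image fun a => a ∘ e.symm)
  refine ⟨Λ, M₀, hΛ, hM₀, ?_⟩
  intro M hM N₀
  obtain ⟨R⟩ := h M hM N₀
  have hb : ∀ u : ι → ℝ, (∀ i, |u i| ≤ N₀) → ∀ k, |(u ∘ e.symm) k| ≤ N₀ := fun u hu k => hu _
  have hA : ∀ a ∈ A, a ∘ e.symm ∈ A.image fun a => a ∘ e.symm := fun a ha =>
    Finset.mem_image_of_mem _ ha
  have hsum : ∀ u : ι → ℝ, ∀ c : ℝ, ∑ k, Real.exp ((u ∘ e.symm) k) * ((u ∘ e.symm) k + c)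
      = ∑ i, Real.exp (u i) * (u i + c) := by
    intro u c
    rw [← Equiv.sum_comp e]
    exact Finset.sum_congr rfl fun i _ => by simp
  have hdot : ∀ a w : ι → ℝ, a ⬝ᵥ w = (a ∘ e.symm) ⬝ᵥ (w ∘ e.symm) := by
    intro a w
    rw [← LF_dot e (a ∘ e.symm) w]
    congr 1
    funext i
    simp
  have hdotW : ∀ (a : ι → ℝ) (w : Fin (Fintype.card ι) → ℝ), a ⬝ᵥ (w ∘ e) = (a ∘ e.symm) ⬝ᵥ w := by
    intro a w
    rw [hdot]
    congr 1
    funext k
    simp
  exact ⟨{
    n := R.n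
    W := fun j => R.W j ∘ e
    b := R.b
    D := fun j => (fun u : ι → ℝ => u ∘ e.symm) ⁻¹' R.D j
    Φ := fun u => R.Φ (u ∘ e.symm)
    cont := R.cont.comp (by fun_prop)
    closed := fun j => (R.closed j).preimage (by fun_prop)
    cover := fun u hu => R.cover _ (hb u hu)
    le := fun j u => by
      rw [LF_dot]
      exact R.le j (u ∘ e.symm)
    eq := fun j u hu hub => by
      rw [LF_dot]
      exact R.eq j (u ∘ e.symm) hu (hb u hub)
    near := fun j u hu hub i => by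
      have := R.near j (u ∘ e.symm) hu (hb u hub) (e i)
      simpa using this
    zero := fun j u hu hub a ha h1 => by
      rw [hdotW]
      rw [hdot] at h1
      exact R.zero j (u ∘ e.symm) hu (hb u hub) _ (hA a ha) h1
    nonneg := fun j u hu hub a ha h1 => by
      rw [hdotW]
      rw [hdot] at h1
      exact R.nonneg j (u ∘ e.symm) hu (hb u hub) _ (hA a ha) h1
    nonpos := fun j u hu hub a ha h1 => by
      rw [hdotW]
      rw [hdot] at h1
      exact R.nonpos j (u ∘ e.symm) hu (hb u hub) _ (hA a ha) h1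
    lower := fun u hu => by
      have h1 := R.lower (u ∘ e.symm) (hb u hu)
      have h2 := hsum u (-(Λ * M))
      simp only [← sub_eq_add_neg] at h2
      rw [h2] at h1
      exact h1
    upper := fun u hu => by
      have h1 := R.upper (u ∘ e.symm) (hb u hu)
      rw [hsum u (Λ * M)] at h1
      exact h1 }⟩

end Vale.Agent.P072
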