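import Vale.Agent.Lib.P072.Comp

/-!
# P072: lower location estimate for maximisers

Suppose `u k < t - kap` with `t = w k - rad k`. Let `p` be the first index `> k` with `w p < w k`
or `p = d` (`first_drop`). By `hU` at `p` and `drop_le`, `u p ≤ w k - ell p + 2`. Apply `comp` with `z = w⁻`:
* `k` free and `w k - 1` satisfies `Mem` (for `plat w k (w k - 1)`): `w⁻ = w k - 1`;
* `k` free otherwise: there is `v ∈ V k` with threshold `T`, `|w k - 1 - T| < ell k`; as
  `|w k - T| ≥ ell k` we get `T + ell k ≤ w k < T + ell k + 1`; take `w⁻ = T` (active);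
* `k` active: `w⁻ = ⌊w k - ell k - 1⌋` (free, by `gap`).
`val_diff`: saving at `k`: `cst w k - cst w' k ≥ exp t / 2`. Loss: `(w k - w⁻) * ∑ ≤
(Lc + 2) * d * exp (u k) ≤ exp t / 16`; `γ = exp (t - M)`; `β = exp (2 - M) * exp t` (in the third case use
`ell p ≥ K * ell k`, `ell_of_act`). The sum is positive by `Par.Mexp`.
-/

namespace Vale.Agent.P072

open Matrix

private lemma locD_plat_lt {d : ℕ} {w : Fin d → ℝ} {k : Fin d} {z : ℝ} {i : Fin d} (h : i < k) :
    plat w k z i = w i := by
  simp [plat, h]

private lemma locD_plat_self {d : ℕ} {w : Fin d → ℝ} {k : Fin d} {z : ℝ} :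
    plat w k z k = z := by
  simp [plat]

private lemma locD_dot {d : ℕ} {s : Sys d} {w : Fin d → ℝ} {k : Fin d} {z : ℝ} {v : Fin d → ℝ}
    (hv : v ∈ s.V k) : v ⬝ᵥ plat w k z = v ⬝ᵥ w + (z - w k) := by
  have h := s.thr_congr (w := plat w k z) (w' := w) (k := k)
    (fun _ hi => locD_plat_lt hi) hv
  rw [locD_plat_self] at h
  linarith

private lemma locD_ell {d : ℕ} {s : Sys d} {K M : ℝ} {w : Fin d → ℝ} {k : Fin d} {z : ℝ} :
    s.ell K M (plat w k z) k = s.ell K M w k :=
  s.ell_congr (fun _ hi => locD_plat_lt hi)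

private lemma locD_sum_le {d : ℕ} {u : Fin d → ℝ} (hu : Antitone u) (k : Fin d) (p : ℕ) :
    (∑ j : Fin d, if k ≤ j ∧ (j : ℕ) < p then Real.exp (u j) else 0) ≤ d * Real.exp (u k) := by
  calc (∑ j : Fin d, if k ≤ j ∧ (j : ℕ) < p then Real.exp (u j) else 0)
      ≤ ∑ _j : Fin d, Real.exp (u k) := by
        refine Finset.sum_le_sum fun j _ => ?_
        split_ifs with h
        · exact Real.exp_le_exp.mpr (hu h.1)
        · exact (Real.exp_pos _).le
    _ = d * Real.exp (u k) := by
        rw [Finset.sum_const, Finset.card_univ, Fintype.card_fin, nsmul_eq_mul]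

private lemma locD_Lc_pos {d : ℕ} {s : Sys d} {K M : ℝ} (hP : Par s K M) : 0 < Lc d K M := by
  have h1 := hP.M1
  have h2 := hP.K8
  unfold Lc
  positivity

private lemma locD_ell_le {d : ℕ} {s : Sys d} {K M : ℝ} (hP : Par s K M) {w : Fin d → ℝ}
    {k : Fin d} : 8 * s.ell K M w k ≤ Lc d K M := by
  have h1 := Sys.ell_le hP (w := w) (k := k)
  have h2 := Sys.eight_le_ell hP (w := w) (k := k)
  have h3 := hP.K8
  nlinarith

/-- the core estimate: a competitor with value `z` on the plateau -/
private lemma locD_core {d : ℕ} {s : Sys d} {K M N N₀ : ℝ} (hP : Par s K M) {w u : Fin d → ℝ}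
    (hu : Antitone u) (hu0 : ∀ i, |u i| ≤ N₀) (hN : N₀ + 2 * Lc d K M + 4 ≤ N)
    (hw : s.IsMax K M N w u) (k : Fin d) (p : ℕ) (hkp : (k : ℕ) < p) (hpd : p ≤ d)
    (hpl : ∀ j : Fin d, k ≤ j → (j : ℕ) < p → w j = w k) (z t : ℝ)
    (ht : t = w k - s.rad K M w k)
    (hz : s.Mem K M (plat w k z) k) (hzw : z ≤ w k) (hzL : w k - z ≤ Lc d K M + 2)
    (hcz : s.cst K M (plat w k z) k ≤ Real.exp t / 2) (hzt : z ≤ t)
    (hup : ∀ j : Fin d, (j : ℕ) = p → u j ≤ z + s.ell K M (plat w k z) j)
    (hb : ∀ j : Fin d, (j : ℕ) = p → u j ≤ t + 2 - M) (hzN : -N ≤ z) :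
    t - kap d K M ≤ u k := by
  obtain ⟨⟨hmem, hwa, hwN⟩, hmax⟩ := hw
  have hL := locD_Lc_pos hP
  obtain ⟨w', h1, h2, h3, h4, h5, h6, h7⟩ := Sys.comp hP w u hu hmem hwa k z p hkp hpd hz
    (fun j hj => hzw.trans (hwa (Fin.le_def.mpr (by omega)))) hup
  -- w' is admissible
  have hW : w' ∈ s.Wset K M N := by
    refine ⟨h1, h2, fun j => ?_⟩
    rcases lt_or_ge j k with hj | hj
    · rw [h3 j hj]; exact hwN j
    · rcases lt_or_ge (j : ℕ) p with hjp | hjp
      · rw [h4 j hj hjp]
        have := (abs_le.mp (hwN k)).2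
        exact abs_le.mpr ⟨hzN, hzw.trans this⟩
      · have a1 := abs_le.mp (h7 j hjp)
        have a2 := abs_le.mp (hu0 j)
        exact abs_le.mpr ⟨by linarith [a1.1, a2.1], by linarith [a1.2, a2.2]⟩
  have hle := hmax w' hW
  -- cost of w' at k
  have hck : s.cst K M w' k = s.cst K M (plat w k z) k := by
    refine s.cst_congr fun i hi => ?_
    rcases hi.lt_or_eq with hi | hi
    · rw [h3 i hi, locD_plat_lt hi]
    · rw [hi, h4 k le_rfl hkp, locD_plat_self]
  -- costs between
  have hcost : ∀ j : Fin d, k < j → (j : ℕ) < p → s.cst K M w' j ≤ Real.exp (t - M) := by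
    intro j hj hjp
    unfold Sys.cst
    rw [s.rad_act (h5 j hj hjp), h4 j hj.le hjp]
    have := Sys.M_le_ell hP (w := w') (k := j)
    exact Real.exp_le_exp.mpr (by linarith)
  -- tail
  have htail : ∀ j : Fin d, p ≤ (j : ℕ) → Real.exp (u j) ≤ Real.exp (t + 2 - M) := by
    intro j hj
    have hpj : p < d := lt_of_le_of_lt hj j.2
    have a1 := hb ⟨p, hpj⟩ rfl
    have a2 : u j ≤ u ⟨p, hpj⟩ := hu (Fin.le_def.mpr hj)
    exact Real.exp_le_exp.mpr (a2.trans a1)
  have hvd := Sys.val_diff hP k p hkp (Real.exp_pos (t - M)).le (Real.exp_pos (t + 2 - M)).le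
    h3 hpl h4 hcost h6 htail
  by_contra hcon
  rw [not_le] at hcon
  obtain ⟨S, hS⟩ : ∃ S, S = (∑ j : Fin d, if k ≤ j ∧ (j : ℕ) < p then Real.exp (u j) else 0) :=
    ⟨_, rfl⟩
  have hSle : S ≤ d * Real.exp (u k) := hS ▸ locD_sum_le hu k p
  have hS0 : 0 ≤ S := by
    rw [hS]
    refine Finset.sum_nonneg fun j _ => ?_
    split_ifs
    · exact (Real.exp_pos _).le
    · exact le_rfl
  rw [← hS, hck] at hvd
  have hcw : s.cst K M w k = Real.exp t := by
    unfold Sys.cst; rw [ht]
  rw [hcw] at hvd
  -- the exponential of u k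
  have hd0 : (0 : ℝ) ≤ d := Nat.cast_nonneg d
  have huk : Real.exp (u k) * (16 * (d + 1) * (Lc d K M + 3)) ≤ Real.exp t := by
    have a1 : Real.exp (u k) ≤ Real.exp (t - kap d K M) := Real.exp_le_exp.mpr hcon.le
    have a2 : Real.exp (kap d K M) = 16 * (d + 1) * (Lc d K M + 3) := by
      unfold kap
      rw [Real.exp_log]
      positivity
    rw [← a2]
    calc Real.exp (u k) * Real.exp (kap d K M)
        ≤ Real.exp (t - kap d K M) * Real.exp (kap d K M) :=
          mul_le_mul_of_nonneg_right a1 (Real.exp_pos _).le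
      _ = Real.exp t := by rw [← Real.exp_add]; congr 1; ring
  have hE := Real.exp_pos t
  have hEu := Real.exp_pos (u k)
  -- loss
  have hloss : (w k - z) * S ≤ Real.exp t / 16 := by
    have b1 : (w k - z) * S ≤ (Lc d K M + 2) * (d * Real.exp (u k)) := by
      apply mul_le_mul hzL hSle hS0
      linarith
    have b2 : (Lc d K M + 2) * (d * Real.exp (u k)) * 16 ≤
        Real.exp (u k) * (16 * (d + 1) * (Lc d K M + 3)) := by
      have : 0 ≤ Real.exp (u k) * (16 * ((d : ℝ) + Lc d K M + 3)) := by positivity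
      nlinarith
    linarith
  -- small terms
  have hsm : (d : ℝ) * Real.exp (t - M) + d * (3 * Lc d K M * Real.exp (t + 2 - M)) ≤
      Real.exp t / 16 := by
    have c1 : Real.exp (t - M) = Real.exp t * Real.exp (-M) := by
      rw [← Real.exp_add]; congr 1
    have c2 : Real.exp (t + 2 - M) = Real.exp t * Real.exp (2 - M) := by
      rw [← Real.exp_add]; congr 1; ring
    have c3 : Real.exp (-M) ≤ Real.exp (4 - M) := Real.exp_le_exp.mpr (by linarith)
    have c4 : Real.exp (2 - M) ≤ Real.exp (4 - M) := Real.exp_le_exp.mpr (by linarith)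
    have c5 := hP.Mexp
    have c6 := Real.exp_pos (4 - M)
    rw [c1, c2]
    have e1 : (d : ℝ) * Real.exp (-M) + d * (3 * Lc d K M * Real.exp (2 - M)) ≤
        (d + 1) * (1 + 3 * Lc d K M) * Real.exp (4 - M) := by
      have f1 : (d : ℝ) * Real.exp (-M) ≤ d * Real.exp (4 - M) :=
        mul_le_mul_of_nonneg_left c3 hd0
      have f2 : (d : ℝ) * (3 * Lc d K M * Real.exp (2 - M)) ≤
          d * (3 * Lc d K M * Real.exp (4 - M)) :=
        mul_le_mul_of_nonneg_left (mul_le_mul_of_nonneg_left c4 (by positivity)) hd0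
      have f3 : 0 ≤ (1 + 3 * Lc d K M) * Real.exp (4 - M) := by positivity
      nlinarith
    calc (d : ℝ) * (Real.exp t * Real.exp (-M)) +
          d * (3 * Lc d K M * (Real.exp t * Real.exp (2 - M)))
        = Real.exp t * ((d : ℝ) * Real.exp (-M) + d * (3 * Lc d K M * Real.exp (2 - M))) := by
          ring
      _ ≤ Real.exp t * (1 / 16) := mul_le_mul_of_nonneg_left (e1.trans c5) hE.le
      _ = Real.exp t / 16 := by ring
  have hfin : (z - w k) * S = - ((w k - z) * S) := by ring
  rw [hfin] at hvd
  linarith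

theorem Sys.locD {d : ℕ} {s : Sys d} {K M N N₀ : ℝ} (hP : Par s K M) {w u : Fin d → ℝ}
    (hu : Antitone u) (hu0 : ∀ i, |u i| ≤ N₀) (hN : N₀ + 2 * Lc d K M + 4 ≤ N)
    (hw : s.IsMax K M N w u)
    (hU : ∀ k : Fin d, (∀ j : Fin d, (k : ℕ) = j + 1 → w k < w j) →
      u k ≤ w k + s.rad K M w k + 2) :
    ∀ k : Fin d, w k - s.rad K M w k - kap d K M ≤ u k := by
  intro k
  by_contra hcon
  rw [not_le] at hcon
  have hmem := hw.1.1
  have hwa := hw.1.2.1
  obtain ⟨p, hkp, hpd, hpl, hpd2⟩ := Sys.first_drop w hwa k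
  have hL := locD_Lc_pos hP
  have hkap := Sys.kap_pos hP
  -- the estimate at p
  have hup0 : ∀ j : Fin d, (j : ℕ) = p → u j ≤ w k - s.ell K M w j + 2 := by
    intro j hj
    have hq : p - 1 < d := by omega
    have h1 : (j : ℕ) = (⟨p - 1, hq⟩ : Fin d) + 1 := by simp; omega
    have hwq : w ⟨p - 1, hq⟩ = w k := hpl ⟨p - 1, hq⟩ (Fin.le_def.mpr (by simp; omega)) (by simp; omega)
    have hlt : w j < w ⟨p - 1, hq⟩ := by rw [hwq]; exact hpd2 j hj
    have hUj : u j ≤ w j + s.rad K M w j + 2 := by
      refine hU j fun i hi => ?_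
      have : i = ⟨p - 1, hq⟩ := Fin.ext (by simp; omega)
      rw [this]; exact hlt
    have := Sys.drop_le hP hmem h1 hlt hUj
    rw [hwq] at this
    exact this
  have hkj : ∀ j : Fin d, (j : ℕ) = p → k < j := fun j hj => Fin.lt_def.mpr (by omega)
  have huk := (abs_le.mp (hu0 k)).1
  have hell8 := Sys.eight_le_ell hP (w := w) (k := k)
  have hellL := locD_ell_le hP (w := w) (k := k)
  have hMl := Sys.M_le_ell hP (w := w) (k := k)
  have hK8 := hP.K8
  by_cases hact : s.act w k
  · -- active
    have hrad := s.rad_act (K := K) (M := M) hact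
    rw [hrad] at hcon
    obtain ⟨v₀, hv₀, hv₀0⟩ := hact
    have hact : s.act w k := ⟨v₀, hv₀, hv₀0⟩
    obtain ⟨z, hzdef⟩ : ∃ z : ℝ, z = (⌊w k - s.ell K M w k - 1⌋ : ℤ) := ⟨_, rfl⟩
    have hz1 : z ≤ w k - s.ell K M w k - 1 := by rw [hzdef]; exact Int.floor_le _
    have hz2 : w k - s.ell K M w k - 2 < z := by
      rw [hzdef]
      have := Int.lt_floor_add_one (w k - s.ell K M w k - 1)
      linarith
    have hzMem : s.Mem K M (plat w k z) k := by
      right
      refine ⟨⟨⌊w k - s.ell K M w k - 1⌋, ?_⟩, fun v hv => ?_⟩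
      · rw [locD_plat_self, hzdef]
      · rw [locD_ell, locD_dot hv]
        by_cases hvw : v ⬝ᵥ w = v₀ ⬝ᵥ w
        · rw [hvw, hv₀0, abs_of_nonpos (by linarith)]
          linarith
        · have hg := Sys.gap hP (fun j _ => hmem j) hv hv₀ hvw
          rw [hv₀0, sub_zero] at hg
          have habs : |v ⬝ᵥ w| ≤ |v ⬝ᵥ w + (z - w k)| + |z - w k| := by
            have := abs_sub (v ⬝ᵥ w + (z - w k)) (z - w k)
            simpa using this
          have : |z - w k| ≤ s.ell K M w k + 2 := by
            rw [abs_of_nonpos (by linarith)]; linarith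
          linarith
    have hfin := locD_core hP hu hu0 hN hw k p hkp hpd hpl z (w k - s.ell K M w k)
      (by rw [hrad]) hzMem (by linarith) (by linarith)
      (by
        have hrn := Sys.rad_nonneg hP (w := plat w k z) (k := k)
        unfold Sys.cst
        rw [locD_plat_self]
        have h1 : Real.exp (z - s.rad K M (plat w k z) k) ≤
            Real.exp (w k - s.ell K M w k - 1) := Real.exp_le_exp.mpr (by linarith)
        have h2 : Real.exp (w k - s.ell K M w k) =
            Real.exp (w k - s.ell K M w k - 1) * Real.exp 1 := by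
          rw [← Real.exp_add]; congr 1; ring
        have h3 : (2 : ℝ) ≤ Real.exp 1 := by
          have := Real.add_one_le_exp (1 : ℝ)
          linarith
        have h4 := Real.exp_pos (w k - s.ell K M w k - 1)
        rw [h2]
        nlinarith)
      (by linarith)
      (fun j hj => by
        have h1 := hup0 j hj
        have h2 := Sys.ell_of_act hP (hkj j hj) hact
        have h3 := Sys.eight_le_ell hP (w := plat w k z) (k := j)
        nlinarith)
      (fun j hj => by
        have h1 := hup0 j hj
        have h2 := Sys.ell_of_act hP (hkj j hj) hact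
        nlinarith)
      (by linarith)
    linarith
  · -- free
    have hrad := s.rad_free (K := K) (M := M) hact
    rw [hrad, sub_zero] at hcon
    have hmk := (hmem k).resolve_left hact
    obtain ⟨⟨m, hm⟩, hfar⟩ := hmk
    by_cases hmm : s.Mem K M (plat w k (w k - 1)) k
    · have hfin := locD_core hP hu hu0 hN hw k p hkp hpd hpl (w k - 1) (w k)
        (by rw [hrad, sub_zero]) hmm (by linarith) (by linarith)
        (by
          have hrn := Sys.rad_nonneg hP (w := plat w k (w k - 1)) (k := k)
          unfold Sys.cst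
          rw [locD_plat_self]
          have h1 : Real.exp (w k - 1 - s.rad K M (plat w k (w k - 1)) k) ≤
              Real.exp (w k - 1) := Real.exp_le_exp.mpr (by linarith)
          have h2 : Real.exp (w k) = Real.exp (w k - 1) * Real.exp 1 := by
            rw [← Real.exp_add]; congr 1; ring
          have h3 : (2 : ℝ) ≤ Real.exp 1 := by
            have := Real.add_one_le_exp (1 : ℝ)
            linarith
          have h4 := Real.exp_pos (w k - 1)
          rw [h2]
          nlinarith)
        (by linarith)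
        (fun j hj => by
          have h1 := hup0 j hj
          have h2 := Sys.eight_le_ell hP (w := w) (k := j)
          have h3 := Sys.eight_le_ell hP (w := plat w k (w k - 1)) (k := j)
          linarith)
        (fun j hj => by
          have h1 := hup0 j hj
          have h2 := Sys.M_le_ell hP (w := w) (k := j)
          linarith)
        (by linarith)
      linarith
    · -- some threshold is close
      have hex : ∃ v ∈ s.V k, |v ⬝ᵥ w - 1| < s.ell K M w k := by
        by_contra hno
        push Not at hno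
        apply hmm
        right
        refine ⟨⟨m - 1, ?_⟩, fun v hv => ?_⟩
        · rw [locD_plat_self, hm]; push_cast; ring
        · rw [locD_ell, locD_dot hv]
          have := hno v hv
          rw [show v ⬝ᵥ w + (w k - 1 - w k) = v ⬝ᵥ w - 1 by ring]
          exact this
      obtain ⟨v, hv, hclose⟩ := hex
      have hf := hfar v hv
      have hc := abs_lt.mp hclose
      have hpos : s.ell K M w k ≤ v ⬝ᵥ w := by
        rcases le_abs.mp hf with h | h
        · exact h
        · linarith [hc.1]
      obtain ⟨z, hzdef⟩ : ∃ z : ℝ, z = w k - v ⬝ᵥ w := ⟨_, rfl⟩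
      have hzact : s.act (plat w k z) k := by
        refine ⟨v, hv, ?_⟩
        rw [locD_dot hv, hzdef]; ring
      have hfin := locD_core hP hu hu0 hN hw k p hkp hpd hpl z (w k)
        (by rw [hrad, sub_zero]) (Or.inl hzact) (by linarith) (by linarith [hc.2])
        (by
          unfold Sys.cst
          rw [locD_plat_self, s.rad_act hzact, locD_ell]
          have h1 : Real.exp (z - s.ell K M w k) ≤
              Real.exp (w k - 1) := Real.exp_le_exp.mpr (by linarith)
          have h2 : Real.exp (w k) = Real.exp (w k - 1) * Real.exp 1 := by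
            rw [← Real.exp_add]; congr 1; ring
          have h3 : (2 : ℝ) ≤ Real.exp 1 := by
            have := Real.add_one_le_exp (1 : ℝ)
            linarith
          have h4 := Real.exp_pos (w k - 1)
          rw [h2]
          nlinarith)
        (by linarith)
        (fun j hj => by
          have h1 := hup0 j hj
          have h2 := Sys.ell_of_act hP (hkj j hj) hzact
          rw [locD_ell] at h2
          have h3 := Sys.eight_le_ell hP (w := w) (k := j)
          nlinarith [hc.2])
        (fun j hj => by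
          have h1 := hup0 j hj
          have h2 := Sys.M_le_ell hP (w := w) (k := j)
          linarith)
        (by linarith [hc.2])
      linarith

end Vale.Agent.P072
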