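import Vale.Agent.Lib.P072.Comp

/-!
# P072: upper location estimate for maximisers

Downward (strong) induction on `k`. Suppose `u k > w k + rad k + 2` and `k` is a strict descent of
`w` (or `k = 0`). Let `p` be the first index `> k` with `w p < w k` or `p = d` (`first_drop`). By the induction
hypothesis at `p` and `drop_le`, `u p ≤ w k - ell p + 2`. Apply `comp` with `z = w⁺`:
* `k` free and `w k + 1` satisfies `Mem` (for `plat w k (w k + 1)`): `w⁺ = w k + 1`;
* `k` free otherwise: there is `v ∈ V k` with threshold `T`, `|w k + 1 - T| < ell k`; as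
  `|w k - T| ≥ ell k` we get `w k ≤ T - ell k < w k + 1`; take `w⁺ = T` (active);
* `k` active: `w⁺ = ⌈w k + ell k⌉` (free, by `gap`).
`w⁺ ≤ w (k-1)` because `w (k-1)` is a threshold at `k` bigger than `w k` (use `gap` or `Mem`).
`val_diff`: `(w⁺ - w k) * ∑ ≥ exp (u k)`; `cst w' k ≤ exp (-1) * exp (u k)`; for `k < j < p`
`cst w' j = exp (w⁺ - ell' j) ≤ γ := exp (-M) * exp (u k)`; `β := exp (-M) * exp (u k)`. The sum is positive by `Par.Mexp`.
`w'` is in `Wset` because `w⁺ ≤ u k + ell k`.
-/

namespace Vale.Agent.P072

open Matrix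

theorem plat_lt {d : ℕ} (w : Fin d → ℝ) (k : Fin d) (z : ℝ) {i : Fin d} (h : i < k) :
    plat w k z i = w i := if_pos h

theorem plat_self {d : ℕ} (w : Fin d → ℝ) (k : Fin d) (z : ℝ) : plat w k z k = z :=
  if_neg (lt_irrefl k)

/-- the dot product of a vector of `V k` with `plat w k z` -/
theorem Sys.dot_plat {d : ℕ} (s : Sys d) (w : Fin d → ℝ) (k : Fin d) (z : ℝ) {v : Fin d → ℝ}
    (hv : v ∈ s.V k) : v ⬝ᵥ plat w k z = z - (w k - v ⬝ᵥ w) := by
  have h := s.thr_congr (w := w) (w' := plat w k z) (k := k)
    (fun i hi => (plat_lt w k z hi).symm) hv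
  rw [plat_self] at h
  linarith

theorem Sys.ell_plat {d : ℕ} (s : Sys d) (K M : ℝ) (w : Fin d → ℝ) (k : Fin d) (z : ℝ) :
    s.ell K M (plat w k z) k = s.ell K M w k :=
  s.ell_congr (fun _ hi => plat_lt w k z hi)

/-- the increased value at `k` -/
theorem Sys.locU_cand {d : ℕ} {s : Sys d} {K M : ℝ} (hP : Par s K M) {w u : Fin d → ℝ}
    (hw : ∀ j, s.Mem K M w j) (k : Fin d) (hk : ∀ j : Fin d, (k : ℕ) = j + 1 → w k < w j)
    (hlt : w k + s.rad K M w k + 2 < u k) :
    ∃ z : ℝ, s.Mem K M (plat w k z) k ∧ (∀ j : Fin d, (k : ℕ) = j + 1 → z ≤ w j) ∧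
      w k + 1 ≤ z ∧ z - s.rad K M (plat w k z) k < u k - 1 ∧
      (z < u k - 1 ∨ (s.act (plat w k z) k ∧ z < u k + s.ell K M w k - 1)) := by
  have hell : 8 ≤ s.ell K M w k := Sys.eight_le_ell hP
  have htie : ∀ j : Fin d, (k : ℕ) = j + 1 →
      (Pi.single k 1 - Pi.single j 1 : Fin d → ℝ) ⬝ᵥ w = w k - w j :=
    fun j hj => Sys.tie_dot hj
  by_cases hact : s.act w k
  · -- `k` is active
    rw [Sys.rad_act s hact] at hlt
    obtain ⟨v0, hv0, hv0w⟩ := hact
    set z : ℝ := ((⌈w k + s.ell K M w k⌉ : ℤ) : ℝ) with hz
    have z1 : w k + s.ell K M w k ≤ z := Int.le_ceil _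
    have z2 : z < w k + s.ell K M w k + 1 := Int.ceil_lt_add_one _
    refine ⟨z, ?_, ?_, ?_, ?_, ?_⟩
    · refine Or.inr ⟨⟨_, plat_self w k z⟩, ?_⟩
      intro v hv
      rw [s.ell_plat, s.dot_plat w k z hv]
      by_cases h0 : v ⬝ᵥ w = 0
      · rw [h0]
        refine le_trans ?_ (le_abs_self _)
        linarith
      · have hg := Sys.gap hP (fun j _ => hw j) hv hv0 (by rw [hv0w]; exact h0)
        rw [hv0w, sub_zero] at hg
        rcases le_abs'.1 hg with hg | hg
        · -- the threshold is above
          refine le_trans ?_ (neg_le_abs _)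
          linarith
        · refine le_trans ?_ (le_abs_self _)
          linarith
    · intro j hj
      have h1 := hk j hj
      have h2 := htie j hj
      have hg := Sys.gap hP (fun j _ => hw j) (s.tie j k hj) hv0 (by
        rw [hv0w, h2]
        linarith)
      rw [hv0w, h2, sub_zero] at hg
      rcases le_abs'.1 hg with hg | hg
      · linarith
      · linarith
    · linarith
    · have := Sys.rad_nonneg (w := plat w k z) (k := k) hP
      linarith
    · left
      linarith
  · rw [Sys.rad_free s hact] at hlt
    obtain ⟨⟨n, hn⟩, hfree⟩ : (∃ n : ℤ, w k = n) ∧ ∀ v ∈ s.V k, s.ell K M w k ≤ |v ⬝ᵥ w| := by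
      rcases hw k with h | h
      · exact absurd h hact
      · exact h
    -- the predecessor is far above
    have hpre : ∀ j : Fin d, (k : ℕ) = j + 1 → w k + s.ell K M w k ≤ w j := by
      intro j hj
      have h1 := hk j hj
      have h2 := hfree _ (s.tie j k hj)
      rw [htie j hj] at h2
      rcases le_abs'.1 h2 with h2 | h2
      · linarith
      · linarith
    by_cases hmem : s.Mem K M (plat w k (w k + 1)) k
    · refine ⟨w k + 1, hmem, ?_, le_refl _, ?_, ?_⟩
      · intro j hj
        have := hpre j hj
        linarith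
      · have := Sys.rad_nonneg (w := plat w k (w k + 1)) (k := k) hP
        linarith
      · left
        linarith
    · -- a threshold is close to `w k + 1`
      obtain ⟨v, hv, hvlt⟩ : ∃ v ∈ s.V k, |w k + 1 - (w k - v ⬝ᵥ w)| < s.ell K M w k := by
        by_contra hcon
        push Not at hcon
        apply hmem
        refine Or.inr ⟨⟨n + 1, ?_⟩, ?_⟩
        · rw [plat_self, hn]
          push_cast
          ring
        · intro v hv
          rw [s.ell_plat, s.dot_plat w k _ hv]
          exact hcon v hv
      have h1 := hfree v hv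
      set T : ℝ := w k - v ⬝ᵥ w with hT
      have hTv : v ⬝ᵥ w = w k - T := by rw [hT]; ring
      rw [hTv] at h1
      obtain ⟨a1, a2⟩ := abs_lt.1 hvlt
      have h3 : w k + s.ell K M w k ≤ T := by
        rcases le_abs'.1 h1 with h1 | h1
        · linarith
        · linarith
      have hactT : s.act (plat w k T) k := by
        refine ⟨v, hv, ?_⟩
        rw [s.dot_plat w k _ hv]
        linarith
      refine ⟨T, Or.inl hactT, ?_, ?_, ?_, ?_⟩
      · intro j hj
        have h4 := hpre j hj
        by_contra hcon
        push Not at hcon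
        have h5 := htie j hj
        have hg := Sys.gap hP (fun j _ => hw j) hv (s.tie j k hj) (by
          rw [hTv, h5]
          intro h6
          linarith)
        rw [hTv, h5] at hg
        rcases le_abs'.1 hg with hg | hg
        · linarith
        · linarith
      · linarith
      · rw [Sys.rad_act s hactT, s.ell_plat]
        linarith
      · right
        refine ⟨hactT, ?_⟩
        linarith

theorem Sys.locU {d : ℕ} {s : Sys d} {K M N N₀ : ℝ} (hP : Par s K M) {w u : Fin d → ℝ}
    (hu : Antitone u) (hu0 : ∀ i, |u i| ≤ N₀) (hN : N₀ + 2 * Lc d K M + 4 ≤ N)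
    (hw : s.IsMax K M N w u) :
    ∀ k : Fin d, (∀ j : Fin d, (k : ℕ) = j + 1 → w k < w j) →
      u k ≤ w k + s.rad K M w k + 2 := by
  obtain ⟨⟨hmem, hanti, hbd⟩, hmax⟩ := hw
  have key : ∀ m : ℕ, ∀ k : Fin d, d - (k : ℕ) = m →
      (∀ j : Fin d, (k : ℕ) = j + 1 → w k < w j) → u k ≤ w k + s.rad K M w k + 2 := by
    intro m
    induction m using Nat.strong_induction_on with
    | _ m ih =>
      intro k hkm hk
      by_contra hcon
      push Not at hcon
      obtain ⟨p, hkp, hpd, hplat, hdrop⟩ := Sys.first_drop w hanti k
      obtain ⟨z, hz1, hz2, hz3, hz4, hz5⟩ := Sys.locU_cand hP hmem k hk hcon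
      have hradk : 0 ≤ s.rad K M w k := Sys.rad_nonneg hP
      have hM1 := hP.M1
      have hK8 := hP.K8
      -- after the plateau
      have hp : ∀ j : Fin d, (j : ℕ) = p → u j ≤ w k - s.ell K M w j + 2 := by
        intro j hj
        have hq : p - 1 < d := by omega
        set q : Fin d := ⟨p - 1, hq⟩ with hqdef
        have hjq : (j : ℕ) = q + 1 := by
          rw [hqdef]
          simp only
          omega
        have hkq : k ≤ q := by
          rw [Fin.le_def, hqdef]
          simp only
          omega
        have hwq : w q = w k := hplat q hkq (by rw [hqdef]; simp only; omega)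
        have hlt : w j < w q := by
          rw [hwq]
          exact hdrop j hj
        have hU : u j ≤ w j + s.rad K M w j + 2 := by
          apply ih (d - (j : ℕ)) (by omega) j rfl
          intro i hi
          have : i = q := by
            apply Fin.ext
            omega
          rw [this]
          exact hlt
        have := Sys.drop_le hP hmem hjq hlt hU
        rw [hwq] at this
        exact this
      obtain ⟨w', c1, c2, c3, c4, c5, c6, c7⟩ := Sys.comp hP w u hu hmem hanti k z p hkp hpd
        hz1 hz2 (fun j hj => by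
          have h1 := hp j hj
          have h2 : 8 ≤ s.ell K M w j := Sys.eight_le_ell hP
          have h3 : 8 ≤ s.ell K M (plat w k z) j := Sys.eight_le_ell hP
          linarith)
      -- agreement of `w'` with the plateau vector up to `k`
      have hagree : ∀ i, i ≤ k → w' i = plat w k z i := by
        intro i hi
        rcases hi.lt_or_eq with hi | hi
        · rw [c3 i hi, plat_lt w k z hi]
        · rw [hi, c4 k (le_refl k) hkp, plat_self]
      have hrad' : s.rad K M w' k = s.rad K M (plat w k z) k := s.rad_congr hagree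
      have hw'k : w' k = z := c4 k (le_refl k) hkp
      have hcstk : s.cst K M w' k ≤ Real.exp (-1) * Real.exp (u k) := by
        unfold Sys.cst
        rw [hrad', hw'k, ← Real.exp_add]
        apply Real.exp_le_exp.2
        linarith
      have hcj : ∀ j : Fin d, k < j → (j : ℕ) < p →
          s.cst K M w' j ≤ Real.exp (-M) * Real.exp (u k) := by
        intro j hkj hjp
        unfold Sys.cst
        rw [Sys.rad_act s (c5 j hkj hjp), c4 j hkj.le hjp, ← Real.exp_add]
        apply Real.exp_le_exp.2
        have e1 : M ≤ s.ell K M w' j := Sys.M_le_ell hP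
        rcases hz5 with h5 | ⟨h5, h6⟩
        · linarith
        · have hact' : s.act w' k := (s.act_congr hagree).2 h5
          have e2 := Sys.ell_of_act hP hkj hact'
          have e3 : s.ell K M w' k = s.ell K M w k := s.ell_congr c3
          rw [e3] at e2
          have e4 : M ≤ s.ell K M w k := Sys.M_le_ell hP
          have e5 : 8 * s.ell K M w k ≤ K * s.ell K M w k :=
            mul_le_mul_of_nonneg_right hK8 (by linarith)
          linarith
      have hbj : ∀ j : Fin d, p ≤ (j : ℕ) →
          Real.exp (u j) ≤ Real.exp (-M) * Real.exp (u k) := by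
        intro j hj
        rw [← Real.exp_add]
        apply Real.exp_le_exp.2
        have hpd' : p < d := lt_of_le_of_lt hj j.2
        have h1 := hp ⟨p, hpd'⟩ rfl
        have h2 : u j ≤ u ⟨p, hpd'⟩ := hu (by rw [Fin.le_def]; exact hj)
        have h3 : M ≤ s.ell K M w ⟨p, hpd'⟩ := Sys.M_le_ell hP
        linarith
      -- `w'` is admissible
      have hL : s.ell K M w k ≤ Lc d K M := by
        have h1 := Sys.ell_le (w := w) (k := k) hP
        have h2 : 8 ≤ s.ell K M w k := Sys.eight_le_ell hP
        nlinarith
      have hL0 : 8 ≤ Lc d K M := le_trans (Sys.eight_le_ell hP) hL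
      have hbdw : ∀ j, |w' j| ≤ N := by
        intro j
        rcases lt_or_ge j k with hjk | hjk
        · rw [c3 j hjk]
          exact hbd j
        · rcases lt_or_ge (j : ℕ) p with hjp | hjp
          · rw [c4 j hjk hjp, abs_le]
            have h1 := (abs_le.1 (hbd k)).1
            have h2 := (abs_le.1 (hu0 k)).2
            constructor
            · linarith
            · rcases hz5 with h5 | ⟨_, h6⟩
              · linarith
              · linarith
          · have h1 := abs_le.1 (c7 j hjp)
            have h2 := abs_le.1 (hu0 j)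
            rw [abs_le]
            constructor
            · linarith
            · linarith
      have hval := hmax w' ⟨c1, c2, hbdw⟩
      have hdiff := Sys.val_diff hP (w := w) (w' := w') (u := u) k p hkp (z := z)
        (γ := Real.exp (-M) * Real.exp (u k)) (β := Real.exp (-M) * Real.exp (u k))
        (by positivity) (by positivity) c3 hplat c4 hcj c6 hbj
      -- the gain
      have hsum : Real.exp (u k) ≤
          ∑ j : Fin d, if k ≤ j ∧ (j : ℕ) < p then Real.exp (u j) else 0 := by
        have h1 := Finset.single_le_sum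
          (f := fun j : Fin d => if k ≤ j ∧ (j : ℕ) < p then Real.exp (u j) else 0)
          (fun j _ => by
            split_ifs
            · exact (Real.exp_pos _).le
            · exact le_refl 0) (Finset.mem_univ k)
        simpa [hkp] using h1
      have hgain : Real.exp (u k) ≤ (z - w k) *
          ∑ j : Fin d, if k ≤ j ∧ (j : ℕ) < p then Real.exp (u j) else 0 := by
        have h1 : (1 : ℝ) ≤ z - w k := by linarith
        have h2 := Real.exp_pos (u k)
        calc Real.exp (u k) = 1 * Real.exp (u k) := (one_mul _).symm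
          _ ≤ _ := mul_le_mul h1 hsum h2.le (by linarith)
      have hcstw : 0 < s.cst K M w k := Real.exp_pos _
      -- the numerical contradiction
      have hE : 0 < Real.exp (u k) := Real.exp_pos _
      have he1 : Real.exp (-1) < 1 / 2 := by
        rw [Real.exp_neg, inv_eq_one_div]
        apply one_div_lt_one_div_of_lt (by norm_num)
        have := Real.add_one_lt_exp (x := 1) (by norm_num)
        linarith
      have heM : (d : ℝ) * (1 + 3 * Lc d K M) * Real.exp (-M) ≤ 1 / 16 := by
        have h1 := hP.Mexp
        have h2 : Real.exp (-M) ≤ Real.exp (4 - M) := Real.exp_le_exp.2 (by linarith)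
        have h3 : (0 : ℝ) ≤ (d : ℝ) * (1 + 3 * Lc d K M) := by
          have : (0 : ℝ) ≤ d := Nat.cast_nonneg d
          apply mul_nonneg this
          linarith
        have h4 : (d : ℝ) * (1 + 3 * Lc d K M) ≤ (d + 1) * (1 + 3 * Lc d K M) := by
          apply mul_le_mul_of_nonneg_right _ (by linarith)
          linarith
        calc (d : ℝ) * (1 + 3 * Lc d K M) * Real.exp (-M)
            ≤ (d + 1) * (1 + 3 * Lc d K M) * Real.exp (4 - M) :=
              mul_le_mul h4 h2 (Real.exp_pos _).le (le_trans h3 h4)
          _ ≤ 1 / 16 := h1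
      have hfin : Real.exp (u k) ≤ Real.exp (-1) * Real.exp (u k)
          + (d : ℝ) * (1 + 3 * Lc d K M) * Real.exp (-M) * Real.exp (u k) := by
        have e1 : (d : ℝ) * (Real.exp (-M) * Real.exp (u k))
            + d * (3 * Lc d K M * (Real.exp (-M) * Real.exp (u k)))
            = (d : ℝ) * (1 + 3 * Lc d K M) * Real.exp (-M) * Real.exp (u k) := by ring
        linarith
      have h5 := mul_le_mul_of_nonneg_right heM hE.le
      have h6 := mul_lt_mul_of_pos_right he1 hE
      linarith
  intro k hk
  exact key _ k rfl hk

end Vale.Agent.P072
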