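import Vale.Agent.Lib.P072.Sys

/-!
# P072: existence of the parameters

Choose `K = max 8 (max (16 C) (8 / g ^ (d + 1)))`; for this fixed `K` both remaining inequalities hold for
all large `M` (`kap` is logarithmic in `M`, `Lc` is linear in `M`).
-/

namespace Vale.Agent.P072

open Filter

theorem Param_log_aux (C A : ℝ) (hC : 1 ≤ C) (hA : 1 ≤ A) :
    ∀ᶠ M : ℝ in atTop, 8 * C * (Real.log (A * M) + 4) ≤ M := by
  have h1 : ∀ᶠ M : ℝ in atTop, ‖Real.log M‖ ≤ 1 / (16 * C) * ‖M‖ :=
    Real.isLittleO_log_id_atTop.def (by positivity)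
  filter_upwards [h1, eventually_ge_atTop (1 : ℝ),
    eventually_ge_atTop (16 * C * (Real.log A + 4))] with M h2 h3 h4
  rw [Real.log_mul (by linarith) (by linarith)]
  rw [Real.norm_of_nonneg (Real.log_nonneg h3), Real.norm_of_nonneg (by linarith : (0 : ℝ) ≤ M)]
    at h2
  have h5 : 8 * C * Real.log M ≤ M / 2 := by
    calc 8 * C * Real.log M ≤ 8 * C * (1 / (16 * C) * M) :=
          mul_le_mul_of_nonneg_left h2 (by linarith)
      _ = M / 2 := by
          field_simp
          norm_num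
  nlinarith

theorem Param_exp_aux (c : ℝ) (hc : 0 < c) :
    ∀ᶠ M : ℝ in atTop, c * M * Real.exp (-M) ≤ 1 / 16 := by
  have h1 := Real.tendsto_pow_mul_exp_neg_atTop_nhds_zero 1
  have h2 : ∀ᶠ M : ℝ in atTop, M ^ 1 * Real.exp (-M) < 1 / (16 * c) :=
    h1.eventually_lt_const (by positivity)
  filter_upwards [h2] with M h3
  rw [pow_one] at h3
  calc c * M * Real.exp (-M) = c * (M * Real.exp (-M)) := by ring
    _ ≤ c * (1 / (16 * c)) := mul_le_mul_of_nonneg_left h3.le hc.le
    _ = 1 / 16 := by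
        field_simp

theorem Sys.exists_par {d : ℕ} (s : Sys d) : ∃ K M₀ : ℝ, 1 ≤ M₀ ∧ ∀ M, M₀ ≤ M → Par s K M := by
  set K : ℝ := max 8 (max (16 * s.C) (8 / s.g ^ (d + 1))) with hK
  have hK8 : 8 ≤ K := le_max_left _ _
  have hKC : 16 * s.C ≤ K := (le_max_left _ _).trans (le_max_right _ _)
  have hKg : 8 ≤ s.g ^ (d + 1) * K := by
    have h1 : 8 / s.g ^ (d + 1) ≤ K := (le_max_right _ _).trans (le_max_right _ _)
    have h2 : 0 < s.g ^ (d + 1) := pow_pos s.g_pos _
    rw [div_le_iff₀ h2] at h1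
    linarith
  set L : ℝ := K ^ (2 ^ d) with hL
  have hL1 : 1 ≤ L := one_le_pow₀ (by linarith)
  have hd : (0 : ℝ) ≤ d := Nat.cast_nonneg d
  have hA : (1 : ℝ) ≤ 16 * (d + 1) * (L + 3) := by nlinarith
  have h1 := Param_log_aux s.C (16 * (d + 1) * (L + 3)) s.one_le_C hA
  have h2 := Param_exp_aux ((d + 1) * (1 + 3 * L) * Real.exp 4) (by positivity)
  have h3 : ∀ᶠ M : ℝ in atTop, Par s K M := by
    filter_upwards [h1, h2, eventually_ge_atTop (1 : ℝ)] with M h4 h5 h6
    refine ⟨hK8, hKC, hKg, h6, ?_, ?_⟩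
    · have h7 : kap d K M ≤ Real.log (16 * (d + 1) * (L + 3) * M) := by
        unfold kap Lc
        rw [← hL]
        apply Real.log_le_log
        · positivity
        · have h8 : M * L + 3 ≤ (L + 3) * M := by nlinarith
          calc 16 * ((d : ℝ) + 1) * (M * L + 3) ≤ 16 * ((d : ℝ) + 1) * ((L + 3) * M) :=
                mul_le_mul_of_nonneg_left h8 (by positivity)
            _ = _ := by ring
      have h8 : 0 ≤ 8 * s.C := by linarith [s.one_le_C]
      calc 8 * s.C * (kap d K M + 4) ≤ 8 * s.C * (Real.log (16 * (d + 1) * (L + 3) * M) + 4) :=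
            mul_le_mul_of_nonneg_left (by linarith) h8
        _ ≤ M := h4
    · unfold Lc
      rw [← hL]
      have h7 : Real.exp (4 - M) = Real.exp 4 * Real.exp (-M) := by
        rw [← Real.exp_add]
        congr 1
      rw [h7]
      have h8 : 1 + 3 * (M * L) ≤ (1 + 3 * L) * M := by nlinarith
      have h9 : 0 ≤ Real.exp 4 * Real.exp (-M) := by positivity
      calc ((d : ℝ) + 1) * (1 + 3 * (M * L)) * (Real.exp 4 * Real.exp (-M)) ≤
            ((d : ℝ) + 1) * ((1 + 3 * L) * M) * (Real.exp 4 * Real.exp (-M)) := by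
              apply mul_le_mul_of_nonneg_right _ h9
              exact mul_le_mul_of_nonneg_left h8 (by positivity)
        _ = (d + 1) * (1 + 3 * L) * Real.exp 4 * M * Real.exp (-M) := by ring
        _ ≤ 1 / 16 := h5
  rw [eventually_atTop] at h3
  obtain ⟨M₀, hM⟩ := h3
  exact ⟨K, max M₀ 1, le_max_right _ _, fun M h => hM M ((le_max_left _ _).trans h)⟩

end Vale.Agent.P072
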