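import Mathlib

/-!
# P072: sorting and rearrangement
-/

namespace Vale.Agent.P072

theorem exists_sort {d : ℕ} (u : Fin d → ℝ) : ∃ σ : Equiv.Perm (Fin d), Antitone (u ∘ σ) := by
  refine ⟨Tuple.sort (fun i => -u i), ?_⟩
  have h := Tuple.monotone_sort (fun i => -u i)
  intro i j hij
  have h2 := h hij
  simp only [Function.comp_apply] at h2 ⊢
  linarith

theorem rearr {d : ℕ} (w x : Fin d → ℝ) (hw : Antitone w) (hx : Antitone x)
    (τ : Equiv.Perm (Fin d)) : ∑ i, w i * x (τ i) ≤ ∑ i, w i * x i := by
  have hmono : Monovary w x := by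
    intro i j hij
    by_contra hcon
    push Not at hcon
    -- w j < w i, so i < j, so x j ≤ x i
    have hlt : i < j := by
      by_contra hle
      push Not at hle
      exact absurd (hw hle) (not_le.mpr hcon)
    exact absurd (hx hlt.le) (not_le.mpr hij)
  exact hmono.sum_mul_comp_perm_le_sum_mul

end Vale.Agent.P072
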