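import Vale.Agent.Lib.P072.RE
import Vale.Agent.Lib.P072.LocU
import Vale.Agent.Lib.P072.LocD
import Vale.Agent.Lib.P072.CompatS
import Vale.Agent.Lib.P072.Finite
import Vale.Agent.Lib.P072.Closure
import Vale.Agent.Lib.P072.Param
import Vale.Agent.Lib.P072.Sort

/-!
# P072: the rounded entropy on `Fin d`

Apply `exists_sys` to all coordinate permutations `fun i => a (σ i)` of the vectors of `A`.
`Λ = 2 K ^ (2 ^ d)`, so `2 * Lc = Λ * M`. One may assume `0 ≤ N₀` (a structure for the box `max N₀ 0` is one for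
`N₀`). Given `M`, `N₀` put `N = N₀ + 2 Lc + 4`. Family: pairs
`(σ, w)`, `σ` a permutation, `w ∈ Wset K M N` (finite by `finite_Wset`, nonempty by `ext` with `m = 0`); affine function
`x ↦ ∑ k, w k * x (σ k) - ∑ k, cst w k`, that is `W = w ∘ σ⁻¹`. `Φ` = maximum over the family.
`D (σ, w)` = the set of `u` with `u ∘ σ` antitone at which the function of `(σ, w)` is equal to `Φ`; closed.
Cover: for `u` choose `σ` with `u ∘ σ` antitone (`exists_sort`); by the rearrangement inequality (`rearr`)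
the maximum is attained at a pair with this `σ`. For `u ∈ D (σ, w)` the vector `w` is a maximiser
(`IsMax`) at the sorted `u ∘ σ`; use `locU`, `locD`, `near`, `near'`, `compat`
(`a ∘ σ = α • v`, `|α| ≥ g`, so `|a ⬝ᵥ u| ≤ M` gives `|v ⬝ᵥ (u ∘ σ)| ≤ M / g ≤ ell / 4`), `up`, `ext`.
-/

namespace Vale.Agent.P072

open Matrix

namespace LFfin

variable {d : ℕ}

/-- the affine function of the pair `(σ, w)` at `x = exp u` -/
noncomputable def F (s : Sys d) (K M : ℝ) (σ : Equiv.Perm (Fin d)) (w : Fin d → ℝ)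
    (u : Fin d → ℝ) : ℝ :=
  ((fun i => w (σ.symm i)) ⬝ᵥ fun i => Real.exp (u i)) - ∑ k, s.cst K M w k

theorem F_eq_val (s : Sys d) (K M : ℝ) (σ : Equiv.Perm (Fin d)) (w u : Fin d → ℝ) :
    F s K M σ w u = s.val K M w (u ∘ σ) := by
  unfold F Sys.val
  rw [Finset.sum_sub_distrib]
  congr 1
  unfold dotProduct
  rw [← Equiv.sum_comp σ]
  apply Finset.sum_congr rfl
  intro k _
  simp

theorem F_cont (s : Sys d) (K M : ℝ) (σ : Equiv.Perm (Fin d)) (w : Fin d → ℝ) :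
    Continuous (F s K M σ w) := by
  unfold F dotProduct
  fun_prop

theorem dot_perm (σ : Equiv.Perm (Fin d)) (a u : Fin d → ℝ) : a ⬝ᵥ u = (a ∘ σ) ⬝ᵥ (u ∘ σ) := by
  unfold dotProduct
  rw [← Equiv.sum_comp σ]
  rfl

theorem dot_perm' (σ : Equiv.Perm (Fin d)) (a w : Fin d → ℝ) :
    (a ⬝ᵥ fun i => w (σ.symm i)) = (a ∘ σ) ⬝ᵥ w := by
  unfold dotProduct
  rw [← Equiv.sum_comp σ]
  apply Finset.sum_congr rfl
  intro k _
  simp

/-- sorting does not decrease the value -/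
theorem F_sort (s : Sys d) (K M : ℝ) (σ τ : Equiv.Perm (Fin d)) (w u : Fin d → ℝ)
    (hw : Antitone w) (hu : Antitone (u ∘ σ)) : F s K M τ w u ≤ F s K M σ w u := by
  rw [F_eq_val, F_eq_val]
  unfold Sys.val
  rw [Finset.sum_sub_distrib, Finset.sum_sub_distrib]
  apply sub_le_sub_right
  have hx : Antitone (fun i => Real.exp ((u ∘ σ) i)) := by
    intro i j hij
    exact Real.exp_le_exp.mpr (hu hij)
  have h := rearr w (fun i => Real.exp ((u ∘ σ) i)) hw hx (τ.trans σ.symm)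
  refine le_trans (le_of_eq ?_) h
  apply Finset.sum_congr rfl
  intro k _
  simp

theorem closed_anti (σ : Equiv.Perm (Fin d)) : IsClosed {u : Fin d → ℝ | Antitone (u ∘ σ)} := by
  have e : {u : Fin d → ℝ | Antitone (u ∘ σ)} =
      ⋂ i : Fin d, ⋂ j : Fin d, ⋂ _ : i ≤ j, {u : Fin d → ℝ | u (σ j) ≤ u (σ i)} := by
    ext u
    simp only [Set.mem_ofPred_eq, Set.mem_iInter]
    constructor
    · intro h i j hij
      exact h hij
    · intro h i j hij
      exact h i j hij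
  rw [e]
  apply isClosed_iInter
  intro i
  apply isClosed_iInter
  intro j
  apply isClosed_iInter
  intro _
  exact isClosed_le (continuous_apply _) (continuous_apply _)

/-- an admissible vector close to the entropy -/
theorem exists_lowW {s : Sys d} {K M N N₀ : ℝ} (hP : Par s K M) (hN : N₀ + 2 * Lc d K M + 4 ≤ N)
    (hL : 0 ≤ Lc d K M) (u : Fin d → ℝ) (hu : Antitone u) (hu0 : ∀ i, |u i| ≤ N₀) :
    ∃ w ∈ s.Wset K M N, ∑ i, Real.exp (u i) * (u i - 2 * Lc d K M) ≤ s.val K M w u := by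
  obtain ⟨w', h1, h2, _, h4, h5⟩ := Sys.ext hP (0 : Fin d → ℝ) u hu 0 (Nat.zero_le d)
    (fun j hj => absurd hj (Nat.not_lt_zero _)) (fun i j _ hj => absurd hj (Nat.not_lt_zero _))
    (fun i j hj hji => by omega)
  refine ⟨w', ⟨h1, h2, ?_⟩, ?_⟩
  · intro k
    have e1 := abs_le.mp (h5 k (Nat.zero_le _))
    have e2 := abs_le.mp (hu0 k)
    rw [abs_le]
    constructor
    · linarith
    · linarith
  · unfold Sys.val
    apply Finset.sum_le_sum
    intro k _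
    exact h4 k (Nat.zero_le _)

/-- compatibility of the vector of `(σ, w)` with the vector `a` -/
theorem compat_a {s : Sys d} {K M : ℝ} (hP : Par s K M) (σ : Equiv.Perm (Fin d))
    {w u a : Fin d → ℝ} (hw : ∀ k, s.Mem K M w k)
    (h : ∀ k, |w k - (u ∘ σ) k| ≤ s.rad K M w k + kap d K M)
    (ha : a ∘ σ ≠ 0 → ∃ k, ∃ v ∈ s.V k, ∃ α : ℝ, s.g ≤ |α| ∧ a ∘ σ = α • v) :
    (|a ⬝ᵥ u| ≤ M → (a ⬝ᵥ fun i => w (σ.symm i)) = 0) ∧
    (M < a ⬝ᵥ u → 0 ≤ a ⬝ᵥ fun i => w (σ.symm i)) ∧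
    (a ⬝ᵥ u < -M → (a ⬝ᵥ fun i => w (σ.symm i)) ≤ 0) := by
  rw [dot_perm', dot_perm σ a u]
  by_cases h0 : a ∘ σ = 0
  · rw [h0]
    simp
  · obtain ⟨k, v, hv, α, hα, hav⟩ := ha h0
    have hg := s.g_pos
    have hα0 : α ≠ 0 := by
      intro hz
      rw [hz, abs_zero] at hα
      linarith
    obtain ⟨c1, c2, c3⟩ := Sys.compat hP hw h k v hv
    have hM : 1 ≤ M := hP.M1
    rw [hav]
    simp only [smul_dotProduct, smul_eq_mul]
    refine ⟨?_, ?_, ?_⟩
    · intro hle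
      rw [abs_mul] at hle
      have hell : M * K ≤ s.ell K M w k := Sys.ell_ge hP
      have hgK : 8 ≤ s.g * K := by
        have h1 := hP.Kg
        have h2 : s.g ^ (d + 1) ≤ s.g := by
          have := pow_le_pow_of_le_one hg.le s.g_le (Nat.succ_le_succ (Nat.zero_le d))
          simpa using this
        have hK : 0 ≤ K := by linarith [hP.K8]
        calc 8 ≤ s.g ^ (d + 1) * K := h1
          _ ≤ s.g * K := mul_le_mul_of_nonneg_right h2 hK
      have h3 : s.g * |v ⬝ᵥ (u ∘ σ)| ≤ M :=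
        (mul_le_mul_of_nonneg_right hα (abs_nonneg _)).trans hle
      have h4 : |v ⬝ᵥ (u ∘ σ)| ≤ s.ell K M w k / 4 := by
        have h5 : s.g * |v ⬝ᵥ (u ∘ σ)| ≤ s.g * (s.ell K M w k / 4) := by
          have h6 : s.g * (M * K) ≤ s.g * s.ell K M w k := mul_le_mul_of_nonneg_left hell hg.le
          have h7 : 8 * M ≤ s.g * (M * K) := by nlinarith
          linarith
        exact le_of_mul_le_mul_left h5 hg
      rw [c1 h4, mul_zero]
    · intro hlt
      have hpos : 0 < α * (v ⬝ᵥ (u ∘ σ)) := by linarith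
      rcases lt_or_gt_of_ne hα0 with hn | hp
      · have h1 : v ⬝ᵥ (u ∘ σ) ≤ 0 := by
          by_contra hc
          push Not at hc
          have := mul_neg_of_neg_of_pos hn hc
          linarith
        exact mul_nonneg_of_nonpos_of_nonpos hn.le (c3 h1)
      · have h1 : 0 ≤ v ⬝ᵥ (u ∘ σ) := by
          by_contra hc
          push Not at hc
          have := mul_neg_of_pos_of_neg hp hc
          linarith
        exact mul_nonneg hp.le (c2 h1)
    · intro hlt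
      have hneg : α * (v ⬝ᵥ (u ∘ σ)) < 0 := by linarith
      rcases lt_or_gt_of_ne hα0 with hn | hp
      · have h1 : 0 ≤ v ⬝ᵥ (u ∘ σ) := by
          by_contra hc
          push Not at hc
          have := mul_pos_of_neg_of_neg hn hc
          linarith
        exact mul_nonpos_of_nonpos_of_nonneg hn.le (c2 h1)
      · have h1 : v ⬝ᵥ (u ∘ σ) ≤ 0 := by
          by_contra hc
          push Not at hc
          have := mul_pos hp hc
          linarith
        exact mul_nonpos_of_nonneg_of_nonpos hp.le (c3 h1)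

end LFfin

open LFfin in
theorem hasRE_fin (d : ℕ) (A : Finset (Fin d → ℝ)) :
    ∃ Λ M₀ : ℝ, 1 ≤ Λ ∧ 1 ≤ M₀ ∧ HasRE (Fin d) A Λ M₀ := by
  classical
  obtain ⟨s, hs⟩ := exists_sys d
    (A.biUnion (fun a => Finset.univ.image (fun σ : Equiv.Perm (Fin d) => a ∘ σ)))
  obtain ⟨K, M₀, hM₀, hpar⟩ := s.exists_par
  have hK : 8 ≤ K := (hpar M₀ le_rfl).K8
  refine ⟨2 * K ^ (2 ^ d), M₀, ?_, hM₀, ?_⟩
  · have : 1 ≤ K ^ (2 ^ d) := one_le_pow₀ (by linarith)
    linarith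
  intro M hM N₀
  have hP := hpar M hM
  have hM1 : 1 ≤ M := hP.M1
  have hLM : 2 * Lc d K M = 2 * K ^ (2 ^ d) * M := by
    unfold Lc
    ring
  have hL : 0 ≤ Lc d K M := by
    unfold Lc
    positivity
  -- the box
  obtain ⟨N₁, hN₁⟩ : ∃ N₁ : ℝ, N₁ = max N₀ 0 := ⟨_, rfl⟩
  have hN01 : N₀ ≤ N₁ := by rw [hN₁]; exact le_max_left _ _
  have hN10 : 0 ≤ N₁ := by rw [hN₁]; exact le_max_right _ _
  obtain ⟨N, hNdef⟩ : ∃ N : ℝ, N = N₁ + 2 * Lc d K M + 4 := ⟨_, rfl⟩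
  have hN : N₁ + 2 * Lc d K M + 4 ≤ N := hNdef.ge
  have hbox : ∀ u : Fin d → ℝ, (∀ i, |u i| ≤ N₀) → ∀ σ : Equiv.Perm (Fin d),
      ∀ i, |(u ∘ σ) i| ≤ N₁ := fun u hu σ i => (hu (σ i)).trans hN01
  -- the family
  have hfin := s.finite_Wset K M N
  obtain ⟨w₀, hw₀, _⟩ := exists_lowW hP hN hL (0 : Fin d → ℝ) (fun _ _ _ => le_rfl)
    (fun i => by simpa using hN10)
  have : Fintype (s.Wset K M N) := hfin.fintype
  let I := Equiv.Perm (Fin d) × (s.Wset K M N)
  let e : Fin (Fintype.card I) ≃ I := (Fintype.equivFin I).symm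
  have hne : (Finset.univ : Finset I).Nonempty := ⟨(1, ⟨w₀, hw₀⟩), Finset.mem_univ _⟩
  let Φ : (Fin d → ℝ) → ℝ := fun u => Finset.univ.sup' hne (fun p : I => F s K M p.1 p.2.1 u)
  have hle : ∀ (p : I) (u : Fin d → ℝ), F s K M p.1 p.2.1 u ≤ Φ u := fun p u =>
    Finset.le_sup' (fun p : I => F s K M p.1 p.2.1 u) (Finset.mem_univ p)
  have hatt : ∀ u : Fin d → ℝ, ∃ p : I, Φ u = F s K M p.1 p.2.1 u := by
    intro u
    obtain ⟨p, _, hp⟩ := Finset.exists_mem_eq_sup' hne (fun p : I => F s K M p.1 p.2.1 u)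
    exact ⟨p, hp⟩
  have hcont : Continuous Φ :=
    Continuous.finset_sup'_apply hne (fun p _ => F_cont s K M p.1 p.2.1)
  let D : I → Set (Fin d → ℝ) := fun p => {u | Antitone (u ∘ p.1)} ∩ {u | F s K M p.1 p.2.1 u = Φ u}
  have hclosed : ∀ p, IsClosed (D p) := fun p =>
    (closed_anti p.1).inter (isClosed_eq (F_cont s K M p.1 p.2.1) hcont)
  have hcover : ∀ u : Fin d → ℝ, ∃ p : I, u ∈ D p := by
    intro u
    obtain ⟨σ, hσ⟩ := exists_sort u
    obtain ⟨⟨τ, w⟩, hp⟩ := hatt u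
    refine ⟨(σ, w), hσ, ?_⟩
    apply le_antisymm (hle (σ, w) u)
    rw [hp]
    exact F_sort s K M σ τ w.1 u w.2.2.1 hσ
  -- the location of the maximisers
  have hloc : ∀ (p : I) (u : Fin d → ℝ), u ∈ D p → (∀ i, |u i| ≤ N₀) →
      ∀ k, |p.2.1 k - (u ∘ p.1) k| ≤ s.rad K M p.2.1 k + kap d K M := by
    rintro ⟨σ, w⟩ u ⟨hu1, hu2⟩ hu0
    have hmax : s.IsMax K M N w.1 (u ∘ σ) := by
      refine ⟨w.2, ?_⟩
      intro w' hw'
      rw [← F_eq_val, ← F_eq_val]
      have h1 : F s K M σ w.1 u = Φ u := hu2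
      rw [h1]
      exact hle (σ, ⟨w', hw'⟩) u
    have hU := Sys.locU hP hu1 (hbox u hu0 σ) hN hmax
    have hD := Sys.locD hP hu1 (hbox u hu0 σ) hN hmax hU
    exact Sys.near hP w.2.1 w.2.2.1 hu1 hU hD
  have hcomp : ∀ (p : I) (u : Fin d → ℝ), u ∈ D p → (∀ i, |u i| ≤ N₀) → ∀ a ∈ A,
      (|a ⬝ᵥ u| ≤ M → (a ⬝ᵥ fun i => p.2.1 (p.1.symm i)) = 0) ∧
      (M < a ⬝ᵥ u → 0 ≤ a ⬝ᵥ fun i => p.2.1 (p.1.symm i)) ∧
      (a ⬝ᵥ u < -M → (a ⬝ᵥ fun i => p.2.1 (p.1.symm i)) ≤ 0) := by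
    intro p u hu hu0 a ha
    apply compat_a hP p.1 p.2.2.1 (hloc p u hu hu0)
    intro h0
    apply hs (a ∘ p.1) _ h0
    rw [Finset.mem_biUnion]
    exact ⟨a, ha, Finset.mem_image.mpr ⟨p.1, Finset.mem_univ _, rfl⟩⟩
  refine ⟨{
    n := Fintype.card I
    W := fun j i => (e j).2.1 ((e j).1.symm i)
    b := fun j => ∑ k, s.cst K M (e j).2.1 k
    D := fun j => D (e j)
    Φ := Φ
    cont := hcont
    closed := fun j => hclosed (e j)
    cover := ?_
    le := fun j u => hle (e j) u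
    eq := ?_
    near := ?_
    zero := fun j u hu hu0 a ha => (hcomp (e j) u hu hu0 a ha).1
    nonneg := fun j u hu hu0 a ha => (hcomp (e j) u hu hu0 a ha).2.1
    nonpos := fun j u hu hu0 a ha => (hcomp (e j) u hu hu0 a ha).2.2
    lower := ?_
    upper := ?_ }⟩
  · intro u _
    obtain ⟨p, hp⟩ := hcover u
    refine ⟨e.symm p, ?_⟩
    rw [Equiv.apply_symm_apply]
    exact hp
  · intro j u hu _
    exact hu.2.symm
  · intro j u hu hu0 i
    have h1 := Sys.near' hP (hloc (e j) u hu hu0) ((e j).1.symm i)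
    simp only [Function.comp_apply, Equiv.apply_symm_apply] at h1
    rw [← hLM]
    linarith
  · intro u hu0
    obtain ⟨σ, hσ⟩ := exists_sort u
    obtain ⟨w, hw, hw2⟩ := exists_lowW hP hN hL (u ∘ σ) hσ (hbox u hu0 σ)
    rw [← F_eq_val] at hw2
    refine le_trans (le_of_eq ?_) (hw2.trans (hle (σ, ⟨w, hw⟩) u))
    rw [← hLM, ← Equiv.sum_comp σ]
    rfl
  · intro u _
    obtain ⟨⟨τ, w⟩, hp⟩ := hatt u
    rw [hp, F_eq_val, ← hLM, ← Equiv.sum_comp τ]
    unfold Sys.val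
    apply Finset.sum_le_sum
    intro k _
    have h1 := Sys.up hP w.1 (u ∘ τ) k
    refine h1.trans ?_
    apply mul_le_mul_of_nonneg_left _ (Real.exp_pos _).le
    simp only [Function.comp_apply]
    linarith

end Vale.Agent.P072
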