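import Mathlib

/-!
# P072: induction along an interval

Consider the supremum of the `t` such that `P` holds on `[0, t]`.
-/

namespace Vale.Agent.P072

open Set

theorem Ico_induct {T : ℝ} (P : ℝ → Prop) (h0 : 0 < T → P 0)
    (hcl : ∀ t ∈ Ico 0 T, 0 < t → (∀ s ∈ Ico 0 t, P s) → P t)
    (hop : ∀ t ∈ Ico 0 T, (∀ s ∈ Icc 0 t, P s) → ∃ ε > 0, ∀ s ∈ Ioo t (t + ε), s < T → P s) :
    ∀ t ∈ Ico 0 T, P t := by
  by_contra hcon
  push Not at hcon
  obtain ⟨t, ht, hPt⟩ := hcon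
  set S : Set ℝ := {s | s ∈ Ico 0 T ∧ ¬ P s} with hS
  have hne : S.Nonempty := ⟨t, ht, hPt⟩
  have hbd : BddBelow S := ⟨0, fun s hs => hs.1.1⟩
  set a := sInf S with ha
  have ha0 : 0 ≤ a := le_csInf hne fun s hs => hs.1.1
  have hat : a ≤ t := csInf_le hbd ⟨ht, hPt⟩
  have haT : a < T := lt_of_le_of_lt hat ht.2
  have hlow : ∀ s ∈ Ico 0 a, P s := by
    intro s hs
    by_contra hPs
    have : a ≤ s := csInf_le hbd ⟨⟨hs.1, hs.2.trans haT⟩, hPs⟩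
    exact absurd hs.2 (not_lt.mpr this)
  have hPa : P a := by
    rcases ha0.eq_or_lt with h | h
    · rw [← h]
      exact h0 (lt_of_le_of_lt ha0 haT)
    · exact hcl a ⟨ha0, haT⟩ h hlow
  have hIcc : ∀ s ∈ Icc 0 a, P s := by
    intro s hs
    rcases hs.2.eq_or_lt with h | h
    · rw [h]; exact hPa
    · exact hlow s ⟨hs.1, h⟩
  obtain ⟨ε, hε, hop'⟩ := hop a ⟨ha0, haT⟩ hIcc
  obtain ⟨s, hsS, hsa⟩ := exists_lt_of_csInf_lt hne (show sInf S < a + ε by rw [← ha]; linarith)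
  have has : a ≤ s := csInf_le hbd hsS
  rcases has.eq_or_lt with h | h
  · exact hsS.2 (h ▸ hPa)
  · exact hsS.2 (hop' s ⟨h, hsa⟩ hsS.1.2)

end Vale.Agent.P072
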