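import Vale.Agent.Lib.P072.Defs
import Vale.Agent.Lib.P072.RegC

/-!
# P072: positivity and uniqueness of solutions, invariance of the classes

`hB` is the conclusion of `region`.

Every solution `y` on `[0, T)` with positive start is positive: on the largest `[0, T')` where it is
positive `|log y i| ≤ B`, so `y T'` is positive if `T' < T`.
-/

namespace Vale.Agent.P072

open Set

variable {d : ℕ}

/-- the a priori bound -/
def Network.Bounded (N : Network d) (k : Cx d × Cx d → ℝ) : Prop :=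
  ∀ U : ℝ, ∃ B : ℝ, ∀ T : ℝ, ∀ x : ℝ → Fin d → ℝ,
      N.IsSolution k (Ico 0 T) x → (∀ t ∈ Ico 0 T, ∀ i, 0 < x t i) →
      (∀ i, |Real.log (x 0 i)| ≤ U) → ∀ t ∈ Ico 0 T, ∀ i, |Real.log (x t i)| ≤ B

theorem contDiff_monom (y : Cx d) : ContDiff ℝ 1 (fun x : Fin d → ℝ => monom x y) := by
  unfold monom
  fun_prop

theorem Network.contDiff_field (N : Network d) (k : Cx d × Cx d → ℝ) :
    ContDiff ℝ 1 (N.field k) := by
  have h : N.field k = fun x => ∑ r ∈ N.reactions, (k r * monom x r.1) • rvec r := rfl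
  rw [h]
  refine ContDiff.sum fun r _ => ?_
  exact (contDiff_const.mul (contDiff_monom r.1)).smul contDiff_const

theorem isSolution_mono {N : Network d} {k : Cx d × Cx d → ℝ} {T T' : ℝ} (hT : T' ≤ T)
    {y : ℝ → Fin d → ℝ} (hy : N.IsSolution k (Ico 0 T) y) : N.IsSolution k (Ico 0 T') y := by
  intro t ht
  exact (hy t ⟨ht.1, ht.2.trans_le hT⟩).mono (Ico_subset_Ico_right hT)

theorem isSolution_right {N : Network d} {k : Cx d × Cx d → ℝ} {T : ℝ}
    {y : ℝ → Fin d → ℝ} (hy : N.IsSolution k (Ico 0 T) y) {t : ℝ} (ht : t ∈ Ico 0 T) :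
    HasDerivWithinAt y (N.field k (y t)) (Ici t) t := by
  refine (hy t ht).mono_of_mem_nhdsWithin ?_
  have h1 : Ico t T ∈ nhdsWithin t (Ici t) := Ico_mem_nhdsGE ht.2
  exact Filter.mem_of_superset h1 (Ico_subset_Ico_left ht.1)

theorem isSolution_continuousOn {N : Network d} {k : Cx d × Cx d → ℝ} {T : ℝ}
    {y : ℝ → Fin d → ℝ} (hy : N.IsSolution k (Ico 0 T) y) : ContinuousOn y (Ico 0 T) :=
  fun t ht => (hy t ht).continuousWithinAt

theorem ode_pos (N : Network d) (k : Cx d × Cx d → ℝ) (hB : N.Bounded k) (T : ℝ)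
    (y : ℝ → Fin d → ℝ) (hy : N.IsSolution k (Ico 0 T) y) (hy0 : ∀ i, 0 < y 0 i) :
    ∀ t ∈ Ico 0 T, ∀ i, 0 < y t i := by
  have hcont : ∀ i, ContinuousOn (fun t => y t i) (Ico 0 T) := fun i =>
    (continuous_apply i).comp_continuousOn (isSolution_continuousOn hy)
  obtain ⟨B, hB⟩ := hB (∑ i, |Real.log (y 0 i)|)
  refine Ico_induct (fun t => ∀ i, 0 < y t i) (fun _ => hy0) ?_ ?_
  · intro t ht ht0 hpos i
    have hb := hB t y (isSolution_mono ht.2.le hy) hpos
      (fun i => Finset.single_le_sum (f := fun i => |Real.log (y 0 i)|)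
        (fun i _ => abs_nonneg _) (Finset.mem_univ i))
    have hlow : ∀ s ∈ Ico 0 t, Real.exp (-B) ≤ y s i := by
      intro s hs
      have h1 := (abs_le.mp (hb s hs i)).1
      calc Real.exp (-B) ≤ Real.exp (Real.log (y s i)) := Real.exp_le_exp.mpr h1
        _ = y s i := Real.exp_log (hpos s hs i)
    have hc : ContinuousWithinAt (fun t => y t i) (Ico 0 t) t :=
      (hcont i t ht).mono (Ico_subset_Ico_right ht.2.le)
    have hne : (nhdsWithin t (Ico 0 t)).NeBot := by
      rw [← mem_closure_iff_nhdsWithin_neBot, closure_Ico ht0.ne]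
      exact ⟨ht.1, le_rfl⟩
    have hge : Real.exp (-B) ≤ y t i :=
      ge_of_tendsto hc (Filter.eventually_of_mem self_mem_nhdsWithin hlow)
    exact lt_of_lt_of_le (Real.exp_pos _) hge
  · intro t ht hpos
    have h1 : ∀ᶠ s in nhdsWithin t (Ico 0 T), ∀ i, 0 < y s i := by
      rw [Filter.eventually_all]
      intro i
      exact (hcont i t ht).eventually (lt_mem_nhds (hpos t ⟨ht.1, le_rfl⟩ i))
    rw [eventually_nhdsWithin_iff, Metric.eventually_nhds_iff] at h1
    obtain ⟨ε, hε, h1⟩ := h1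
    refine ⟨ε, hε, fun s hs hsT => h1 ?_ ⟨ht.1.trans hs.1.le, hsT⟩⟩
    rw [Real.dist_eq, abs_lt]
    constructor <;> linarith [hs.1, hs.2]

theorem ode_unique (N : Network d) (k : Cx d × Cx d → ℝ) (T : ℝ)
    (y z : ℝ → Fin d → ℝ) (hy : N.IsSolution k (Ico 0 T) y) (hz : N.IsSolution k (Ico 0 T) z)
    (h0 : y 0 = z 0) : ∀ t ∈ Ico 0 T, y t = z t := by
  intro t ht
  have hsub : Icc 0 t ⊆ Ico 0 T := fun s hs => ⟨hs.1, hs.2.trans_lt ht.2⟩
  have hcy : ContinuousOn y (Icc 0 t) := (isSolution_continuousOn hy).mono hsub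
  have hcz : ContinuousOn z (Icc 0 t) := (isSolution_continuousOn hz).mono hsub
  have hK1 : IsCompact (y '' Icc 0 t) := isCompact_Icc.image_of_continuousOn hcy
  have hK2 : IsCompact (z '' Icc 0 t) := isCompact_Icc.image_of_continuousOn hcz
  obtain ⟨K, hK⟩ := LocallyLipschitzOn.exists_lipschitzOnWith_of_compact (hK1.union hK2)
    ((N.contDiff_field k).locallyLipschitz.locallyLipschitzOn)
  refine ODE_solution_unique_of_mem_Icc_right (v := fun _ => N.field k)
    (s := fun _ => y '' Icc 0 t ∪ z '' Icc 0 t) (K := K) (fun s _ => hK) hcy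
    (fun s hs => isSolution_right hy (hsub ⟨hs.1, hs.2.le⟩))
    (fun s hs => Or.inl (mem_image_of_mem _ ⟨hs.1, hs.2.le⟩)) hcz
    (fun s hs => isSolution_right hz (hsub ⟨hs.1, hs.2.le⟩))
    (fun s hs => Or.inr (mem_image_of_mem _ ⟨hs.1, hs.2.le⟩)) h0 ⟨ht.1, le_rfl⟩

theorem ode_stoich (N : Network d) (k : Cx d × Cx d → ℝ) (T : ℝ)
    (y : ℝ → Fin d → ℝ) (hy : N.IsSolution k (Ico 0 T) y) :
    ∀ t ∈ Ico 0 T, y t - y 0 ∈ N.stoich := by
  intro t ht
  by_contra hcon
  obtain ⟨f, hf, hker⟩ := Submodule.exists_le_ker_of_notMem hcon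
  apply hf
  have hsub : Icc 0 t ⊆ Ico 0 T := fun s hs => ⟨hs.1, hs.2.trans_lt ht.2⟩
  have hcy : ContinuousOn y (Icc 0 t) := (isSolution_continuousOn hy).mono hsub
  set g : (Fin d → ℝ) →L[ℝ] ℝ := LinearMap.toContinuousLinearMap f with hg
  have hgf : ∀ x, g x = f x := fun x => rfl
  have hzero : ∀ x, g (N.field k x) = 0 := by
    intro x
    rw [hgf]
    have hmem : N.field k x ∈ N.stoich := by
      unfold Network.field
      refine Submodule.sum_mem _ fun r hr => Submodule.smul_mem _ _ ?_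
      exact Submodule.subset_span ⟨r, hr, rfl⟩
    exact LinearMap.mem_ker.mp (hker hmem)
  have hconst := constant_of_has_deriv_right_zero (f := fun s => g (y s)) (a := 0) (b := t)
    (g.continuous.comp_continuousOn hcy) (fun s hs => by
      have h1 := g.hasFDerivAt.comp_hasDerivWithinAt s
        (isSolution_right hy (hsub ⟨hs.1, hs.2.le⟩))
      rw [hzero] at h1
      exact h1) t ⟨ht.1, le_rfl⟩
  rw [map_sub, ← hgf, ← hgf, hconst, sub_self]

end Vale.Agent.P072
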