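import Mathlib

/-!
# P072: the interface of the rounded entropy
-/

namespace Vale.Agent.P072

open Matrix

/-- A rounded entropy in the box `|u| ≤ N₀` with slab half width `M` for the vectors `A`. The
functions `x ↦ W j ⬝ᵥ x - b j` are affine, `Φ` is their maximum in logarithmic coordinates
`u = log x`, and `D j` is a closed set of points where the `j`-th function is maximal and has the
good properties. -/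
structure RE (ι : Type) [Fintype ι] (A : Finset (ι → ℝ)) (Λ M N₀ : ℝ) where
  n : ℕ
  W : Fin n → ι → ℝ
  b : Fin n → ℝ
  D : Fin n → Set (ι → ℝ)
  Φ : (ι → ℝ) → ℝ
  cont : Continuous Φ
  closed : ∀ j, IsClosed (D j)
  cover : ∀ u : ι → ℝ, (∀ i, |u i| ≤ N₀) → ∃ j, u ∈ D j
  le : ∀ j, ∀ u : ι → ℝ, (W j ⬝ᵥ fun i => Real.exp (u i)) - b j ≤ Φ u
  eq : ∀ j, ∀ u ∈ D j, (∀ i, |u i| ≤ N₀) → Φ u = (W j ⬝ᵥ fun i => Real.exp (u i)) - b j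
  near : ∀ j, ∀ u ∈ D j, (∀ i, |u i| ≤ N₀) → ∀ i, |W j i - u i| ≤ Λ * M
  zero : ∀ j, ∀ u ∈ D j, (∀ i, |u i| ≤ N₀) → ∀ a ∈ A, |a ⬝ᵥ u| ≤ M → a ⬝ᵥ W j = 0
  nonneg : ∀ j, ∀ u ∈ D j, (∀ i, |u i| ≤ N₀) → ∀ a ∈ A, M < a ⬝ᵥ u → 0 ≤ a ⬝ᵥ W j
  nonpos : ∀ j, ∀ u ∈ D j, (∀ i, |u i| ≤ N₀) → ∀ a ∈ A, a ⬝ᵥ u < -M → a ⬝ᵥ W j ≤ 0
  lower : ∀ u : ι → ℝ, (∀ i, |u i| ≤ N₀) → ∑ i, Real.exp (u i) * (u i - Λ * M) ≤ Φ u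
  upper : ∀ u : ι → ℝ, (∀ i, |u i| ≤ N₀) → Φ u ≤ ∑ i, Real.exp (u i) * (u i + Λ * M)

/-- Rounded entropies exist for the vectors `A`, with constant `Λ`, for all `M ≥ M₀`. -/
def HasRE (ι : Type) [Fintype ι] (A : Finset (ι → ℝ)) (Λ M₀ : ℝ) : Prop :=
  ∀ M, M₀ ≤ M → ∀ N₀ : ℝ, Nonempty (RE ι A Λ M N₀)

end Vale.Agent.P072
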