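import Vale.Agent.Lib.P072.RE

/-!
# P072: static estimates for rounded entropies

`small_sum`: by `upper`, `Φ u ≤ ∑ exp (u i) * (u i + a / 4) ≤ -(a / 4) * ∑ exp (u i)`.

`deep`: by `lower`, `Φ u ≥ ∑ exp (u i) * (u i - a / 4)`. With `b = a + Cp d` and `u i = - b - s`,
`s ≥ 0`, we have `exp (-s) * (b + s + a / 4) ≤ b + a / 4` (because `1 + s ≤ exp s` and
`1 ≤ b + a / 4`). So the sum is at least `- d * exp (-b) * (b + a / 4) ≥
- exp (-a) * (9 / 4 * a) / (8 * exp 1)`, which is bigger than `-(a / 4) * exp (-a)`.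

`upper_bd`: `exp u * (u - c) ≥ - exp (c - 1)` for all `u`; hence one single term
`exp (u i) * (u i - Λ * M)` is at most `|C₀| + d * exp (Λ * M - 1)`.

`init`: by `upper`.
-/

namespace Vale.Agent.P072

open Matrix Set

/-- the constant of `RE.deep` -/
noncomputable def Cp (d : ℕ) : ℝ := Real.log (8 * (d + 1)) + 1

theorem Cp_ge (d : ℕ) : 2 ≤ Cp d := by
  unfold Cp
  have h1 : Real.log 8 ≤ Real.log (8 * ((d : ℝ) + 1)) := by
    apply Real.log_le_log (by norm_num)
    have : (0 : ℝ) ≤ d := Nat.cast_nonneg d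
    linarith
  have h2 : (8 : ℝ) = 2 ^ 3 := by norm_num
  rw [h2, Real.log_pow] at h1
  have h3 := Real.log_two_gt_d9
  push_cast at h1
  rw [h2]
  linarith

variable {ι : Type} [Fintype ι] {A : Finset (ι → ℝ)} {Λ M N₀ : ℝ}

theorem RE.small_sum (E : RE ι A Λ M N₀) {a : ℝ} (ha : 0 < a) (hM : Λ * M = a / 4) (u : ι → ℝ)
    (hu : ∀ i, |u i| ≤ N₀) (h1 : ∀ i, u i ≤ -(a / 2)) (h2 : -(a / 4) * Real.exp (-a) < E.Φ u) :
    ∑ i, Real.exp (u i) < Real.exp (-a) := by
  have hup := E.upper u hu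
  rw [hM] at hup
  have hle : ∑ i, Real.exp (u i) * (u i + a / 4) ≤ -(a / 4) * ∑ i, Real.exp (u i) := by
    rw [Finset.mul_sum]
    apply Finset.sum_le_sum
    intro i _
    have h3 := h1 i
    have h4 := Real.exp_pos (u i)
    nlinarith
  have h5 : -(a / 4) * Real.exp (-a) < -(a / 4) * ∑ i, Real.exp (u i) := by linarith
  have h6 : (a / 4) * ∑ i, Real.exp (u i) < (a / 4) * Real.exp (-a) := by linarith
  exact lt_of_mul_lt_mul_left h6 (by positivity)

/-- one term of the lower bound -/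
theorem regA_deep_term {a b u : ℝ} (hb : 1 ≤ b + a / 4) (hu : u ≤ -b) :
    -(Real.exp (-b) * (b + a / 4)) ≤ Real.exp u * (u - a / 4) := by
  have h1 := Real.add_one_le_exp (-b - u)
  have h2 : Real.exp (-b) = Real.exp u * Real.exp (-b - u) := by
    rw [← Real.exp_add]
    congr 1
    ring
  rw [h2]
  have h3 : (a / 4 - u) ≤ Real.exp (-b - u) * (b + a / 4) := by nlinarith
  have h4 := Real.exp_pos u
  have h5 := mul_le_mul_of_nonneg_left h3 h4.le
  linarith

theorem RE.deep (E : RE ι A Λ M N₀) {d : ℕ} (hd : Fintype.card ι ≤ d) {a : ℝ} (ha : Cp d ≤ a)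
    (hM : Λ * M = a / 4) (u : ι → ℝ) (hu : ∀ i, |u i| ≤ N₀) (h : ∀ i, u i ≤ -a - Cp d) :
    -(a / 4) * Real.exp (-a) < E.Φ u := by
  have hlo := E.lower u hu
  rw [hM] at hlo
  have hC := Cp_ge d
  have hsum : -((d : ℝ) * (Real.exp (-(a + Cp d)) * (a + Cp d + a / 4)))
      ≤ ∑ i, Real.exp (u i) * (u i - a / 4) := by
    have h1 : ∑ _i : ι, -(Real.exp (-(a + Cp d)) * (a + Cp d + a / 4))
        ≤ ∑ i, Real.exp (u i) * (u i - a / 4) := by
      apply Finset.sum_le_sum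
      intro i _
      apply regA_deep_term (by linarith)
      have := h i
      linarith
    rw [Finset.sum_const, Finset.card_univ, nsmul_eq_mul] at h1
    have h2 : (Fintype.card ι : ℝ) ≤ d := by exact_mod_cast hd
    have h3 : 0 ≤ Real.exp (-(a + Cp d)) * (a + Cp d + a / 4) := by
      apply mul_nonneg (Real.exp_pos _).le
      linarith
    nlinarith
  have hexp : Real.exp (-(a + Cp d)) = Real.exp (-a) / (8 * ((d : ℝ) + 1) * Real.exp 1) := by
    unfold Cp
    rw [show -(a + (Real.log (8 * ((d : ℝ) + 1)) + 1))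
      = -a - (Real.log (8 * ((d : ℝ) + 1)) + 1) by ring, Real.exp_sub, Real.exp_add,
      Real.exp_log (by positivity)]
  have hstrict : (d : ℝ) * (Real.exp (-(a + Cp d)) * (a + Cp d + a / 4))
      < (a / 4) * Real.exp (-a) := by
    rw [hexp]
    have he : (2 : ℝ) ≤ Real.exp 1 := by
      have := Real.add_one_le_exp (1 : ℝ)
      linarith
    have hd0 : (0 : ℝ) ≤ d := Nat.cast_nonneg d
    have hden : 0 < 8 * ((d : ℝ) + 1) * Real.exp 1 := by positivity
    have h1 : (d : ℝ) * (Real.exp (-a) / (8 * ((d : ℝ) + 1) * Real.exp 1) * (a + Cp d + a / 4))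
        = ((d : ℝ) * (a + Cp d + a / 4)) / (8 * ((d : ℝ) + 1) * Real.exp 1) * Real.exp (-a) := by
      ring
    rw [h1]
    apply mul_lt_mul_of_pos_right _ (Real.exp_pos _)
    rw [div_lt_iff₀ hden]
    have ha0 : 0 < a := by linarith
    have h2 : (d : ℝ) * (a + Cp d + a / 4) ≤ d * (9 / 4 * a) := by
      apply mul_le_mul_of_nonneg_left _ hd0
      linarith
    have h3 : (d : ℝ) * (9 / 4 * a) < a / 4 * (8 * ((d : ℝ) + 1) * 2) := by nlinarith
    have h4 : a / 4 * (8 * ((d : ℝ) + 1) * 2) ≤ a / 4 * (8 * ((d : ℝ) + 1) * Real.exp 1) := by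
      gcongr
    linarith
  linarith

/-- the minimum of `exp u * (u - c)` -/
theorem regA_exp_mul_sub_ge (u c : ℝ) : -Real.exp (c - 1) ≤ Real.exp u * (u - c) := by
  have h1 := Real.add_one_le_exp (c - 1 - u)
  have h2 : Real.exp (c - 1) = Real.exp u * Real.exp (c - 1 - u) := by
    rw [← Real.exp_add]
    congr 1
    ring
  rw [h2]
  have h3 := mul_le_mul_of_nonneg_left h1 (Real.exp_pos u).le
  linarith

theorem RE.upper_bd (ι : Type) [Fintype ι] (Λ M C₀ : ℝ) : ∃ U₀ : ℝ, 0 ≤ U₀ ∧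
    ∀ (A : Finset (ι → ℝ)) (N₀ : ℝ) (E : RE ι A Λ M N₀) (u : ι → ℝ), (∀ i, |u i| ≤ N₀) →
      E.Φ u ≤ C₀ → ∀ i, u i ≤ U₀ := by
  classical
  refine ⟨|Λ * M| + 1 + (|C₀| + Fintype.card ι * Real.exp (Λ * M - 1)), by positivity, ?_⟩
  intro A N₀ E u hu hC i
  by_contra hcon
  push Not at hcon
  have hlo := E.lower u hu
  rw [← Finset.add_sum_erase _ _ (Finset.mem_univ i)] at hlo
  have h1 : ∑ _j ∈ Finset.univ.erase i, -Real.exp (Λ * M - 1)
      ≤ ∑ j ∈ Finset.univ.erase i, Real.exp (u j) * (u j - Λ * M) :=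
    Finset.sum_le_sum fun j _ => regA_exp_mul_sub_ge (u j) (Λ * M)
  rw [Finset.sum_const, nsmul_eq_mul] at h1
  have h2 : ((Finset.univ.erase i).card : ℝ) ≤ Fintype.card ι := by
    exact_mod_cast Finset.card_le_univ _
  have h3 : ((Finset.univ.erase i).card : ℝ) * Real.exp (Λ * M - 1)
      ≤ Fintype.card ι * Real.exp (Λ * M - 1) :=
    mul_le_mul_of_nonneg_right h2 (Real.exp_pos _).le
  have h4 : C₀ ≤ |C₀| := le_abs_self _
  have h5 : Λ * M ≤ |Λ * M| := le_abs_self _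
  have h6 : 0 ≤ |C₀| + Fintype.card ι * Real.exp (Λ * M - 1) := by positivity
  have h7 : 1 ≤ u i - Λ * M := by linarith
  have h8 : |C₀| + Fintype.card ι * Real.exp (Λ * M - 1) < u i := by
    have : 0 ≤ |Λ * M| := abs_nonneg _
    linarith
  have h9 := Real.add_one_le_exp (u i)
  have h10 : Real.exp (u i) * 1 ≤ Real.exp (u i) * (u i - Λ * M) :=
    mul_le_mul_of_nonneg_left h7 (Real.exp_pos _).le
  linarith

theorem RE.init (E : RE ι A Λ M N₀) (hM : 0 ≤ Λ * M) {U : ℝ} (hU0 : 0 ≤ U) (u : ι → ℝ)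
    (hu : ∀ i, |u i| ≤ N₀) (hU : ∀ i, |u i| ≤ U) :
    E.Φ u ≤ Fintype.card ι * (Real.exp U * (U + Λ * M)) := by
  have hup := E.upper u hu
  refine le_trans hup ?_
  have h1 : ∑ i, Real.exp (u i) * (u i + Λ * M) ≤ ∑ _i : ι, Real.exp U * (U + Λ * M) := by
    apply Finset.sum_le_sum
    intro i _
    have h2 : u i ≤ U := le_trans (le_abs_self _) (hU i)
    calc Real.exp (u i) * (u i + Λ * M) ≤ Real.exp (u i) * (U + Λ * M) :=
          mul_le_mul_of_nonneg_left (by linarith) (Real.exp_pos _).le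
      _ ≤ Real.exp U * (U + Λ * M) :=
          mul_le_mul_of_nonneg_right (Real.exp_le_exp.2 h2) (by linarith)
  rw [Finset.sum_const, Finset.card_univ, nsmul_eq_mul] at h1
  exact h1

end Vale.Agent.P072
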