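import Vale.Agent.Lib.P072.Flux
import Vale.Agent.Lib.P072.LF

/-!
# P072: the flux inequality for rounded entropies on a set of coordinates

`FluxIneq.re`: use `g y = ∑ i, E.W j i * y (e i)`. If `g y' < g y` then `a ⬝ᵥ E.W j > 0` for the
difference vector `a i = y (e i) - y' (e i)`, so `a ⬝ᵥ u > M` by `zero` and `nonpos` (where
`u i = log (x (e i))`). The other coordinates contribute at most `CA * b` in absolute value, so
`∑ i, (y i - y' i) * log (x i) > M - CA * b ≥ M₁`, which is `exp M₁ * monom x y' ≤ monom x y`.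

`hasRE_all`: take the maxima over the finitely many `I` (`hasRE` and `HasRE.mono`).
-/

namespace Vale.Agent.P072

open Matrix Set

open Classical in
/-- the differences of complexes, restricted along `e` -/
noncomputable def Network.diffs {d : ℕ} (N : Network d) {ι : Type} [Fintype ι] (e : ι ↪ Fin d) :
    Finset (ι → ℝ) :=
  (N.complexes ×ˢ N.complexes).image fun p i => (p.1 (e i) : ℝ) - (p.2 (e i) : ℝ)

theorem Network.exists_CA {d : ℕ} (N : Network d) : ∃ CA : ℝ, 0 ≤ CA ∧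
    ∀ y ∈ N.complexes, ∀ y' ∈ N.complexes, ∑ i, |(y i : ℝ) - (y' i : ℝ)| ≤ CA := by
  refine ⟨∑ p ∈ N.complexes ×ˢ N.complexes, ∑ i, |(p.1 i : ℝ) - (p.2 i : ℝ)|,
    Finset.sum_nonneg fun p _ => Finset.sum_nonneg fun i _ => abs_nonneg _, ?_⟩
  intro y hy y' hy'
  exact Finset.single_le_sum (f := fun p : Cx d × Cx d => ∑ i, |(p.1 i : ℝ) - (p.2 i : ℝ)|)
    (fun p _ => Finset.sum_nonneg fun i _ => abs_nonneg _)
    (Finset.mem_product.2 ⟨hy, hy'⟩ : (y, y') ∈ N.complexes ×ˢ N.complexes)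

/-- a monomial in logarithmic coordinates -/
theorem regB_monom_exp {d : ℕ} {x : Fin d → ℝ} (hx : ∀ i, 0 < x i) (y : Cx d) :
    monom x y = Real.exp (∑ i, (y i : ℝ) * Real.log (x i)) := by
  unfold monom
  rw [Real.exp_sum]
  apply Finset.prod_congr rfl
  intro i _
  rw [mul_comm, ← Real.rpow_def_of_pos (hx i), Real.rpow_natCast]

/-- the coordinates outside the range contribute little -/
theorem regB_outside {d : ℕ} {ι : Type} [Fintype ι] (e : ι ↪ Fin d) {b CA : ℝ} (v l : Fin d → ℝ)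
    (hv : ∑ i, |v i| ≤ CA) (hb : 0 ≤ b) (hout : ∀ i, i ∉ Set.range e → |l i| ≤ b) :
    (∑ i, v (e i) * l (e i)) - CA * b ≤ ∑ i, v i * l i := by
  classical
  have h1 : ∑ i, v (e i) * l (e i) = ∑ i ∈ Finset.univ.map e, v i * l i := by
    rw [Finset.sum_map]
  have h2 := Finset.sum_add_sum_compl (Finset.univ.map e) (fun i => v i * l i)
  have h3 : -(∑ i ∈ (Finset.univ.map e)ᶜ, |v i| * b) ≤ ∑ i ∈ (Finset.univ.map e)ᶜ, v i * l i := by
    rw [← Finset.sum_neg_distrib]
    apply Finset.sum_le_sum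
    intro i hi
    have hi' : i ∉ Set.range e := by
      rintro ⟨j, hj⟩
      rw [Finset.mem_compl] at hi
      exact hi (Finset.mem_map.2 ⟨j, Finset.mem_univ j, hj⟩)
    have h4 : |v i * l i| ≤ |v i| * b := by
      rw [abs_mul]
      exact mul_le_mul_of_nonneg_left (hout i hi') (abs_nonneg _)
    have h5 := neg_abs_le (v i * l i)
    linarith
  have h6 : ∑ i ∈ (Finset.univ.map e)ᶜ, |v i| * b ≤ CA * b := by
    rw [← Finset.sum_mul]
    apply mul_le_mul_of_nonneg_right _ hb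
    exact (Finset.sum_le_sum_of_subset_of_nonneg (Finset.subset_univ _)
      (fun i _ _ => abs_nonneg _)).trans hv
  rw [h1]
  linarith

/-- the pairing with the field -/
theorem regB_field {d : ℕ} (N : Network d) (k : Cx d × Cx d → ℝ) {ι : Type} [Fintype ι]
    (e : ι ↪ Fin d) (w : ι → ℝ) (x : Fin d → ℝ) :
    (w ⬝ᵥ fun i => N.field k x (e i)) =
      ∑ r ∈ N.reactions, k r * monom x r.1 *
        (∑ i, w i * (r.2 (e i) : ℝ) - ∑ i, w i * (r.1 (e i) : ℝ)) := by
  unfold dotProduct Network.field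
  have h1 : ∀ i, w i * (∑ r ∈ N.reactions, (k r * monom x r.1) • rvec r) (e i) =
      ∑ r ∈ N.reactions, k r * monom x r.1 * (w i * (r.2 (e i) : ℝ) - w i * (r.1 (e i) : ℝ)) := by
    intro i
    rw [Finset.sum_apply, Finset.mul_sum]
    apply Finset.sum_congr rfl
    intro r _
    rw [Pi.smul_apply, smul_eq_mul]
    unfold rvec
    ring
  rw [Finset.sum_congr rfl (fun i _ => h1 i), Finset.sum_comm]
  apply Finset.sum_congr rfl
  intro r _
  rw [← Finset.mul_sum, Finset.sum_sub_distrib]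

theorem Network.FluxIneq.re {d : ℕ} {N : Network d} {k : Cx d × Cx d → ℝ} {M₁ : ℝ}
    (hF : N.FluxIneq k M₁) {ι : Type} [Fintype ι] (e : ι ↪ Fin d) {Λ M N₀ b CA : ℝ}
    (E : RE ι (N.diffs e) Λ M N₀)
    (hCA : ∀ y ∈ N.complexes, ∀ y' ∈ N.complexes, ∑ i, |(y i : ℝ) - (y' i : ℝ)| ≤ CA)
    (hb : 0 ≤ b) (hM : CA * b + M₁ ≤ M) (x : Fin d → ℝ) (hx : ∀ i, 0 < x i)
    (hbox : ∀ i, |Real.log (x (e i))| ≤ N₀)
    (hout : ∀ i, i ∉ Set.range e → |Real.log (x i)| ≤ b)
    (j : Fin E.n) (hj : (fun i => Real.log (x (e i))) ∈ E.D j) :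
    (E.W j ⬝ᵥ fun i => N.field k x (e i)) ≤ 0 ∧
      ((∃ r ∈ N.reactions, (E.W j ⬝ᵥ fun i => rvec r (e i)) ≠ 0) →
        (E.W j ⬝ᵥ fun i => N.field k x (e i)) < 0) := by
  classical
  set g : Cx d → ℝ := fun y => ∑ i, E.W j i * (y (e i) : ℝ) with hg
  have hmono : ∀ y ∈ N.complexes, ∀ y' ∈ N.complexes, g y' < g y →
      Real.exp M₁ * monom x y' ≤ monom x y := by
    intro y hy y' hy' hlt
    set a : ι → ℝ := fun i => (y (e i) : ℝ) - (y' (e i) : ℝ) with ha
    have haA : a ∈ N.diffs e := by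
      unfold Network.diffs
      rw [Finset.mem_image]
      exact ⟨(y, y'), Finset.mem_product.2 ⟨hy, hy'⟩, rfl⟩
    have haW : a ⬝ᵥ E.W j = g y - g y' := by
      rw [hg]
      unfold dotProduct
      rw [← Finset.sum_sub_distrib]
      apply Finset.sum_congr rfl
      intro i _
      rw [ha]
      ring
    have hpos : 0 < a ⬝ᵥ E.W j := by
      rw [haW]
      linarith
    have hgt : M < a ⬝ᵥ (fun i => Real.log (x (e i))) := by
      by_contra hcon
      push Not at hcon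
      rcases le_or_gt (-M) (a ⬝ᵥ (fun i => Real.log (x (e i)))) with h | h
      · have := E.zero j _ hj hbox a haA (abs_le.2 ⟨h, hcon⟩)
        linarith
      · have := E.nonpos j _ hj hbox a haA h
        linarith
    have hout' := regB_outside e (fun i => (y i : ℝ) - (y' i : ℝ)) (fun i => Real.log (x i))
      (hCA y hy y' hy') hb hout
    have hdot : a ⬝ᵥ (fun i => Real.log (x (e i))) =
        ∑ i, ((y (e i) : ℝ) - (y' (e i) : ℝ)) * Real.log (x (e i)) := rfl
    rw [hdot] at hgt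
    have hsplit : ∑ i, ((y i : ℝ) - (y' i : ℝ)) * Real.log (x i) =
        ∑ i, (y i : ℝ) * Real.log (x i) - ∑ i, (y' i : ℝ) * Real.log (x i) := by
      rw [← Finset.sum_sub_distrib]
      apply Finset.sum_congr rfl
      intro i _
      ring
    rw [hsplit] at hout'
    rw [regB_monom_exp hx y, regB_monom_exp hx y', ← Real.exp_add, Real.exp_le_exp]
    linarith
  have hmain := hF x hx g hmono
  rw [regB_field]
  refine ⟨hmain.1, ?_⟩
  rintro ⟨r, hr, hne⟩
  apply hmain.2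
  refine ⟨r, hr, ?_⟩
  intro heq
  apply hne
  have h1 : (E.W j ⬝ᵥ fun i => rvec r (e i)) = g r.2 - g r.1 := by
    rw [hg]
    unfold dotProduct rvec
    rw [← Finset.sum_sub_distrib]
    apply Finset.sum_congr rfl
    intro i _
    ring
  rw [h1, heq, sub_self]

theorem hasRE_all {d : ℕ} (N : Network d) : ∃ Λ M₀ : ℝ, 1 ≤ Λ ∧ 1 ≤ M₀ ∧
    ∀ I : Finset (Fin d), HasRE {i // i ∈ I} (N.diffs (Function.Embedding.subtype (· ∈ I))) Λ M₀ := by
  have h : ∀ I : Finset (Fin d), ∃ p : ℝ × ℝ, 1 ≤ p.1 ∧ 1 ≤ p.2 ∧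
      HasRE {i // i ∈ I} (N.diffs (Function.Embedding.subtype (· ∈ I))) p.1 p.2 := by
    intro I
    obtain ⟨Λ, M₀, h1, h2, h3⟩ :=
      hasRE {i // i ∈ I} (N.diffs (Function.Embedding.subtype (· ∈ I)))
    exact ⟨(Λ, M₀), h1, h2, h3⟩
  choose p hp1 hp2 hp3 using h
  have hle1 : ∀ I, (p I).1 ≤ ∑ J, (p J).1 := fun I =>
    Finset.single_le_sum (f := fun J => (p J).1) (fun J _ => zero_le_one.trans (hp1 J))
      (Finset.mem_univ I)
  have hle2 : ∀ I, (p I).2 ≤ ∑ J, (p J).2 := fun I =>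
    Finset.single_le_sum (f := fun J => (p J).2) (fun J _ => zero_le_one.trans (hp2 J))
      (Finset.mem_univ I)
  refine ⟨∑ J, (p J).1, ∑ J, (p J).2, (hp1 ∅).trans (hle1 ∅), (hp2 ∅).trans (hle2 ∅), ?_⟩
  intro I
  exact (hp3 I).mono (hle1 I) (hle2 I)
    (zero_le_one.trans ((hp2 I).trans (hle2 I)))

end Vale.Agent.P072
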