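import Mathlib

/-!
# P072: threshold systems (sorted coordinates)
-/

namespace Vale.Agent.P072

open Matrix

/-- A system of thresholds in the coordinates `0, ..., d - 1`. The vectors `v ∈ V k` are monic at
`k`; the threshold of `v` for the `k`-th coordinate of `w` is `w k - v ⬝ᵥ w`, which depends only
on the coordinates below `k`. -/
structure Sys (d : ℕ) where
  V : Fin d → Finset (Fin d → ℝ)
  g : ℝ
  C : ℝ
  g_pos : 0 < g
  g_le : g ≤ 1
  one_le_C : 1 ≤ C
  monic : ∀ k, ∀ v ∈ V k, v k = 1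
  supp : ∀ k, ∀ v ∈ V k, ∀ i, k < i → v i = 0
  sum_le : ∀ k, ∀ v ∈ V k, ∑ i, |v i| ≤ C
  tie : ∀ j k : Fin d, (k : ℕ) = j + 1 → (Pi.single k 1 - Pi.single j 1 : Fin d → ℝ) ∈ V k
  elim : ∀ k, ∀ v ∈ V k, ∀ v' ∈ V k, v ≠ v' →
    ∃ j, j < k ∧ ∃ r ∈ V j, ∃ γ : ℝ, g ≤ |γ| ∧ v - v' = γ • r

/-- The largest radius. -/
noncomputable def Lc (d : ℕ) (K M : ℝ) : ℝ := M * K ^ (2 ^ d)

/-- The logarithmic error. -/
noncomputable def kap (d : ℕ) (K M : ℝ) : ℝ := Real.log (16 * (d + 1) * (Lc d K M + 3))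

/-- The inequalities between the parameters. -/
structure Par {d : ℕ} (s : Sys d) (K M : ℝ) : Prop where
  K8 : 8 ≤ K
  KC : 16 * s.C ≤ K
  Kg : 8 ≤ s.g ^ (d + 1) * K
  M1 : 1 ≤ M
  Mk : 8 * s.C * (kap d K M + 4) ≤ M
  Mexp : (d + 1) * (1 + 3 * Lc d K M) * Real.exp (4 - M) ≤ 1 / 16

namespace Sys

variable {d : ℕ} (s : Sys d)

/-- The `k`-th coordinate is active: it is equal to a threshold. -/
def act (w : Fin d → ℝ) (k : Fin d) : Prop := ∃ v ∈ s.V k, v ⬝ᵥ w = 0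

open Classical in
/-- The binary number of the set of active coordinates below `k`. -/
noncomputable def expo (w : Fin d → ℝ) (k : Fin d) : ℕ :=
  ∑ j : Fin d, if j < k ∧ s.act w j then 2 ^ (d - 1 - (j : ℕ)) else 0

/-- The radius at the coordinate `k`. -/
noncomputable def ell (K M : ℝ) (w : Fin d → ℝ) (k : Fin d) : ℝ :=
  M * K ^ (s.expo w k + 2 ^ (d - 1 - (k : ℕ)))

open Classical in
/-- The radius at active coordinates, and zero at free coordinates. -/
noncomputable def rad (K M : ℝ) (w : Fin d → ℝ) (k : Fin d) : ℝ :=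
  if s.act w k then s.ell K M w k else 0

/-- The cost of the coordinate `k`. -/
noncomputable def cst (K M : ℝ) (w : Fin d → ℝ) (k : Fin d) : ℝ :=
  Real.exp (w k - s.rad K M w k)

/-- Membership condition at the coordinate `k`. -/
def Mem (K M : ℝ) (w : Fin d → ℝ) (k : Fin d) : Prop :=
  s.act w k ∨ ((∃ z : ℤ, w k = z) ∧ ∀ v ∈ s.V k, s.ell K M w k ≤ |v ⬝ᵥ w|)

/-- The set of admissible vectors. -/
def Wset (K M N : ℝ) : Set (Fin d → ℝ) :=
  {w | (∀ k, s.Mem K M w k) ∧ Antitone w ∧ ∀ k, |w k| ≤ N}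

/-- The value of the affine function of `w` at `x = exp u`. -/
noncomputable def val (K M : ℝ) (w u : Fin d → ℝ) : ℝ :=
  ∑ k, (w k * Real.exp (u k) - s.cst K M w k)

/-- `w` is a maximiser at `u`. -/
def IsMax (K M N : ℝ) (w u : Fin d → ℝ) : Prop :=
  w ∈ s.Wset K M N ∧ ∀ w' ∈ s.Wset K M N, s.val K M w' u ≤ s.val K M w u

end Sys

/-- The vector with the coordinates of `w` below `k` and `z` from `k` on. -/
def plat {d : ℕ} (w : Fin d → ℝ) (k : Fin d) (z : ℝ) : Fin d → ℝ := fun j => if j < k then w j else z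

end Vale.Agent.P072
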