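import Vale.Agent.Lib.P072.Sys

/-!
# P072: basic facts on threshold systems
-/

namespace Vale.Agent.P072

open Matrix

namespace Sys

variable {d : ℕ} (s : Sys d) {K M : ℝ} {w w' : Fin d → ℝ} {k : Fin d}

/-- the dot product with a vector of `V k` depends only on the coordinates up to `k` -/
theorem dot_congr (h : ∀ i, i ≤ k → w i = w' i) {v : Fin d → ℝ} (hv : v ∈ s.V k) :
    v ⬝ᵥ w = v ⬝ᵥ w' := by
  unfold dotProduct
  refine Finset.sum_congr rfl fun i _ => ?_
  rcases le_or_gt i k with hi | hi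
  · rw [h i hi]
  · rw [s.supp k v hv i hi, zero_mul, zero_mul]

/-- the threshold `w k - v ⬝ᵥ w` depends only on the coordinates below `k` -/
theorem thr_congr (h : ∀ i, i < k → w i = w' i) {v : Fin d → ℝ} (hv : v ∈ s.V k) :
    w k - v ⬝ᵥ w = w' k - v ⬝ᵥ w' := by
  have h1 : ∀ x : Fin d → ℝ, v ⬝ᵥ x = x k + ∑ i ∈ Finset.univ.erase k, v i * x i := by
    intro x
    unfold dotProduct
    rw [← Finset.add_sum_erase _ _ (Finset.mem_univ k), s.monic k v hv, one_mul]
  rw [h1 w, h1 w']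
  have h2 : ∑ i ∈ Finset.univ.erase k, v i * w i = ∑ i ∈ Finset.univ.erase k, v i * w' i := by
    refine Finset.sum_congr rfl fun i hi => ?_
    rcases lt_trichotomy i k with hi' | hi' | hi'
    · rw [h i hi']
    · exact absurd hi' (Finset.ne_of_mem_erase hi)
    · rw [s.supp k v hv i hi', zero_mul, zero_mul]
  rw [h2]
  ring

theorem act_congr (h : ∀ i, i ≤ k → w i = w' i) : s.act w k ↔ s.act w' k := by
  unfold act
  constructor
  · rintro ⟨v, hv, h0⟩
    exact ⟨v, hv, by rw [← s.dot_congr h hv]; exact h0⟩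
  · rintro ⟨v, hv, h0⟩
    exact ⟨v, hv, by rw [s.dot_congr h hv]; exact h0⟩

theorem expo_congr (h : ∀ i, i < k → w i = w' i) : s.expo w k = s.expo w' k := by
  unfold expo
  refine Finset.sum_congr rfl fun j _ => ?_
  by_cases hj : j < k
  · have := s.act_congr (k := j) (w := w) (w' := w') (fun i hi => h i (lt_of_le_of_lt hi hj))
    by_cases ha : s.act w j
    · rw [if_pos ⟨hj, ha⟩, if_pos ⟨hj, this.1 ha⟩]
    · rw [if_neg fun h' => ha h'.2, if_neg fun h' => ha (this.2 h'.2)]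
  · rw [if_neg fun h' => hj h'.1, if_neg fun h' => hj h'.1]

theorem ell_congr (h : ∀ i, i < k → w i = w' i) : s.ell K M w k = s.ell K M w' k := by
  unfold ell
  rw [s.expo_congr h]

theorem rad_congr (h : ∀ i, i ≤ k → w i = w' i) : s.rad K M w k = s.rad K M w' k := by
  unfold rad
  have h1 := s.act_congr h
  rw [s.ell_congr (K := K) (M := M) (fun i hi => h i hi.le)]
  by_cases ha : s.act w k
  · rw [if_pos ha, if_pos (h1.1 ha)]
  · rw [if_neg ha, if_neg fun h' => ha (h1.2 h')]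

theorem cst_congr (h : ∀ i, i ≤ k → w i = w' i) : s.cst K M w k = s.cst K M w' k := by
  unfold cst
  rw [s.rad_congr h, h k le_rfl]

theorem mem_congr (h : ∀ i, i ≤ k → w i = w' i) : s.Mem K M w k ↔ s.Mem K M w' k := by
  unfold Mem
  rw [s.act_congr h, s.ell_congr (K := K) (M := M) (fun i hi => h i hi.le), h k le_rfl]
  refine or_congr_right (and_congr_right fun _ => forall₂_congr fun v hv => ?_)
  rw [s.dot_congr h hv]

theorem rad_act (h : s.act w k) : s.rad K M w k = s.ell K M w k := by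
  unfold rad
  rw [if_pos h]

theorem rad_free (h : ¬ s.act w k) : s.rad K M w k = 0 := by
  unfold rad
  rw [if_neg h]

/-- the tie vector -/
theorem tie_dot {j : Fin d} (_h : (k : ℕ) = j + 1) :
    (Pi.single k 1 - Pi.single j 1 : Fin d → ℝ) ⬝ᵥ w = w k - w j := by
  rw [sub_dotProduct, single_dotProduct, single_dotProduct, one_mul, one_mul]

/-- equal neighbours: the second one is active -/
theorem act_of_tie {j : Fin d} (h : (k : ℕ) = j + 1) (hw : w k = w j) : s.act w k := by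
  refine ⟨_, s.tie j k h, ?_⟩
  rw [tie_dot h, hw, sub_self]

theorem sum_pow (d m : ℕ) (hm : m ≤ d) :
    (∑ j : Fin d, if (j : ℕ) < m then 2 ^ (d - 1 - (j : ℕ)) else 0) + 2 ^ (d - m) = 2 ^ d := by
  induction m with
  | zero => simp
  | succ m ih =>
    have ih' := ih (by omega)
    have h3 : (∑ j : Fin d, if (j : ℕ) < m + 1 then 2 ^ (d - 1 - (j : ℕ)) else 0) =
        (∑ j : Fin d, if (j : ℕ) < m then 2 ^ (d - 1 - (j : ℕ)) else 0) + 2 ^ (d - 1 - m) := by
      have h4 : ∀ j : Fin d, (if (j : ℕ) < m + 1 then 2 ^ (d - 1 - (j : ℕ)) else 0) =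
          (if (j : ℕ) < m then 2 ^ (d - 1 - (j : ℕ)) else 0) +
          (if j = (⟨m, by omega⟩ : Fin d) then 2 ^ (d - 1 - m) else 0) := by
        intro j
        by_cases hj : (j : ℕ) < m
        · have : j ≠ (⟨m, by omega⟩ : Fin d) := by
            intro h; rw [h] at hj; simp at hj
          simp [hj, this, Nat.lt_succ_of_lt hj]
        · by_cases hj2 : (j : ℕ) = m
          · have : j = (⟨m, by omega⟩ : Fin d) := Fin.ext hj2
            simp [this]
          · have : j ≠ (⟨m, by omega⟩ : Fin d) := by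
              intro h; apply hj2; rw [h]
            have h5 : ¬ (j : ℕ) < m + 1 := by omega
            simp [hj, this, h5]
      rw [Finset.sum_congr rfl fun j _ => h4 j, Finset.sum_add_distrib]
      simp
    rw [h3]
    have h6 : 2 ^ (d - m) = 2 ^ (d - 1 - m) + 2 ^ (d - (m + 1)) := by
      have h7 : d - m = (d - (m + 1)) + 1 := by omega
      have h8 : d - 1 - m = d - (m + 1) := by omega
      rw [h7, h8, pow_succ]; ring
    omega

theorem expo_add_lt : s.expo w k + 2 ^ (d - 1 - (k : ℕ)) < 2 ^ d := by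
  classical
  have h1 : s.expo w k ≤ ∑ j : Fin d, if (j : ℕ) < (k : ℕ) then 2 ^ (d - 1 - (j : ℕ)) else 0 := by
    unfold expo
    refine Finset.sum_le_sum fun j _ => ?_
    by_cases hj : j < k
    · have hj' : (j : ℕ) < (k : ℕ) := hj
      by_cases ha : s.act w j
      · simp [hj, hj', ha]
      · simp [hj', ha]
    · simp [hj]
  have h3 := sum_pow d (k : ℕ) k.2.le
  have h5 : 2 ^ (d - (k : ℕ)) = 2 * 2 ^ (d - 1 - (k : ℕ)) := by
    have h7 : d - (k : ℕ) = (d - 1 - (k : ℕ)) + 1 := by omega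
    rw [h7, pow_succ]; ring
  have h6 : 0 < 2 ^ (d - 1 - (k : ℕ)) := by positivity
  omega

variable {s}

theorem one_le_K (hP : Par s K M) : 1 ≤ K := le_trans (by norm_num) hP.K8

theorem ell_ge (hP : Par s K M) : M * K ≤ s.ell K M w k := by
  unfold ell
  have h1 : K ^ 1 ≤ K ^ (s.expo w k + 2 ^ (d - 1 - (k : ℕ))) := by
    refine pow_le_pow_right₀ (one_le_K hP) ?_
    have : 0 < 2 ^ (d - 1 - (k : ℕ)) := by positivity
    omega
  rw [pow_one] at h1
  exact mul_le_mul_of_nonneg_left h1 (le_trans zero_le_one hP.M1)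

theorem M_le_ell (hP : Par s K M) : M ≤ s.ell K M w k := by
  refine le_trans ?_ (ell_ge hP)
  have := one_le_K hP
  have := hP.M1
  nlinarith

theorem eight_le_ell (hP : Par s K M) : 8 ≤ s.ell K M w k := by
  refine le_trans ?_ (ell_ge hP)
  have := hP.K8
  have := hP.M1
  nlinarith

theorem ell_le (hP : Par s K M) : K * s.ell K M w k ≤ Lc d K M := by
  unfold ell Lc
  have h1 : K ^ (s.expo w k + 2 ^ (d - 1 - (k : ℕ)) + 1) ≤ K ^ (2 ^ d) :=
    pow_le_pow_right₀ (one_le_K hP) s.expo_add_lt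
  calc K * (M * K ^ (s.expo w k + 2 ^ (d - 1 - (k : ℕ)))) =
      M * K ^ (s.expo w k + 2 ^ (d - 1 - (k : ℕ)) + 1) := by rw [pow_succ]; ring
    _ ≤ _ := mul_le_mul_of_nonneg_left h1 (le_trans zero_le_one hP.M1)

theorem ell_mono_aux (hP : Par s K M) {j : Fin d}
    (h : s.expo w j + 2 ^ (d - 1 - (j : ℕ)) + 1 ≤ s.expo w k + 2 ^ (d - 1 - (k : ℕ))) :
    K * s.ell K M w j ≤ s.ell K M w k := by
  unfold ell
  have h1 := pow_le_pow_right₀ (one_le_K hP) h
  calc K * (M * K ^ (s.expo w j + 2 ^ (d - 1 - (j : ℕ)))) =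
      M * K ^ (s.expo w j + 2 ^ (d - 1 - (j : ℕ)) + 1) := by rw [pow_succ]; ring
    _ ≤ _ := mul_le_mul_of_nonneg_left h1 (le_trans zero_le_one hP.M1)

theorem ell_of_act (hP : Par s K M) {j : Fin d} (hj : j < k) (h : s.act w j) :
    K * s.ell K M w j ≤ s.ell K M w k := by
  classical
  apply ell_mono_aux hP
  have h1 : s.expo w j + 2 ^ (d - 1 - (j : ℕ)) ≤ s.expo w k := by
    have h2 : 2 ^ (d - 1 - (j : ℕ)) = ∑ i : Fin d, if i = j then 2 ^ (d - 1 - (i : ℕ)) else 0 := by
      simp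
    unfold expo
    rw [h2, ← Finset.sum_add_distrib]
    refine Finset.sum_le_sum fun i _ => ?_
    by_cases hi : i = j
    · subst hi
      simp [hj, h]
    · by_cases hi2 : i < j
      · have : i < k := hi2.trans hj
        simp [hi, hi2, this]
      · simp [hi, hi2]
  have h3 : 0 < 2 ^ (d - 1 - (k : ℕ)) := by positivity
  omega

theorem ell_of_not_act (hP : Par s K M) {j : Fin d} (hj : j < k) (h : ¬ s.act w j) :
    K * s.ell K M w k ≤ s.ell K M w j := by
  classical
  apply ell_mono_aux hP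
  have hjk : (j : ℕ) < (k : ℕ) := hj
  have h1 : s.expo w k ≤ s.expo w j +
      ∑ i : Fin d, if (j : ℕ) < (i : ℕ) ∧ (i : ℕ) < (k : ℕ) then 2 ^ (d - 1 - (i : ℕ)) else 0 := by
    unfold expo
    rw [← Finset.sum_add_distrib]
    refine Finset.sum_le_sum fun i _ => ?_
    rcases lt_trichotomy i j with hi | hi | hi
    · have h2 : i < k := hi.trans hj
      simp [hi, h2]
    · subst hi
      simp [h]
    · have h3 : ¬ i < j := not_lt_of_gt hi
      have hi' : (j : ℕ) < (i : ℕ) := hi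
      by_cases h4 : i < k
      · have h4' : (i : ℕ) < (k : ℕ) := h4
        by_cases ha : s.act w i
        · simp [h3, h4, h4', hi', ha]
        · simp [ha]
      · simp [h4]
  have h2 : (∑ i : Fin d, if (j : ℕ) < (i : ℕ) ∧ (i : ℕ) < (k : ℕ) then 2 ^ (d - 1 - (i : ℕ)) else 0) +
      (∑ i : Fin d, if (i : ℕ) < (j : ℕ) + 1 then 2 ^ (d - 1 - (i : ℕ)) else 0) =
      ∑ i : Fin d, if (i : ℕ) < (k : ℕ) then 2 ^ (d - 1 - (i : ℕ)) else 0 := by
    rw [← Finset.sum_add_distrib]
    refine Finset.sum_congr rfl fun i _ => ?_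
    by_cases h3 : (i : ℕ) < (j : ℕ) + 1
    · have h4 : ¬ (j : ℕ) < (i : ℕ) := by omega
      have h5 : (i : ℕ) < (k : ℕ) := by omega
      simp [h3, h4, h5]
    · have h4 : (j : ℕ) < (i : ℕ) := by omega
      simp [h3, h4]
  have h3 := sum_pow d (k : ℕ) k.2.le
  have h4 := sum_pow d ((j : ℕ) + 1) j.2
  have h5 : 2 ^ (d - (k : ℕ)) = 2 * 2 ^ (d - 1 - (k : ℕ)) := by
    have h7 : d - (k : ℕ) = (d - 1 - (k : ℕ)) + 1 := by omega
    rw [h7, pow_succ]; ring
  have h6 : 0 < 2 ^ (d - 1 - (k : ℕ)) := by positivity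
  have h7 : d - ((j : ℕ) + 1) = d - 1 - (j : ℕ) := by omega
  rw [h7] at h4
  omega

theorem rad_nonneg (hP : Par s K M) : 0 ≤ s.rad K M w k := by
  have h8 := eight_le_ell (w := w) (k := k) hP
  by_cases h : s.act w k
  · rw [s.rad_act h]; linarith
  · rw [s.rad_free h]

theorem rad_le (hP : Par s K M) : s.rad K M w k ≤ s.ell K M w k := by
  have h8 := eight_le_ell (w := w) (k := k) hP
  by_cases h : s.act w k
  · rw [s.rad_act h]
  · rw [s.rad_free h]; linarith

theorem Lc_ge (hP : Par s K M) : M ≤ Lc d K M := by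
  unfold Lc
  have h1 : (1 : ℝ) ≤ K ^ (2 ^ d) := one_le_pow₀ (one_le_K hP)
  have := hP.M1
  nlinarith

theorem kap_pos (hP : Par s K M) : 2 ≤ kap d K M := by
  unfold kap
  have hL := Lc_ge hP
  have hM := hP.M1
  have h0 : 0 < 16 * ((d : ℝ) + 1) * (Lc d K M + 3) := by
    have : 0 < Lc d K M + 3 := by linarith
    positivity
  rw [Real.le_log_iff_exp_le h0]
  have h1 : Real.exp 2 ≤ 9 := by
    have h2 : Real.exp 2 = Real.exp 1 * Real.exp 1 := by rw [← Real.exp_add]; norm_num
    have h3 := Real.exp_one_lt_d9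
    have h4 := Real.exp_pos 1
    rw [h2]
    nlinarith
  have h5 : (0 : ℝ) ≤ d := Nat.cast_nonneg d
  nlinarith

/-- a free coordinate is strictly below its predecessor -/
theorem lt_of_free {j : Fin d} (h : (k : ℕ) = j + 1) (hk : ¬ s.act w k) (hw : Antitone w) :
    w k < w j := by
  have hjk : j ≤ k := by
    rw [Fin.le_def]; omega
  refine lt_of_le_of_ne (hw hjk) fun he => hk (s.act_of_tie h he)

end Sys

end Vale.Agent.P072
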